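import Mathlib

/-!
# Row 266, S0404 Step 4: analytic distributions on open sets of a normed space (local part)

A distribution `K : E → Submodule ℂ E` is analytic at `y₀` if near `y₀` it is the range of an
analytic idempotent `Π`.
-/

set_option autoImplicit false
open scoped Topology
open Set Filter Module

namespace Crest.Agent.R266.DL

noncomputable section

variable {E : Type*} [NormedAddCommGroup E] [NormedSpace ℂ E]

/-- near `y₀` the distribution `K` is the range of the analytic idempotent `Pi` -/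
structure IsProjAt (K : E → Submodule ℂ E) (Pi : E → E →L[ℂ] E) (y₀ : E) : Prop where
  an : AnalyticAt ℂ Pi y₀
  idem : ∀ᶠ y in 𝓝 y₀, ∀ v, Pi y (Pi y v) = Pi y v
  mem : ∀ᶠ y in 𝓝 y₀, ∀ v, v ∈ K y ↔ Pi y v = v

/-- analytic distributions -/
def ADist (K : E → Submodule ℂ E) (y₀ : E) : Prop := ∃ Pi : E → E →L[ℂ] E, IsProjAt K Pi y₀

lemma IsProjAt.idem_self {K : E → Submodule ℂ E} {Pi : E → E →L[ℂ] E} {y₀ : E}
    (h : IsProjAt K Pi y₀) (v : E) : Pi y₀ (Pi y₀ v) = Pi y₀ v := h.idem.self_of_nhds v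

lemma IsProjAt.mem_self {K : E → Submodule ℂ E} {Pi : E → E →L[ℂ] E} {y₀ : E}
    (h : IsProjAt K Pi y₀) (v : E) : v ∈ K y₀ ↔ Pi y₀ v = v := h.mem.self_of_nhds v

lemma IsProjAt.apply_mem {K : E → Submodule ℂ E} {Pi : E → E →L[ℂ] E} {y₀ : E}
    (h : IsProjAt K Pi y₀) (v : E) : Pi y₀ v ∈ K y₀ := (h.mem_self _).2 (h.idem_self v)

lemma IsProjAt.eventually_apply_mem {K : E → Submodule ℂ E} {Pi : E → E →L[ℂ] E} {y₀ : E}
    (h : IsProjAt K Pi y₀) : ∀ᶠ y in 𝓝 y₀, ∀ v, Pi y v ∈ K y := by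
  filter_upwards [h.idem, h.mem] with y h1 h2 v
  exact (h2 _).2 (h1 v)

lemma IsProjAt.eventually [CompleteSpace E] {K : E → Submodule ℂ E} {Pi : E → E →L[ℂ] E} {y₀ : E}
    (h : IsProjAt K Pi y₀) : ∀ᶠ y in 𝓝 y₀, IsProjAt K Pi y := by
  filter_upwards [h.an.eventually_analyticAt, h.idem.eventually_nhds, h.mem.eventually_nhds]
    with y h1 h2 h3
  exact ⟨h1, h2, h3⟩

lemma ADist.eventually [CompleteSpace E] {K : E → Submodule ℂ E} {y₀ : E}
    (h : ADist K y₀) : ∀ᶠ y in 𝓝 y₀, ADist K y := by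
  obtain ⟨Pi, h⟩ := h
  filter_upwards [h.eventually] with y hy
  exact ⟨Pi, hy⟩

lemma IsProjAt.congr {K K' : E → Submodule ℂ E} {Pi : E → E →L[ℂ] E} {y₀ : E}
    (h : IsProjAt K Pi y₀) (hK : ∀ᶠ y in 𝓝 y₀, K' y = K y) : IsProjAt K' Pi y₀ := by
  refine ⟨h.an, h.idem, ?_⟩
  filter_upwards [h.mem, hK] with y h1 h2 v
  rw [h2]; exact h1 v

lemma ADist.congr {K K' : E → Submodule ℂ E} {y₀ : E}
    (h : ADist K y₀) (hK : ∀ᶠ y in 𝓝 y₀, K' y = K y) : ADist K' y₀ := by
  obtain ⟨Pi, h⟩ := h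
  exact ⟨Pi, h.congr hK⟩

/-! ### tensor -/

/-- the integrability tensor of an idempotent -/
def th (Pi : E → E →L[ℂ] E) (y : E) (u v : E) : E := fderiv ℂ Pi y u v - fderiv ℂ Pi y v u

lemma th_add_left (Pi : E → E →L[ℂ] E) (y : E) (u u' v : E) :
    th Pi y (u + u') v = th Pi y u v + th Pi y u' v := by
  simp only [th, map_add, add_apply]; abel

lemma th_smul_left (Pi : E → E →L[ℂ] E) (y : E) (c : ℂ) (u v : E) :
    th Pi y (c • u) v = c • th Pi y u v := by
  simp only [th, map_smul, smul_apply, smul_sub]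

lemma th_antisymm (Pi : E → E →L[ℂ] E) (y : E) (u v : E) : th Pi y u v = - th Pi y v u := by
  simp only [th]; abel

lemma th_add_right (Pi : E → E →L[ℂ] E) (y : E) (u v v' : E) :
    th Pi y u (v + v') = th Pi y u v + th Pi y u v' := by
  simp only [th, map_add, add_apply]; abel

lemma th_smul_right (Pi : E → E →L[ℂ] E) (y : E) (c : ℂ) (u v : E) :
    th Pi y u (c • v) = c • th Pi y u v := by
  simp only [th, map_smul, smul_apply, smul_sub]

lemma fderiv_apply_const {P : E → E →L[ℂ] E} {y : E} (hP : DifferentiableAt ℂ P y) (v w : E) :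
    fderiv ℂ (fun z => P z v) y w = fderiv ℂ P y w v := by
  rw [fderiv_clm_apply hP (differentiableAt_const v)]
  simp

/-- derivative of the idempotency relation -/
lemma IsProjAt.fderiv_idem {K : E → Submodule ℂ E} {P : E → E →L[ℂ] E} {y : E}
    (h : IsProjAt K P y) (u v : E) :
    fderiv ℂ P y u (P y v) + P y (fderiv ℂ P y u v) = fderiv ℂ P y u v := by
  have hP : DifferentiableAt ℂ P y := h.an.differentiableAt
  have hPv : DifferentiableAt ℂ (fun z => P z v) y := hP.clm_apply (differentiableAt_const v)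
  have e1 : fderiv ℂ (fun z => P z (P z v)) y = fderiv ℂ (fun z => P z v) y :=
    Filter.EventuallyEq.fderiv_eq (h.idem.mono fun z hz => hz v)
  have f2 := fderiv_apply_const hP v u
  have f3 : fderiv ℂ (fun z => P z (P z v)) y u = fderiv ℂ P y u (P y v) +
      P y (fderiv ℂ (fun z => P z v) y u) := by
    rw [fderiv_clm_apply hP hPv]
    simp [add_comm]
  rw [e1, f2] at f3
  exact f3.symm

/-- for `u, v ∈ K` the tensor is killed by the idempotent -/
lemma IsProjAt.apply_th {K : E → Submodule ℂ E} {P : E → E →L[ℂ] E} {y : E}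
    (h : IsProjAt K P y) {u v : E} (hu : u ∈ K y) (hv : v ∈ K y) : P y (th P y u v) = 0 := by
  have h1 := h.fderiv_idem u v
  have h2 := h.fderiv_idem v u
  rw [(h.mem_self v).1 hv] at h1
  rw [(h.mem_self u).1 hu] at h2
  simp only [th, map_sub]
  have e1 : P y (fderiv ℂ P y u v) = 0 := by
    have := h1; exact add_eq_left.mp this
  have e2 : P y (fderiv ℂ P y v u) = 0 := by
    have := h2; exact add_eq_left.mp this
  rw [e1, e2, sub_zero]

/-! ### families of linear maps: kernels -/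

section Kernel

variable {G : Type*} [NormedAddCommGroup G] [NormedSpace ℂ G]

lemma analyticAt_comp {A : Type*} [NormedAddCommGroup A] [NormedSpace ℂ A]
    {E₁ E₂ E₃ : Type*} [NormedAddCommGroup E₁] [NormedSpace ℂ E₁] [NormedAddCommGroup E₂]
    [NormedSpace ℂ E₂] [NormedAddCommGroup E₃] [NormedSpace ℂ E₃]
    {f : A → E₂ →L[ℂ] E₃} {g : A → E₁ →L[ℂ] E₂} {x : A} (hf : AnalyticAt ℂ f x)
    (hg : AnalyticAt ℂ g x) : AnalyticAt ℂ (fun y => (f y).comp (g y)) x :=
  ((ContinuousLinearMap.compL ℂ E₁ E₂ E₃).analyticAt_bilinear (f x, g x)).comp₂ hf hg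

lemma analyticAt_apply {A : Type*} [NormedAddCommGroup A] [NormedSpace ℂ A]
    {E₁ E₂ : Type*} [NormedAddCommGroup E₁] [NormedSpace ℂ E₁] [NormedAddCommGroup E₂]
    [NormedSpace ℂ E₂]
    {f : A → E₁ →L[ℂ] E₂} {g : A → E₁} {x : A} (hf : AnalyticAt ℂ f x)
    (hg : AnalyticAt ℂ g x) : AnalyticAt ℂ (fun y => f y (g y)) x :=
  ((ContinuousLinearMap.id ℂ (E₁ →L[ℂ] E₂)).analyticAt_bilinear (f x, g x)).comp₂ hf hg

/-- the normal form of a linear map -/
theorem exists_normal [FiniteDimensional ℂ E] [FiniteDimensional ℂ G] (R₀ : E →L[ℂ] G) :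
    ∃ (pN : E →L[ℂ] E) (L : G →L[ℂ] E), (∀ v, pN (pN v) = pN v) ∧
      (∀ v, pN v = v ↔ R₀ v = 0) ∧ (∀ v, pN v + L (R₀ v) = v) := by
  classical
  obtain ⟨C, hC⟩ := Submodule.exists_isCompl (LinearMap.ker (R₀ : E →ₗ[ℂ] G))
  have hinj : LinearMap.ker ((R₀ : E →ₗ[ℂ] G) ∘ₗ C.subtype) = ⊥ := by
    rw [LinearMap.ker_eq_bot']
    intro c hc
    have h1 : (c : E) ∈ LinearMap.ker (R₀ : E →ₗ[ℂ] G) := by simpa using hc
    have h2 : (c : E) ∈ (LinearMap.ker (R₀ : E →ₗ[ℂ] G)) ⊓ C := ⟨h1, c.2⟩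
    rw [hC.inf_eq_bot] at h2
    exact Subtype.ext (by simpa using h2)
  obtain ⟨L', hL'⟩ := LinearMap.exists_leftInverse_of_injective _ hinj
  set L : G →L[ℂ] E := LinearMap.toContinuousLinearMap (C.subtype ∘ₗ L') with hL
  have hLC : ∀ c ∈ C, L (R₀ c) = c := by
    intro c hc
    have := congrArg (fun f : C →ₗ[ℂ] C => f ⟨c, hc⟩) hL'
    simp only [LinearMap.comp_apply, LinearMap.id_apply, Submodule.subtype_apply] at this
    simp only [hL, LinearMap.coe_toContinuousLinearMap', LinearMap.comp_apply,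
      Submodule.subtype_apply]
    exact congrArg Subtype.val this
  have hex : ∀ v, ∃ c ∈ C, R₀ v = R₀ c := by
    intro v
    have hv : v ∈ (LinearMap.ker (R₀ : E →ₗ[ℂ] G)) ⊔ C := by
      rw [hC.sup_eq_top]; trivial
    obtain ⟨a, ha, c, hc, rfl⟩ := Submodule.mem_sup.1 hv
    refine ⟨c, hc, ?_⟩
    have : R₀ a = 0 := by simpa using ha
    rw [map_add, this, zero_add]
  refine ⟨ContinuousLinearMap.id ℂ E - L.comp R₀, L, ?_, ?_, ?_⟩
  · intro v
    obtain ⟨c, hc, h⟩ := hex v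
    simp only [sub_apply, ContinuousLinearMap.id_apply, ContinuousLinearMap.comp_apply, map_sub]
    rw [h, hLC c hc, hLC c hc]; simp
  · intro v
    simp only [sub_apply, ContinuousLinearMap.id_apply, ContinuousLinearMap.comp_apply,
      sub_eq_self]
    constructor
    · intro h0
      obtain ⟨c, hc, h⟩ := hex v
      rw [h, hLC c hc] at h0
      rw [h, h0, map_zero]
    · intro h0
      rw [h0, map_zero]
  · intro v
    simp

/-- the kernel of an analytic family of linear maps whose kernel dimension is locally constant is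
an analytic distribution; in general the dimension is upper semicontinuous -/
theorem kernel_aux [FiniteDimensional ℂ E] [FiniteDimensional ℂ G] {R : E → E →L[ℂ] G} {y₀ : E}
    (hR : AnalyticAt ℂ R y₀) :
    ∃ (pN : E →L[ℂ] E) (B Bi : E → E →L[ℂ] E), (∀ v, pN (pN v) = pN v) ∧
      (∀ v, pN v = v ↔ R y₀ v = 0) ∧ AnalyticAt ℂ B y₀ ∧ AnalyticAt ℂ Bi y₀ ∧
      (∀ᶠ y in 𝓝 y₀, (∀ v, Bi y (B y v) = v) ∧ (∀ v, B y (Bi y v) = v) ∧
        (∀ v, R y v = 0 → pN (B y v) = B y v)) := by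
  obtain ⟨pN, L, h1, h2, h3⟩ := exists_normal (R y₀)
  have : CompleteSpace E := FiniteDimensional.complete ℂ E
  set B : E → E →L[ℂ] E := fun y => pN + L.comp (R y) with hB
  have hBa : AnalyticAt ℂ B y₀ := analyticAt_const.add (analyticAt_comp analyticAt_const hR)
  have hB0 : B y₀ = 1 := by
    ext v
    simp only [hB, add_apply, ContinuousLinearMap.comp_apply, ContinuousLinearMap.one_apply]
    exact h3 v
  have hu : IsUnit (B y₀) := by rw [hB0]; exact isUnit_one
  have hBi : AnalyticAt ℂ (fun y => Ring.inverse (B y)) y₀ := by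
    obtain ⟨u, hu⟩ := hu
    have h4 : AnalyticAt ℂ Ring.inverse (B y₀) := by
      rw [← hu]; exact analyticAt_inverse u
    exact h4.comp hBa
  refine ⟨pN, B, fun y => Ring.inverse (B y), h1, h2, hBa, hBi, ?_⟩
  have hev : ∀ᶠ y in 𝓝 y₀, IsUnit (B y) :=
    hBa.continuousAt.eventually (Units.isOpen.mem_nhds hu)
  filter_upwards [hev] with y hy
  have e1 := Ring.inverse_mul_cancel _ hy
  have e2 := Ring.mul_inverse_cancel _ hy
  refine ⟨fun v => ?_, fun v => ?_, fun v hv => ?_⟩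
  · exact congrArg (fun f : E →L[ℂ] E => f v) e1
  · exact congrArg (fun f : E →L[ℂ] E => f v) e2
  · simp only [hB, add_apply, ContinuousLinearMap.comp_apply, hv, map_zero, add_zero]
    exact h1 v

/-- upper semicontinuity of the dimension of the kernel -/
theorem eventually_finrank_ker_le [FiniteDimensional ℂ E] [FiniteDimensional ℂ G]
    {R : E → E →L[ℂ] G} {y₀ : E} (hR : AnalyticAt ℂ R y₀) :
    ∀ᶠ y in 𝓝 y₀, finrank ℂ (LinearMap.ker (R y : E →ₗ[ℂ] G)) ≤
      finrank ℂ (LinearMap.ker (R y₀ : E →ₗ[ℂ] G)) := by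
  obtain ⟨pN, B, Bi, h1, h2, -, -, hev⟩ := kernel_aux hR
  filter_upwards [hev] with y hy
  obtain ⟨hy1, hy2, hy3⟩ := hy
  have hmem : ∀ v : LinearMap.ker (R y : E →ₗ[ℂ] G),
      B y v ∈ LinearMap.ker (R y₀ : E →ₗ[ℂ] G) := by
    intro v
    have h4 : R y (v : E) = 0 := by simpa using v.2
    have := (h2 (B y v)).1 (hy3 v h4)
    simpa using this
  let f : LinearMap.ker (R y : E →ₗ[ℂ] G) →ₗ[ℂ] LinearMap.ker (R y₀ : E →ₗ[ℂ] G) :=
    LinearMap.codRestrict _ ((B y : E →ₗ[ℂ] E) ∘ₗ (LinearMap.ker (R y : E →ₗ[ℂ] G)).subtype)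
      (fun v => hmem v)
  refine LinearMap.finrank_le_finrank_of_injective (f := f) ?_
  intro a b hab
  have h5 : B y (a : E) = B y (b : E) := congrArg Subtype.val hab
  have h6 := congrArg (Bi y) h5
  rw [hy1, hy1] at h6
  exact Subtype.ext h6

/-- the kernel of an analytic family with locally constant kernel dimension -/
theorem adist_ker [FiniteDimensional ℂ E] [FiniteDimensional ℂ G]
    {R : E → E →L[ℂ] G} {y₀ : E} (hR : AnalyticAt ℂ R y₀)
    (hd : ∀ᶠ y in 𝓝 y₀, finrank ℂ (LinearMap.ker (R y₀ : E →ₗ[ℂ] G)) ≤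
      finrank ℂ (LinearMap.ker (R y : E →ₗ[ℂ] G))) :
    ADist (fun y => LinearMap.ker (R y : E →ₗ[ℂ] G)) y₀ := by
  obtain ⟨pN, B, Bi, h1, h2, hBa, hBia, hev⟩ := kernel_aux hR
  refine ⟨fun y => (Bi y).comp (pN.comp (B y)), analyticAt_comp hBia
    (analyticAt_comp analyticAt_const hBa), ?_, ?_⟩
  · filter_upwards [hev] with y hy v
    obtain ⟨hy1, hy2, hy3⟩ := hy
    simp only [ContinuousLinearMap.comp_apply]
    rw [hy2, h1]
  · filter_upwards [hev, hd] with y hy hdy v
    obtain ⟨hy1, hy2, hy3⟩ := hy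
    have hmem : ∀ v : LinearMap.ker (R y : E →ₗ[ℂ] G),
        B y v ∈ LinearMap.ker (R y₀ : E →ₗ[ℂ] G) := by
      intro v
      have h4 : R y (v : E) = 0 := by simpa using v.2
      have := (h2 (B y v)).1 (hy3 v h4)
      simpa using this
    let f : LinearMap.ker (R y : E →ₗ[ℂ] G) →ₗ[ℂ] LinearMap.ker (R y₀ : E →ₗ[ℂ] G) :=
      LinearMap.codRestrict _ ((B y : E →ₗ[ℂ] E) ∘ₗ (LinearMap.ker (R y : E →ₗ[ℂ] G)).subtype)
        (fun v => hmem v)
    have hfi : Function.Injective f := by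
      intro a b hab
      have h5 : B y (a : E) = B y (b : E) := congrArg Subtype.val hab
      have h6 := congrArg (Bi y) h5
      rw [hy1, hy1] at h6
      exact Subtype.ext h6
    have hfs : Function.Surjective f := by
      have h7 := LinearMap.finrank_le_finrank_of_injective (f := f) hfi
      exact (LinearMap.injective_iff_surjective_of_finrank_eq_finrank (le_antisymm h7 hdy)).1 hfi
    simp only [ContinuousLinearMap.comp_apply]
    constructor
    · intro hv
      have h4 : R y v = 0 := by simpa using hv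
      rw [hy3 v h4, hy1]
    · intro hv
      have h8 := congrArg (B y) hv
      rw [hy2] at h8
      have h9 : R y₀ (B y v) = 0 := (h2 _).1 h8
      obtain ⟨a, ha⟩ := hfs ⟨B y v, by simpa using h9⟩
      have h10 : B y (a : E) = B y v := congrArg Subtype.val ha
      have h11 := congrArg (Bi y) h10
      rw [hy1, hy1] at h11
      rw [← h11]
      exact a.2

/-- analyticity of the determinant -/
theorem analyticAt_det [FiniteDimensional ℂ E] {A : Type*} [NormedAddCommGroup A] [NormedSpace ℂ A]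
    {M : A → E →L[ℂ] E} {y₀ : A} (hM : AnalyticAt ℂ M y₀) :
    AnalyticAt ℂ (fun y => LinearMap.det (M y : E →ₗ[ℂ] E)) y₀ := by
  classical
  set b := Module.finBasis ℂ E with hb
  have h1 : (fun y => LinearMap.det (M y : E →ₗ[ℂ] E)) =
      fun y => ∑ σ : Equiv.Perm (Fin (finrank ℂ E)), ((Equiv.Perm.sign σ : ℤ) : ℂ) *
        ∏ i, b.repr (M y (b i)) (σ i) := by
    funext y
    rw [← LinearMap.det_toMatrix b, Matrix.det_apply']
    simp only [LinearMap.toMatrix_apply]
    rfl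
  rw [h1]
  refine Finset.analyticAt_fun_sum _ fun σ _ => ?_
  refine analyticAt_const.mul ?_
  refine Finset.analyticAt_fun_prod _ fun i _ => ?_
  let l : E →L[ℂ] ℂ := LinearMap.toContinuousLinearMap
    ((Finsupp.lapply (σ i)) ∘ₗ (b.repr : E →ₗ[ℂ] (Fin (finrank ℂ E) →₀ ℂ)))
  have h2 : AnalyticAt ℂ (fun y => M y (b i)) y₀ := analyticAt_apply hM analyticAt_const
  exact (l.analyticAt _).comp h2

/-- identity theorem: a lower bound of the dimension of the kernel on an open subset holds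
everywhere on a connected domain -/
theorem finrank_ker_ge_of_preconnected [FiniteDimensional ℂ E] [FiniteDimensional ℂ G]
    {R : E → E →L[ℂ] G} {U : Set E} (hR : AnalyticOnNhd ℂ R U) (hU : IsPreconnected U) (r : ℕ)
    {V : Set E} (hV : IsOpen V) (hVn : (V ∩ U).Nonempty)
    (hr : ∀ y ∈ V, r ≤ finrank ℂ (LinearMap.ker (R y : E →ₗ[ℂ] G))) :
    ∀ y ∈ U, r ≤ finrank ℂ (LinearMap.ker (R y : E →ₗ[ℂ] G)) := by
  intro y₁ hy₁
  by_contra hlt
  push Not at hlt
  obtain ⟨pN, L, h1, h2, h3⟩ := exists_normal (R y₁)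
  set M : E → E →L[ℂ] E := fun y => pN + L.comp (R y) with hM
  have hMa : AnalyticOnNhd ℂ (fun y => LinearMap.det (M y : E →ₗ[ℂ] E)) U := by
    intro y hy
    exact analyticAt_det (analyticAt_const.add (analyticAt_comp analyticAt_const (hR y hy)))
  have hM1 : (M y₁ : E →ₗ[ℂ] E) = LinearMap.id := by
    ext v
    exact h3 v
  have hzero : ∀ y ∈ V, LinearMap.det (M y : E →ₗ[ℂ] E) = 0 := by
    intro y hy
    by_contra hne
    have hinj : Function.Injective (M y : E →ₗ[ℂ] E) := by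
      have : IsUnit (LinearMap.det (M y : E →ₗ[ℂ] E)) := isUnit_iff_ne_zero.mpr hne
      exact ((LinearEquiv.ofIsUnitDet (v := Module.finBasis ℂ E) (v' := Module.finBasis ℂ E)
        (f := (M y : E →ₗ[ℂ] E)) (by rwa [LinearMap.det_toMatrix]))).injective
    have hmem : ∀ v : LinearMap.ker (R y : E →ₗ[ℂ] G),
        (M y : E →ₗ[ℂ] E) v ∈ LinearMap.ker (R y₁ : E →ₗ[ℂ] G) := by
      intro v
      have h4 : R y (v : E) = 0 := by simp
      have h5 : M y (v : E) = pN v := by
        simp only [hM, add_apply, ContinuousLinearMap.comp_apply, h4, map_zero, add_zero]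
      have : R y₁ (pN v) = 0 := (h2 _).1 (h1 v)
      rw [LinearMap.mem_ker]
      change R y₁ (M y (v : E)) = 0
      rw [h5]; exact this
    let f : LinearMap.ker (R y : E →ₗ[ℂ] G) →ₗ[ℂ] LinearMap.ker (R y₁ : E →ₗ[ℂ] G) :=
      LinearMap.codRestrict _ ((M y : E →ₗ[ℂ] E) ∘ₗ (LinearMap.ker (R y : E →ₗ[ℂ] G)).subtype)
        (fun v => hmem v)
    have hfi : Function.Injective f := by
      intro a b hab
      have h5 : (M y : E →ₗ[ℂ] E) (a : E) = (M y : E →ₗ[ℂ] E) (b : E) := congrArg Subtype.val hab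
      exact Subtype.ext (hinj h5)
    have h7 := LinearMap.finrank_le_finrank_of_injective (f := f) hfi
    have h8 := hr y hy
    omega
  obtain ⟨y₂, hy₂V, hy₂U⟩ := hVn
  have h9 : (fun y => LinearMap.det (M y : E →ₗ[ℂ] E)) =ᶠ[𝓝 y₂] 0 := by
    filter_upwards [hV.mem_nhds hy₂V] with y hy
    exact hzero y hy
  have h10 := hMa.eqOn_zero_of_preconnected_of_eventuallyEq_zero hU hy₂U h9 hy₁
  simp only [hM1, LinearMap.det_id, Pi.zero_apply, one_ne_zero] at h10

end Kernel

/-! ### frames -/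

/-- the linear map `a ↦ ∑ a i • e i` -/
def frameMap {k : ℕ} (e : Fin k → E) : (Fin k → ℂ) →L[ℂ] E :=
  ∑ i, (ContinuousLinearMap.proj (R := ℂ) (φ := fun _ : Fin k => ℂ) i).smulRight (e i)

lemma frameMap_apply {k : ℕ} (e : Fin k → E) (a : Fin k → ℂ) :
    frameMap e a = ∑ i, a i • e i := by
  simp [frameMap]

lemma analyticAt_frameMap {A : Type*} [NormedAddCommGroup A] [NormedSpace ℂ A] {k : ℕ}
    {e : Fin k → A → E} {y₀ : A} (he : ∀ i, AnalyticAt ℂ (e i) y₀) :
    AnalyticAt ℂ (fun y => frameMap fun i => e i y) y₀ := by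
  have : (fun y => frameMap fun i => e i y) = fun y => ∑ i,
      (ContinuousLinearMap.smulRightL ℂ (Fin k → ℂ) E
        (ContinuousLinearMap.proj (R := ℂ) (φ := fun _ : Fin k => ℂ) i)) (e i y) := by
    funext y
    ext a
    simp [frameMap]
  rw [this]
  exact Finset.analyticAt_fun_sum _ fun i _ => (ContinuousLinearMap.analyticAt _ _).comp (he i)

/-- the span of an analytic frame is an analytic distribution -/
theorem adist_of_frame [FiniteDimensional ℂ E] {K : E → Submodule ℂ E} {y₀ : E} {k : ℕ} {e : Fin k → E → E}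
    (he : ∀ i, AnalyticAt ℂ (e i) y₀) (hind : LinearIndependent ℂ fun i => e i y₀)
    (hK : ∀ᶠ y in 𝓝 y₀, K y = Submodule.span ℂ (Set.range fun i => e i y)) : ADist K y₀ := by
  classical
  set T : E → (Fin k → ℂ) →L[ℂ] E := fun y => frameMap fun i => e i y with hT
  have hTa : AnalyticAt ℂ T y₀ := analyticAt_frameMap he
  have hker : LinearMap.ker (T y₀ : (Fin k → ℂ) →ₗ[ℂ] E) = ⊥ := by
    rw [LinearMap.ker_eq_bot']
    intro a ha
    have h1 : ∑ i, a i • e i y₀ = 0 := by
      rw [← frameMap_apply]; exact ha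
    funext i
    exact (Fintype.linearIndependent_iff.1 hind) a h1 i
  obtain ⟨L₀, hL₀⟩ : ∃ L₀ : E →L[ℂ] (Fin k → ℂ), L₀.comp (T y₀) = ContinuousLinearMap.id ℂ _ := by
    obtain ⟨F, hF⟩ := LinearMap.exists_leftInverse_of_injective _ hker
    refine ⟨LinearMap.toContinuousLinearMap F, ?_⟩
    ext1 a
    exact congrArg (fun f : (Fin k → ℂ) →ₗ[ℂ] (Fin k → ℂ) => f a) hF
  set M : E → (Fin k → ℂ) →L[ℂ] (Fin k → ℂ) := fun y => L₀.comp (T y) with hM
  have hMa : AnalyticAt ℂ M y₀ := analyticAt_comp analyticAt_const hTa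
  have hu : IsUnit (M y₀) := by
    have : M y₀ = 1 := hL₀
    rw [this]; exact isUnit_one
  have hMi : AnalyticAt ℂ (fun y => Ring.inverse (M y)) y₀ := by
    obtain ⟨u, hu⟩ := hu
    have h4 : AnalyticAt ℂ Ring.inverse (M y₀) := by
      rw [← hu]; exact analyticAt_inverse u
    exact h4.comp hMa
  refine ⟨fun y => (T y).comp ((Ring.inverse (M y)).comp L₀), analyticAt_comp hTa
    (analyticAt_comp hMi analyticAt_const), ?_, ?_⟩
  · filter_upwards [hMa.continuousAt.eventually (Units.isOpen.mem_nhds hu)] with y hy v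
    have e1 := Ring.inverse_mul_cancel _ hy
    have e2 : ∀ a, Ring.inverse (M y) (L₀ (T y a)) = a := fun a =>
      congrArg (fun f : (Fin k → ℂ) →L[ℂ] (Fin k → ℂ) => f a) e1
    simp only [ContinuousLinearMap.comp_apply]
    rw [e2]
  · filter_upwards [hMa.continuousAt.eventually (Units.isOpen.mem_nhds hu), hK] with y hy hKy v
    have e1 := Ring.inverse_mul_cancel _ hy
    have e2 : ∀ a, Ring.inverse (M y) (L₀ (T y a)) = a := fun a =>
      congrArg (fun f : (Fin k → ℂ) →L[ℂ] (Fin k → ℂ) => f a) e1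
    have hmem : v ∈ K y ↔ ∃ a, T y a = v := by
      rw [hKy, Submodule.mem_span_range_iff_exists_fun]
      simp only [hT, frameMap_apply]
    rw [hmem]
    simp only [ContinuousLinearMap.comp_apply]
    constructor
    · rintro ⟨a, rfl⟩
      rw [e2]
    · intro h
      exact ⟨_, h⟩

/-! ### dimension of analytic distributions, sums -/

/-- the dimension of an analytic distribution is locally constant -/
theorem ADist.eventually_finrank_eq [FiniteDimensional ℂ E] {K : E → Submodule ℂ E} {y₀ : E}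
    (h : ADist K y₀) : ∀ᶠ y in 𝓝 y₀, finrank ℂ (K y) = finrank ℂ (K y₀) := by
  obtain ⟨Pi, h⟩ := h
  have hK : ∀ᶠ y in 𝓝 y₀, K y =
      LinearMap.ker ((ContinuousLinearMap.id ℂ E - Pi y : E →L[ℂ] E) : E →ₗ[ℂ] E) ∧
      K y = LinearMap.range (Pi y : E →ₗ[ℂ] E) := by
    filter_upwards [h.idem, h.mem] with y h1 h2
    constructor
    · ext v
      rw [h2 v, LinearMap.mem_ker]
      change _ ↔ v - Pi y v = 0
      rw [sub_eq_zero]
      exact eq_comm
    · ext v
      rw [h2 v, LinearMap.mem_range]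
      constructor
      · intro hv; exact ⟨v, hv⟩
      · rintro ⟨w, rfl⟩; exact h1 w
  have hs1 := eventually_finrank_ker_le (R := fun y => ContinuousLinearMap.id ℂ E - Pi y)
    (analyticAt_const.sub h.an)
  have hs2 := eventually_finrank_ker_le (R := fun y => Pi y) h.an
  filter_upwards [hK, hs1, hs2] with y hy h1 h2
  have h0 := hK.self_of_nhds
  have e1 := LinearMap.finrank_range_add_finrank_ker (Pi y : E →ₗ[ℂ] E)
  have e2 := LinearMap.finrank_range_add_finrank_ker (Pi y₀ : E →ₗ[ℂ] E)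
  rw [← hy.1, ← h0.1] at h1
  rw [← hy.2] at e1
  rw [← h0.2] at e2
  omega

/-- `F ⊆ ran P`: the sum `F + ker P` -/
theorem IsProjAt.sup_ker {F : E → Submodule ℂ E} {PF P : E → E →L[ℂ] E} {y₀ : E}
    (hF : IsProjAt F PF y₀) (hP : AnalyticAt ℂ P y₀)
    (hPi : ∀ᶠ y in 𝓝 y₀, ∀ v, P y (P y v) = P y v)
    (hFP : ∀ᶠ y in 𝓝 y₀, ∀ v ∈ F y, P y v = v) :
    IsProjAt (fun y => F y ⊔ LinearMap.ker (P y : E →ₗ[ℂ] E))
      (fun y => (PF y).comp (P y) + (ContinuousLinearMap.id ℂ E - P y)) y₀ := by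
  refine ⟨(analyticAt_comp hF.an hP).add (analyticAt_const.sub hP), ?_, ?_⟩
  · filter_upwards [hPi, hFP, hF.idem, hF.eventually_apply_mem] with y h1 h2 h3 h4 v
    have e1 : P y (PF y (P y v)) = PF y (P y v) := h2 _ (h4 _)
    simp only [add_apply, sub_apply, ContinuousLinearMap.comp_apply, ContinuousLinearMap.id_apply,
      map_add, map_sub, e1, h1, h3]
    abel
  · filter_upwards [hPi, hFP, hF.mem, hF.eventually_apply_mem] with y h1 h2 h3 h4 v
    simp only [add_apply, sub_apply, ContinuousLinearMap.comp_apply, ContinuousLinearMap.id_apply]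
    constructor
    · intro hv
      obtain ⟨f, hf, k, hk, rfl⟩ := Submodule.mem_sup.1 hv
      have hk' : P y k = 0 := by simpa using hk
      have e2 : PF y f = f := (h3 f).1 hf
      simp only [map_add, hk', h2 f hf, e2, map_zero, add_zero]
      abel
    · intro hv
      refine Submodule.mem_sup.2 ⟨P y v, ?_, v - P y v, ?_, by abel⟩
      · rw [h3]
        have := congrArg (fun w => w - (v - P y v)) hv
        simpa using this
      · rw [LinearMap.mem_ker]
        change P y (v - P y v) = 0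
        rw [map_sub, h1, sub_self]

/-- `F ⊆ ran P`, `F' ⊆ ker P`: the sum `F + F'` -/
theorem IsProjAt.sup_of_splitting {F F' : E → Submodule ℂ E} {PF PF' P : E → E →L[ℂ] E} {y₀ : E}
    (hF : IsProjAt F PF y₀) (hF' : IsProjAt F' PF' y₀) (hP : AnalyticAt ℂ P y₀)
    (hPi : ∀ᶠ y in 𝓝 y₀, ∀ v, P y (P y v) = P y v)
    (hFP : ∀ᶠ y in 𝓝 y₀, ∀ v ∈ F y, P y v = v)
    (hFP' : ∀ᶠ y in 𝓝 y₀, ∀ v ∈ F' y, P y v = 0) :
    IsProjAt (fun y => F y ⊔ F' y)
      (fun y => (PF y).comp (P y) + (PF' y).comp (ContinuousLinearMap.id ℂ E - P y)) y₀ := by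
  refine ⟨(analyticAt_comp hF.an hP).add (analyticAt_comp hF'.an (analyticAt_const.sub hP)), ?_, ?_⟩
  · filter_upwards [hPi, hFP, hF.idem, hF.eventually_apply_mem, hFP', hF'.idem,
      hF'.eventually_apply_mem] with y h1 h2 h3 h4 h5 h6 h7 v
    have e1 : P y (PF y (P y v)) = PF y (P y v) := h2 _ (h4 _)
    have e2 : P y (PF' y (v - P y v)) = 0 := h5 _ (h7 _)
    simp only [add_apply, sub_apply, ContinuousLinearMap.comp_apply, ContinuousLinearMap.id_apply,
      map_add, e1, e2, h3, add_zero, sub_self, map_zero, zero_add]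
    rw [sub_zero, h6]
  · filter_upwards [hPi, hFP, hF.mem, hF.eventually_apply_mem, hFP', hF'.mem,
      hF'.eventually_apply_mem] with y h1 h2 h3 h4 h5 h6 h7 v
    simp only [add_apply, sub_apply, ContinuousLinearMap.comp_apply, ContinuousLinearMap.id_apply]
    constructor
    · intro hv
      obtain ⟨f, hf, k, hk, rfl⟩ := Submodule.mem_sup.1 hv
      have e2 : PF y f = f := (h3 f).1 hf
      have e3 : PF' y k = k := (h6 k).1 hk
      have e4 : f + k - f = k := by abel
      simp only [map_add, h2 f hf, h5 k hk, add_zero, e2, e4, e3]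
    · intro hv
      have := Submodule.add_mem_sup (h4 (P y v)) (h7 (v - P y v))
      rwa [hv] at this

/-! ### descent: the kernel of the tensor inside `F` -/

/-- the linear map whose kernel is the descended distribution -/
def Rd (PF PK : E → E →L[ℂ] E) (y : E) : E →L[ℂ] E × (E →L[ℂ] E) :=
  (ContinuousLinearMap.id ℂ E - PF y).prod
    ((((ContinuousLinearMap.compL ℂ E E E).flip (PK y)).comp (fderiv ℂ PK y)) -
      ((fderiv ℂ PK y).comp (PK y)).flip)

lemma Rd_apply (PF PK : E → E →L[ℂ] E) (y u : E) :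
    Rd PF PK y u = (u - PF y u, (((ContinuousLinearMap.compL ℂ E E E).flip (PK y)).comp (fderiv ℂ PK y)
      - ((fderiv ℂ PK y).comp (PK y)).flip) u) := rfl

lemma Rd_eq_zero_iff (PF PK : E → E →L[ℂ] E) (y u : E) :
    Rd PF PK y u = 0 ↔ PF y u = u ∧ ∀ v, th PK y u (PK y v) = 0 := by
  rw [Rd_apply, Prod.mk_eq_zero, sub_eq_zero]
  refine and_congr eq_comm ?_
  rw [ContinuousLinearMap.ext_iff]
  rfl

/-- the tensor as a linear map in the first argument -/
def Dd (PK : E → E →L[ℂ] E) (y : E) : E →L[ℂ] (E →L[ℂ] E) :=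
  (((ContinuousLinearMap.compL ℂ E E E).flip (PK y)).comp (fderiv ℂ PK y)) -
      ((fderiv ℂ PK y).comp (PK y)).flip

lemma Dd_apply (PK : E → E →L[ℂ] E) (y u v : E) : Dd PK y u v = th PK y u (PK y v) := rfl

lemma analyticAt_Dd [CompleteSpace E] {PK : E → E →L[ℂ] E} {y₀ : E}
    (hK : AnalyticAt ℂ PK y₀) : AnalyticAt ℂ (Dd PK) y₀ := by
  have hd : AnalyticAt ℂ (fderiv ℂ PK) y₀ := hK.fderiv
  have h1 : AnalyticAt ℂ (fun y => (ContinuousLinearMap.compL ℂ E E E).flip (PK y)) y₀ :=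
    (((ContinuousLinearMap.compL ℂ E E E).flip).analyticAt _).comp hK
  have h2 : AnalyticAt ℂ (fun y => ((fderiv ℂ PK y).comp (PK y)).flip) y₀ := by
    have h3 : AnalyticAt ℂ (fun y => (fderiv ℂ PK y).comp (PK y)) y₀ := analyticAt_comp hd hK
    exact ((ContinuousLinearMap.flipₗᵢ ℂ E E E).toContinuousLinearEquiv.toContinuousLinearMap.analyticAt _).comp h3
  exact (analyticAt_comp h1 hd).sub h2

lemma analyticAt_Rd [CompleteSpace E] {PF PK : E → E →L[ℂ] E} {y₀ : E} (hF : AnalyticAt ℂ PF y₀)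
    (hK : AnalyticAt ℂ PK y₀) : AnalyticAt ℂ (Rd PF PK) y₀ := by
  have hd : AnalyticAt ℂ (fderiv ℂ PK) y₀ := hK.fderiv
  have h1 : AnalyticAt ℂ (fun y => (ContinuousLinearMap.compL ℂ E E E).flip (PK y)) y₀ :=
    (((ContinuousLinearMap.compL ℂ E E E).flip).analyticAt _).comp hK
  have h2 : AnalyticAt ℂ (fun y => ((fderiv ℂ PK y).comp (PK y)).flip) y₀ := by
    have h3 : AnalyticAt ℂ (fun y => (fderiv ℂ PK y).comp (PK y)) y₀ := analyticAt_comp hd hK
    exact ((ContinuousLinearMap.flipₗᵢ ℂ E E E).toContinuousLinearEquiv.toContinuousLinearMap.analyticAt _).comp h3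
  have h4 : AnalyticAt ℂ (fun y => (((ContinuousLinearMap.compL ℂ E E E).flip (PK y)).comp (fderiv ℂ PK y)
      - ((fderiv ℂ PK y).comp (PK y)).flip)) y₀ := (analyticAt_comp h1 hd).sub h2
  have h5 : AnalyticAt ℂ (fun y => ContinuousLinearMap.id ℂ E - PF y) y₀ := analyticAt_const.sub hF
  have h8 : Rd PF PK = fun y =>
      (ContinuousLinearMap.inl ℂ E (E →L[ℂ] E)).comp (ContinuousLinearMap.id ℂ E - PF y) +
      (ContinuousLinearMap.inr ℂ E (E →L[ℂ] E)).comp
        ((((ContinuousLinearMap.compL ℂ E E E).flip (PK y)).comp (fderiv ℂ PK y)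
          - ((fderiv ℂ PK y).comp (PK y)).flip)) := by
    funext y
    ext v <;> simp [Rd]
  rw [h8]
  exact (analyticAt_comp analyticAt_const h5).add (analyticAt_comp analyticAt_const h4)

end

end Crest.Agent.R266.DL
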