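import Crest.Agent.R266.A.St4Defs
import Crest.Agent.R266.Chart

/-! R266 / A / St4Coeff (helper576): Liouville on `ℙ¹`, constancy of coefficients, density. -/

set_option autoImplicit false

open scoped Manifold ContDiff Topology
open Set Filter
open Crest.AlgGeometry.HolSplit

namespace Crest.Agent.R266.St4

/-! ### Liouville -/

theorem liouville_P1 (c : Bool → ℂ → ℂ) (hd : ∀ b, Differentiable ℂ (c b))
    (hg : ∀ b z, z ≠ 0 → c (!b) z = c b z⁻¹) : ∃ a, ∀ b z, c b z = a := by
  have h0 : Tendsto (c false) (cocompact ℂ) (𝓝 (c true 0)) := by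
    have h1 : Tendsto (fun z : ℂ => c true z⁻¹) (cocompact ℂ) (𝓝 (c true 0)) := by
      have h2 : Tendsto (fun z : ℂ => z⁻¹) (cocompact ℂ) (𝓝 0) := by
        rw [← Metric.cobounded_eq_cocompact]
        exact tendsto_inv₀_cobounded
      exact ((hd true).continuous.tendsto 0).comp h2
    refine h1.congr' ?_
    have : ∀ᶠ z : ℂ in cocompact ℂ, z ≠ 0 := by
      have := (isCompact_singleton (x := (0 : ℂ))).compl_mem_cocompact
      exact this
    filter_upwards [this] with z hz
    exact (hg true z hz).symm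
  have h1 : ∀ z, c false z = c true 0 := fun z =>
    (hd false).apply_eq_of_tendsto_cocompact z h0
  refine ⟨c true 0, ?_⟩
  intro b z
  cases b with
  | false => exact h1 z
  | true =>
    by_cases hz : z = 0
    · rw [hz]
    · have := hg false z hz
      simp only [Bool.not_false] at this
      rw [this]
      exact h1 _

/-! ### local coefficients -/

theorem analyticAt_clm_apply' {D E F : Type*} [NormedAddCommGroup D] [NormedSpace ℂ D]
    [NormedAddCommGroup E] [NormedSpace ℂ E]
    [NormedAddCommGroup F] [NormedSpace ℂ F] {T : D → E →L[ℂ] F} {v : D → E} {z : D}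
    (hT : AnalyticAt ℂ T z) (hv : AnalyticAt ℂ v z) : AnalyticAt ℂ (fun t => T t (v t)) z :=
  ((ContinuousLinearMap.id ℂ (E →L[ℂ] F)).analyticAt_bilinear (T z, v z)).comp₂ hT hv

theorem coeff_analytic {ι : Type*} [Fintype ι] [DecidableEq ι] {F : Type*} [NormedAddCommGroup F]
    [NormedSpace ℂ F] [FiniteDimensional ℂ F] {z : ℂ} {e : ι → ℂ → F} {s : ℂ → F}
    (he : ∀ i, AnalyticAt ℂ (e i) z) (hs : AnalyticAt ℂ s z)
    (hind : LinearIndependent ℂ (fun i => e i z)) (c : ℂ → ι → ℂ)
    (hc : ∀ᶠ t in 𝓝 z, s t = ∑ i, c t i • e i t) : AnalyticAt ℂ c z := by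
  -- a left inverse
  obtain ⟨L, hL⟩ : ∃ L : F →L[ℂ] (ι → ℂ), ∀ i, L (e i z) = Pi.single i 1 := by
    obtain ⟨g, hg⟩ := (Fintype.linearCombination ℂ (fun i => e i z)).exists_leftInverse_of_injective
      (by
        rw [LinearMap.ker_eq_bot']
        intro m hm
        rw [Fintype.linearCombination_apply] at hm
        funext i
        exact Fintype.linearIndependent_iff.1 hind m hm i)
    refine ⟨LinearMap.toContinuousLinearMap g, fun i => ?_⟩
    have := congrArg (fun T => T (Pi.single i 1)) hg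
    simpa [Fintype.linearCombination_apply] using this
  -- the matrix
  let M : ℂ → ((ι → ℂ) →L[ℂ] (ι → ℂ)) := fun t =>
    ∑ i, (ContinuousLinearMap.proj (R := ℂ) (φ := fun _ : ι => ℂ) i).smulRight (L (e i t))
  have hM : AnalyticAt ℂ M z := by
    have : ∀ i ∈ (Finset.univ : Finset ι), AnalyticAt ℂ (fun t =>
        (ContinuousLinearMap.proj (R := ℂ) (φ := fun _ : ι => ℂ) i).smulRight (L (e i t))) z := by
      intro i _
      have h1 : AnalyticAt ℂ (fun t => L (e i t)) z := L.analyticAt _ |>.comp (he i)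
      exact (ContinuousLinearMap.smulRightL ℂ (ι → ℂ) (ι → ℂ)
        (ContinuousLinearMap.proj (R := ℂ) (φ := fun _ : ι => ℂ) i)).analyticAt _ |>.comp h1
    exact Finset.analyticAt_fun_sum _ this
  have hMapp : ∀ t (a : ι → ℂ), M t a = ∑ i, a i • L (e i t) := by
    intro t a
    simp [M]
  have hMz : M z = 1 := by
    ext1 a
    rw [hMapp]
    simp only [hL]
    ext j
    simp [Finset.sum_apply, Pi.single_apply]
  have hinv : AnalyticAt ℂ (fun t => Ring.inverse (M t)) z := by
    have h1 : AnalyticAt ℂ (Ring.inverse : ((ι → ℂ) →L[ℂ] (ι → ℂ)) → _) (M z) := by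
      rw [hMz]
      exact analyticAt_inverse (1 : ((ι → ℂ) →L[ℂ] (ι → ℂ))ˣ)
    exact h1.comp hM
  have hunit : ∀ᶠ t in 𝓝 z, IsUnit (M t) := by
    have h1 : {T : (ι → ℂ) →L[ℂ] (ι → ℂ) | IsUnit T} ∈ 𝓝 (M z) :=
      Units.isOpen.mem_nhds (by rw [hMz]; exact isUnit_one)
    exact hM.continuousAt.preimage_mem_nhds h1
  have hres : AnalyticAt ℂ (fun t => Ring.inverse (M t) (L (s t))) z :=
    analyticAt_clm_apply' hinv ((L.analyticAt _).comp hs)
  refine hres.congr ?_
  filter_upwards [hc, hunit] with t ht hu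
  have h1 : L (s t) = M t (c t) := by
    rw [ht, hMapp, map_sum]
    simp
  rw [h1]
  have h2 : Ring.inverse (M t) * M t = 1 := Ring.inverse_mul_cancel _ hu
  have := congrArg (fun T : (ι → ℂ) →L[ℂ] (ι → ℂ) => T (c t)) h2
  simpa using this

/-! ### coordinates of sections along curves -/

section loc

variable {n : ℕ} {X : Type} [TopologicalSpace X] [ChartedSpace (Model n) X]
  [IsManifold (mI n) ω X]

theorem holAt_iff {g : ℂ → X} {s : ℂ → Model n} {z : ℂ} :
    HolAt n g s z ↔ ContMDiffAt 𝓘(ℂ, ℂ) (mI n) ω g z ∧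
      AnalyticAt ℂ (fun t => tcc (g t) (g z) (g t) (s t)) z := by
  unfold HolAt
  rw [Bundle.contMDiffAt_totalSpace]
  refine and_congr Iff.rfl ?_
  rw [contMDiffAt_iff_contDiffAt, ← contDiffWithinAt_univ,
    contDiffWithinAt_omega_iff_analyticWithinAt, analyticWithinAt_univ]
  rfl

theorem HolAt.curve {g : ℂ → X} {s : ℂ → Model n} {z : ℂ} (h : HolAt n g s z) :
    ContMDiffAt 𝓘(ℂ, ℂ) (mI n) ω g z := (holAt_iff.1 h).1

theorem HolAt.coord {g : ℂ → X} {s : ℂ → Model n} {z : ℂ} (h : HolAt n g s z) :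
    AnalyticAt ℂ (fun t => tcc (g t) (g z) (g t) (s t)) z := (holAt_iff.1 h).2

omit [IsManifold (mI n) ω X] in
theorem curve_source {g : ℂ → X} {z : ℂ} (h : ContMDiffAt 𝓘(ℂ, ℂ) (mI n) ω g z) :
    ∀ᶠ t in 𝓝 z, g t ∈ (chartAt (Model n) (g z)).source :=
  h.continuousAt.preimage_mem_nhds
    ((chartAt (Model n) (g z)).open_source.mem_nhds (mem_chart_source _ _))

theorem tcc_injective {x₀ x : X} (hx : x ∈ (chartAt (Model n) x₀).source) :
    Function.Injective (tcc (n := n) x x₀ x) := by
  intro u v h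
  have := congrArg (tcc (n := n) x₀ x x) h
  rwa [tcc_cancel' hx, tcc_cancel' hx] at this

theorem tcc_linInd {x₀ x : X} (hx : x ∈ (chartAt (Model n) x₀).source) {ι : Type*}
    (v : ι → Model n) : LinearIndependent ℂ (fun i => tcc (n := n) x x₀ x (v i)) ↔
      LinearIndependent ℂ v := by
  have : LinearMap.ker (tcc (n := n) x x₀ x).toLinearMap = ⊥ :=
    LinearMap.ker_eq_bot.2 (tcc_injective hx)
  exact LinearMap.linearIndependent_iff (tcc (n := n) x x₀ x).toLinearMap this

/-- holomorphic vector fields restrict to holomorphic sections along curves -/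
theorem holAt_field {O : Set X} (hO : IsOpen O) {V : (x : X) → TangentSpace (mI n) x}
    (hV : IsHolVectorFieldOn O V) {g : ℂ → X} {z : ℂ} (hz : g z ∈ O)
    (hg : ContMDiffAt 𝓘(ℂ, ℂ) (mI n) ω g z) : HolAt n g (fun t => V (g t)) z := by
  have h1 : ContMDiffAt (mI n) (mI n).tangent ω
      (fun x => (Bundle.TotalSpace.mk' (Model n) x (V x) : TangentBundle (mI n) X)) (g z) :=
    (hV (g z) hz).contMDiffAt (hO.mem_nhds hz)
  exact h1.comp z hg

/-- coefficients of a section along a curve are analytic -/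
theorem coeff_along {ι : Type*} [Fintype ι] [DecidableEq ι] {g : ℂ → X} {z : ℂ}
    {e : ι → ℂ → Model n} {s : ℂ → Model n}
    (he : ∀ i, HolAt n g (e i) z) (hs : HolAt n g s z)
    (hind : LinearIndependent ℂ (fun i => e i z)) (c : ℂ → ι → ℂ)
    (hc : ∀ᶠ t in 𝓝 z, s t = ∑ i, c t i • e i t) : AnalyticAt ℂ c z := by
  refine coeff_analytic (fun i => (he i).coord) hs.coord ?_ c ?_
  · exact (tcc_linInd (mem_chart_source _ _) (fun i => e i z)).2 hind
  · filter_upwards [hc] with t ht
    rw [ht, map_sum]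
    simp

end loc

end Crest.Agent.R266.St4
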