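import Mathlib
import Crest.Prelude.Def_TangentSplitting
import Crest.Agent.R266.Chart2
import Crest.Agent.R266.A.St4Defs
import Crest.Agent.R266.A.St4Coeff
import Crest.Agent.R266.A.DistLoc

/-!
R266 / A / Bracket (helper854): nodes St_bracket and St_isKer of Step 4 of S0404.
-/

set_option autoImplicit false

open scoped Manifold ContDiff Topology
open Set Filter
open Crest.AlgGeometry.HolSplit
open Crest.Agent.R266.DL

namespace Crest.Agent.R266.St4

variable {n : ℕ} {X : Type} [TopologicalSpace X] [ChartedSpace (Model n) X]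
  [IsManifold (mI n) ω X]

noncomputable section

/-- the distribution `K` in the chart at `x₀` -/
def KcB (x₀ : X) (K : Dist n X) (y : Model n) : Submodule ℂ (Model n) :=
  Submodule.comap (M₂ := Model n)
    (tcc x₀ ((chartAt (Model n) x₀).symm y) ((chartAt (Model n) x₀).symm y)).toLinearMap
    (K ((chartAt (Model n) x₀).symm y))

lemma mem_Kc {x₀ : X} {K : Dist n X} {y : Model n} {v : Model n} :
    v ∈ KcB x₀ K y ↔ (tcc x₀ ((chartAt (Model n) x₀).symm y) ((chartAt (Model n) x₀).symm y) v :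
      TangentSpace (mI n) ((chartAt (Model n) x₀).symm y)) ∈ K ((chartAt (Model n) x₀).symm y) :=
  Iff.rfl

lemma tcc_mem_Kc {x₀ z : X} (hz : z ∈ (chartAt (Model n) x₀).source) {K : Dist n X}
    {u : Model n} : tcc z x₀ z u ∈ KcB x₀ K (chartAt (Model n) x₀ z) ↔
      (u : TangentSpace (mI n) z) ∈ K z := by
  rw [mem_Kc, (chartAt (Model n) x₀).left_inv hz]
  have := tcc_cancel' hz u
  rw [this]

lemma tcc_symm_mem {x₀ z : X} (hz : z ∈ (chartAt (Model n) x₀).source) {K : Dist n X}
    {v : Model n} : v ∈ KcB x₀ K (chartAt (Model n) x₀ z) ↔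
      (tcc x₀ z z v : TangentSpace (mI n) z) ∈ K z := by
  rw [mem_Kc, (chartAt (Model n) x₀).left_inv hz]

lemma Vc_mem_Kc {x₀ : X} {K : Dist n X} {y : Model n}
    (hy : y ∈ (chartAt (Model n) x₀).target) (V : (x : X) → TangentSpace (mI n) x) :
    Vc x₀ V y ∈ KcB x₀ K y ↔ V ((chartAt (Model n) x₀).symm y) ∈ K ((chartAt (Model n) x₀).symm y) := by
  have := tcc_mem_Kc (symm_mem hy) (K := K) (u := V ((chartAt (Model n) x₀).symm y))
  rw [(chartAt (Model n) x₀).right_inv hy] at this
  exact this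

omit [IsManifold (mI n) ω X] [TopologicalSpace X] [ChartedSpace (Model n) X] in
lemma span_aux {E : Type*} [AddCommGroup E] [Module ℂ E] (A B : E →ₗ[ℂ] E) (hAB : ∀ v, A (B v) = v)
    (hBA : ∀ v, B (A v) = v) {k : ℕ} (e : Fin k → E) (v : E) :
    B v ∈ Submodule.span ℂ (range e) ↔ v ∈ Submodule.span ℂ (range fun i => A (e i)) := by
  rw [Submodule.mem_span_range_iff_exists_fun, Submodule.mem_span_range_iff_exists_fun]
  constructor
  · rintro ⟨c, hc⟩
    refine ⟨c, ?_⟩
    rw [← hAB v, ← hc, map_sum]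
    simp
  · rintro ⟨c, rfl⟩
    refine ⟨c, ?_⟩
    rw [map_sum]
    simp [hBA]

/-- a subbundle is an analytic distribution in every chart -/
theorem adist_Kc {K : Dist n X} {U : Set X} (hK : IsSub K U) {x₀ x : X} (hxU : x ∈ U)
    (hx : x ∈ (chartAt (Model n) x₀).source) : ADist (KcB x₀ K) (chartAt (Model n) x₀ x) := by
  obtain ⟨O, k, V, hxO, hOU, hF⟩ := hK.2 x hxU
  set y₀ := chartAt (Model n) x₀ x with hy₀
  have hy₀t : y₀ ∈ (chartAt (Model n) x₀).target := (chartAt (Model n) x₀).map_source hx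
  have hsy : (chartAt (Model n) x₀).symm y₀ = x := (chartAt (Model n) x₀).left_inv hx
  have ho : IsOpen ((chartAt (Model n) x₀).target ∩ (chartAt (Model n) x₀).symm ⁻¹' O) :=
    (chartAt (Model n) x₀).isOpen_inter_preimage_symm hF.isOpen
  have hmem : y₀ ∈ (chartAt (Model n) x₀).target ∩ (chartAt (Model n) x₀).symm ⁻¹' O :=
    ⟨hy₀t, by rw [mem_preimage, hsy]; exact hxO⟩
  refine adist_of_frame (k := k) (e := fun i => Vc x₀ (V i)) ?_ ?_ ?_
  · intro i
    have h := Vc_contDiffOn (x₀ := x₀) hF.isOpen (hF.hol i)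
    have h2 := h.contDiffAt (ho.mem_nhds hmem)
    rw [← contDiffWithinAt_univ, contDiffWithinAt_omega_iff_analyticWithinAt,
      analyticWithinAt_univ] at h2
    exact h2
  · have h1 := hF.indep x hxO
    have h2 : (fun i => Vc x₀ (V i) y₀) = fun i => tcc x x₀ x (V i x) := by
      funext i
      simp only [Vc]
      rw [hsy]
    rw [h2]
    exact (tcc_linInd hx _).2 h1
  · filter_upwards [ho.mem_nhds hmem] with y hy
    have hys := symm_mem hy.1
    have hsp := hF.span _ hy.2
    ext v
    rw [mem_Kc, ← hsp]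
    exact span_aux
      (tcc ((chartAt (Model n) x₀).symm y) x₀ ((chartAt (Model n) x₀).symm y)).toLinearMap
      (tcc x₀ ((chartAt (Model n) x₀).symm y) ((chartAt (Model n) x₀).symm y)).toLinearMap
      (fun v => tcc_cancel hys v) (fun v => tcc_cancel' hys v)
      (fun i => (V i ((chartAt (Model n) x₀).symm y) : Model n)) v

/-- extension of a vector of a distribution to a local holomorphic field -/
theorem exists_ext {K : Dist n X} {x₀ x : X} (hx : x ∈ (chartAt (Model n) x₀).source)
    {Pi : Model n → Model n →L[ℂ] Model n} (h : IsProjAt (KcB x₀ K) Pi (chartAt (Model n) x₀ x))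
    {u : Model n} (hu : (u : TangentSpace (mI n) x) ∈ K x) :
    ∃ (O : Set X) (V : (x : X) → TangentSpace (mI n) x), IsOpen O ∧ x ∈ O ∧
      O ⊆ (chartAt (Model n) x₀).source ∧ IsHolVectorFieldOn O V ∧ (∀ z ∈ O, V z ∈ K z) ∧
      V x = u := by
  have hev := (h.an.eventually_analyticAt).and (h.idem.and h.mem)
  obtain ⟨N, hN, hNo, hyN⟩ := _root_.eventually_nhds_iff.1 hev
  set U : (x : X) → TangentSpace (mI n) x := fun z =>
    tcc x₀ z z (Pi (chartAt (Model n) x₀ z) (tcc x x₀ x u)) with hU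
  have hO : IsOpen ((chartAt (Model n) x₀).source ∩ (chartAt (Model n) x₀) ⁻¹' N) :=
    (chartAt (Model n) x₀).isOpen_inter_preimage hNo
  refine ⟨(chartAt (Model n) x₀).source ∩ (chartAt (Model n) x₀) ⁻¹' N, U, hO, ⟨hx, hyN⟩,
    inter_subset_left, ?_, ?_, ?_⟩
  · refine holField_of_Vc (x₀ := x₀) hO inter_subset_left ?_
    intro y hy
    have hyt := hy.1
    have hyN' : y ∈ N := by
      have := hy.2.2
      rwa [mem_preimage, (chartAt (Model n) x₀).right_inv hyt] at this
    have h1 : AnalyticAt ℂ (fun y => Pi y (tcc x x₀ x u)) y :=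
      analyticAt_apply (hN y hyN').1 analyticAt_const
    refine (h1.contDiffAt.contDiffWithinAt).congr_of_eventuallyEq ?_ ?_
    · filter_upwards [self_mem_nhdsWithin] with y' hy'
      simp only [Vc, hU]
      rw [tcc_cancel (symm_mem hy'.1), (chartAt (Model n) x₀).right_inv hy'.1]
    · simp only [Vc, hU]
      rw [tcc_cancel (symm_mem hyt), (chartAt (Model n) x₀).right_inv hyt]
  · intro z hz
    have h2 := hN _ hz.2
    have h3 : Pi (chartAt (Model n) x₀ z) (tcc x x₀ x u) ∈ KcB x₀ K (chartAt (Model n) x₀ z) :=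
      (h2.2.2 _).2 (h2.2.1 _)
    exact (tcc_symm_mem hz.1).1 h3
  · have h4 : tcc x x₀ x u ∈ KcB x₀ K (chartAt (Model n) x₀ x) := (tcc_mem_Kc hx).2 hu
    have h5 := (h.mem_self _).1 h4
    simp only [hU]
    rw [h5]
    exact tcc_cancel' hx u

/-- the bracket of fields in `K`, in any chart -/
theorem bracket_formula {K : Dist n X} {x₀ x : X} (hx : x ∈ (chartAt (Model n) x₀).source)
    {Pi : Model n → Model n →L[ℂ] Model n} (h : IsProjAt (KcB x₀ K) Pi (chartAt (Model n) x₀ x))
    {O : Set X} {V W : (x : X) → TangentSpace (mI n) x} (hO : IsOpen O) (hxO : x ∈ O)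
    (hV : IsHolVectorFieldOn O V) (hW : IsHolVectorFieldOn O W) (hVK : ∀ z ∈ O, V z ∈ K z)
    (hWK : ∀ z ∈ O, W z ∈ K z) :
    tcc x x₀ x (VectorField.mlieBracket (mI n) V W x) -
      Pi (chartAt (Model n) x₀ x) (tcc x x₀ x (VectorField.mlieBracket (mI n) V W x)) =
      th Pi (chartAt (Model n) x₀ x) (tcc x x₀ x (V x)) (tcc x x₀ x (W x)) := by
  set y := chartAt (Model n) x₀ x with hy
  have hyt : y ∈ (chartAt (Model n) x₀).target := (chartAt (Model n) x₀).map_source hx
  have hsy : (chartAt (Model n) x₀).symm y = x := (chartAt (Model n) x₀).left_inv hx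
  have hsO : (chartAt (Model n) x₀).symm y ∈ O := by rw [hsy]; exact hxO
  have hev : ∀ᶠ z in 𝓝 y, z ∈ (chartAt (Model n) x₀).target ∧ (chartAt (Model n) x₀).symm z ∈ O := by
    have ho : IsOpen ((chartAt (Model n) x₀).target ∩ (chartAt (Model n) x₀).symm ⁻¹' O) :=
      (chartAt (Model n) x₀).isOpen_inter_preimage_symm hO
    exact ho.mem_nhds ⟨hyt, hsO⟩
  have hfix : ∀ (V : (x : X) → TangentSpace (mI n) x), (∀ z ∈ O, V z ∈ K z) →
      ∀ᶠ z in 𝓝 y, Pi z (Vc x₀ V z) = Vc x₀ V z := by
    intro V hVK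
    filter_upwards [hev, h.mem] with z hz hm
    exact (hm _).1 ((Vc_mem_Kc hz.1 V).2 (hVK _ hz.2))
  have h1 := bracket_image (P := Pi) (V := Vc x₀ V) (W := Vc x₀ W) (y := y)
    h.an.differentiableAt (Vc_differentiableAt hO hV hyt hsO) (Vc_differentiableAt hO hW hyt hsO)
    (hfix V hVK) (hfix W hWK)
  have h2 := mlieBracket_chart (x₀ := x₀) hyt (V := V) (W := W)
    (holField_mdiff hO hV hsO) (holField_mdiff hO hW hsO)
  rw [← h2] at h1
  simp only [Vc] at h1
  rw [hsy] at h1
  exact h1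

/-- an idempotent for `K` in the chart at `x` -/
def PiK (K : Dist n X) (x : X) : Model n → Model n →L[ℂ] Model n := by
  classical exact
    if h : ADist (KcB x K) (chartAt (Model n) x x) then h.choose else 0

lemma PiK_spec {K : Dist n X} {U : Set X} (hK : IsSub K U) {x : X} (hx : x ∈ U) :
    IsProjAt (KcB x K) (PiK K x) (chartAt (Model n) x x) := by
  classical
  have h : ADist (KcB x K) (chartAt (Model n) x x) := adist_Kc hK hx (mem_chart_source _ x)
  unfold PiK
  rw [dif_pos h]
  exact h.choose_spec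

/-- the bracket tensor of `K` -/
def Bt (K : Dist n X) (x : X) (u v : Model n) : Model n :=
  th (PiK K x) (chartAt (Model n) x x) u v

/-- the Lie bracket, with values in the model space -/
def mlb (V W : (x : X) → TangentSpace (mI n) x) (x : X) : Model n :=
  VectorField.mlieBracket (mI n) V W x

omit [IsManifold (mI n) ω X] in
lemma th_lin_left (Pi : Model n → Model n →L[ℂ] Model n) (y u u' v : Model n) (c : ℂ) :
    th Pi y (u + c • u') v - th Pi y u v - c • th Pi y u' v = 0 := by
  rw [th_add_left, th_smul_left]; abel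

omit [IsManifold (mI n) ω X] in
lemma th_lin_right (Pi : Model n → Model n →L[ℂ] Model n) (y u v v' : Model n) (c : ℂ) :
    th Pi y u (v + c • v') - th Pi y u v - c • th Pi y u v' = 0 := by
  rw [th_add_right, th_smul_right]; abel

/-- the bracket of fields in `K` is represented by the tensor -/
theorem bracket_own {K : Dist n X} {U : Set X} (hK : IsSub K U) {x : X} (hx : x ∈ U)
    {O : Set X} {V W : (x : X) → TangentSpace (mI n) x} (hO : IsOpen O) (hxO : x ∈ O)
    (hV : IsHolVectorFieldOn O V) (hW : IsHolVectorFieldOn O W) (hVK : ∀ z ∈ O, V z ∈ K z)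
    (hWK : ∀ z ∈ O, W z ∈ K z) :
    mlb V W x - PiK K x (chartAt (Model n) x x) (mlb V W x) = Bt K x (V x) (W x) := by
  have h1 := bracket_formula (mem_chart_source (Model n) x) (PiK_spec hK hx) hO hxO hV hW hVK hWK
  have hs : ∀ v : Model n, tcc x x x v = v := fun v => tcc_self (mem_chart_source _ x) v
  have e1 := hs (mlb V W x)
  have e2 := hs (V x : Model n)
  have e3 := hs (W x : Model n)
  change tcc x x x (mlb V W x) - PiK K x (chartAt (Model n) x x) (tcc x x x (mlb V W x)) =
    th (PiK K x) (chartAt (Model n) x x) (tcc x x x (V x)) (tcc x x x (W x)) at h1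
  rw [e1, e2, e3] at h1
  exact h1

/-- key lemma: in any chart the tensor is given by the idempotent of that chart, modulo `K` -/
theorem Bt_chart {K : Dist n X} {U : Set X} (hK : IsSub K U) {x : X} (hxU : x ∈ U)
    {x₀ : X} (hx : x ∈ (chartAt (Model n) x₀).source)
    {Pi : Model n → Model n →L[ℂ] Model n} (h : IsProjAt (KcB x₀ K) Pi (chartAt (Model n) x₀ x))
    {u v : Model n} (hu : (u : TangentSpace (mI n) x) ∈ K x)
    (hv : (v : TangentSpace (mI n) x) ∈ K x) :
    tcc x x₀ x (Bt K x u v) - Pi (chartAt (Model n) x₀ x) (tcc x x₀ x (Bt K x u v)) =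
      th Pi (chartAt (Model n) x₀ x) (tcc x x₀ x u) (tcc x x₀ x v) := by
  obtain ⟨O₁, V, hO₁, hx₁, hs₁, hV, hVK, hVx⟩ := exists_ext hx h hu
  obtain ⟨O₂, W, hO₂, hx₂, hs₂, hW, hWK, hWx⟩ := exists_ext hx h hv
  have hO := hO₁.inter hO₂
  have hV' : IsHolVectorFieldOn (O₁ ∩ O₂) V := ContMDiffOn.mono hV inter_subset_left
  have hW' : IsHolVectorFieldOn (O₁ ∩ O₂) W := ContMDiffOn.mono hW inter_subset_right
  have h1 := bracket_formula hx h hO ⟨hx₁, hx₂⟩ hV' hW' (fun z hz => hVK z hz.1)
    (fun z hz => hWK z hz.2)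
  have h2 := bracket_own hK hxU hO ⟨hx₁, hx₂⟩ hV' hW' (fun z hz => hVK z hz.1)
    (fun z hz => hWK z hz.2)
  have h3 : PiK K x (chartAt (Model n) x x) (mlb V W x) ∈
      KcB x K (chartAt (Model n) x x) := (PiK_spec hK hxU).apply_mem _
  have h4 : ((PiK K x (chartAt (Model n) x x) (mlb V W x) :
      Model n) : TangentSpace (mI n) x) ∈ K x := by
    have h5 := (tcc_symm_mem (mem_chart_source _ x)).1 h3
    rw [tcc_self (mem_chart_source _ x)] at h5
    exact h5
  have h6 := (tcc_mem_Kc hx).2 h4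
  have h7 := (h.mem_self _).1 h6
  rw [hVx, hWx] at h1 h2
  change tcc x x₀ x (mlb V W x) - Pi (chartAt (Model n) x₀ x) (tcc x x₀ x (mlb V W x)) = _ at h1
  rw [← h1, ← h2, map_sub, map_sub, h7]
  abel

theorem Bt_mem_iff {K : Dist n X} {U : Set X} (hK : IsSub K U) {x : X} (hxU : x ∈ U)
    {x₀ : X} (hx : x ∈ (chartAt (Model n) x₀).source)
    {Pi : Model n → Model n →L[ℂ] Model n} (h : IsProjAt (KcB x₀ K) Pi (chartAt (Model n) x₀ x))
    {u v : Model n} (hu : (u : TangentSpace (mI n) x) ∈ K x)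
    (hv : (v : TangentSpace (mI n) x) ∈ K x) :
    (Bt K x u v : TangentSpace (mI n) x) ∈ K x ↔
      th Pi (chartAt (Model n) x₀ x) (tcc x x₀ x u) (tcc x x₀ x v) = 0 := by
  have h1 := Bt_chart hK hxU hx h hu hv
  rw [← tcc_mem_Kc hx, h.mem_self, ← h1, sub_eq_zero]
  exact eq_comm

/-- if the tensor value lies in `K` it vanishes -/
theorem Bt_eq_zero {K : Dist n X} {U : Set X} (hK : IsSub K U) {x : X} (hxU : x ∈ U)
    {u v : Model n} (hu : (u : TangentSpace (mI n) x) ∈ K x)
    (hv : (v : TangentSpace (mI n) x) ∈ K x) (h : (Bt K x u v : TangentSpace (mI n) x) ∈ K x) :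
    Bt K x u v = 0 := by
  have h1 := (Bt_mem_iff hK hxU (mem_chart_source _ x) (PiK_spec hK hxU) hu hv).1 h
  rw [tcc_self (mem_chart_source _ x), tcc_self (mem_chart_source _ x)] at h1
  exact h1

theorem kerSet_eq {F K : Dist n X} {U : Set X} (hF : IsSub F U) (hK : IsSub K U)
    (hFK : ∀ x ∈ U, F x ≤ K x) {x : X} (hx : x ∈ U) :
    kerSet F K x = {u : TangentSpace (mI n) x | u ∈ F x ∧
      ∀ v ∈ K x, (Bt K x u v : TangentSpace (mI n) x) ∈ K x} := by
  ext u
  constructor
  · rintro ⟨huF, hu⟩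
    refine ⟨huF, fun v hv => ?_⟩
    obtain ⟨O₁, V, hO₁, hx₁, hs₁, hV, hVF, hVx⟩ :=
      exists_ext (mem_chart_source (Model n) x) (PiK_spec hF hx) (u := u) huF
    obtain ⟨O₂, W, hO₂, hx₂, hs₂, hW, hWK, hWx⟩ :=
      exists_ext (mem_chart_source (Model n) x) (PiK_spec hK hx) (u := v) hv
    have hO := (hO₁.inter hO₂).inter hK.1
    have hV' : IsHolVectorFieldOn (O₁ ∩ O₂ ∩ U) V := ContMDiffOn.mono hV
      (inter_subset_left.trans inter_subset_left)
    have hW' : IsHolVectorFieldOn (O₁ ∩ O₂ ∩ U) W := ContMDiffOn.mono hW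
      (inter_subset_left.trans inter_subset_right)
    have hb := hu (O₁ ∩ O₂ ∩ U) V W hO ⟨⟨hx₁, hx₂⟩, hx⟩ hV' hW' (fun y hy => hVF y hy.1.1)
      (fun y hy => hWK y hy.1.2) hVx
    have h2 := bracket_own hK hx hO ⟨⟨hx₁, hx₂⟩, hx⟩ hV' hW'
      (fun y hy => hFK y hy.2 (hVF y hy.1.1)) (fun y hy => hWK y hy.1.2)
    have h3 : PiK K x (chartAt (Model n) x x) (mlb V W x) = mlb V W x := by
      have h4 : mlb V W x ∈ KcB x K (chartAt (Model n) x x) := by
        rw [tcc_symm_mem (mem_chart_source _ x), tcc_self (mem_chart_source _ x)]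
        exact hb
      exact ((PiK_spec hK hx).mem_self _).1 h4
    rw [h3, sub_self, hVx, hWx] at h2
    rw [← h2]
    exact Submodule.zero_mem _
  · rintro ⟨huF, hu⟩
    refine ⟨huF, ?_⟩
    intro O V W hO hxO hV hW hVF hWK hVx
    have hO' := hO.inter hK.1
    have hV' : IsHolVectorFieldOn (O ∩ U) V := ContMDiffOn.mono hV inter_subset_left
    have hW' : IsHolVectorFieldOn (O ∩ U) W := ContMDiffOn.mono hW inter_subset_left
    have h2 := bracket_own hK hx hO' ⟨hxO, hx⟩ hV' hW'
      (fun y hy => hFK y hy.2 (hVF y hy.1)) (fun y hy => hWK y hy.1)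
    have h5 : Bt K x (V x) (W x) = 0 := by
      refine Bt_eq_zero hK hx (hFK x hx (hVF x hxO)) (hWK x hxO) ?_
      have := hu (W x) (hWK x hxO)
      rw [← hVx] at this
      exact this
    rw [h5, sub_eq_zero] at h2
    have h6 : mlb V W x ∈ KcB x K (chartAt (Model n) x x) := by
      rw [(PiK_spec hK hx).mem_self]
      exact h2.symm
    rw [tcc_symm_mem (mem_chart_source _ x), tcc_self (mem_chart_source _ x)] at h6
    exact h6

/-- chart coordinates of a holomorphic curve -/
lemma curve_chart {g : ℂ → X} {z : ℂ} (h : ContMDiffAt 𝓘(ℂ, ℂ) (mI n) ω g z) :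
    AnalyticAt ℂ (fun t => chartAt (Model n) (g z) (g t)) z := by
  have h1 : ContMDiffAt (mI n) 𝓘(ℂ, Model n) ω (chartAt (Model n) (g z)) (g z) :=
    (contMDiffOn_chart (I := mI n) (n := ω) (x := g z)).contMDiffAt
      ((chartAt (Model n) (g z)).open_source.mem_nhds (mem_chart_source _ _))
  have h2 := h1.comp z h
  rw [contMDiffAt_iff_contDiffAt, ← contDiffWithinAt_univ,
    contDiffWithinAt_omega_iff_analyticWithinAt, analyticWithinAt_univ] at h2
  exact h2

theorem bracket_holds (n : ℕ) (X : Type) [TopologicalSpace X] [T2Space X]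
    [ChartedSpace (Model n) X] [IsManifold (mI n) ω X] : St_bracket n X := by
  intro F K U hF hK hFK
  refine ⟨fun x u v => Bt K x u v, fun x hx => kerSet_eq hF hK hFK hx, ?_, ?_⟩
  · intro x hx u hu u' hu' v hv v' hv' c
    constructor
    · have h := th_lin_left (PiK K x) (chartAt (Model n) x x) u u' v c
      change (th (PiK K x) (chartAt (Model n) x x) (u + c • u') v -
        th (PiK K x) (chartAt (Model n) x x) u v - c • th (PiK K x) (chartAt (Model n) x x) u' v :
        TangentSpace (mI n) x) ∈ K x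
      refine (congrArg (fun w : TangentSpace (mI n) x => w ∈ K x) h).mpr ?_
      exact Submodule.zero_mem (K x)
    · have h := th_lin_right (PiK K x) (chartAt (Model n) x x) u v v' c
      change (th (PiK K x) (chartAt (Model n) x x) u (v + c • v') -
        th (PiK K x) (chartAt (Model n) x x) u v - c • th (PiK K x) (chartAt (Model n) x x) u v' :
        TangentSpace (mI n) x) ∈ K x
      refine (congrArg (fun w : TangentSpace (mI n) x => w ∈ K x) h).mpr ?_
      exact Submodule.zero_mem (K x)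
  · intro g s t z hgU hs ht hsF htK
    set Pi := PiK K (g z) with hPi
    have hP := PiK_spec hK hgU
    have hcur := hs.curve
    have hγ := curve_chart hcur
    refine ⟨fun y => tcc (g z) (g y) (g y) (th Pi (chartAt (Model n) (g z) (g y))
      (tcc (g y) (g z) (g y) (s y)) (tcc (g y) (g z) (g y) (t y))), ?_, ?_⟩
    · rw [holAt_iff]
      refine ⟨hcur, ?_⟩
      have h1 : AnalyticAt ℂ (fun y => th Pi (chartAt (Model n) (g z) (g y))
          (tcc (g y) (g z) (g y) (s y)) (tcc (g y) (g z) (g y) (t y))) z := by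
        have hd : AnalyticAt ℂ (fun y => fderiv ℂ Pi (chartAt (Model n) (g z) (g y))) z :=
          AnalyticAt.comp (g := fderiv ℂ Pi) (hP.an.fderiv) hγ
        exact (analyticAt_apply (analyticAt_apply hd hs.coord) ht.coord).sub
          (analyticAt_apply (analyticAt_apply hd ht.coord) hs.coord)
      refine h1.congr ?_
      filter_upwards [curve_source hcur] with y hy
      rw [tcc_cancel hy]
    · have hev : ∀ᶠ y in 𝓝 z, IsProjAt (KcB (g z) K) Pi (chartAt (Model n) (g z) (g y)) :=
        hγ.continuousAt.eventually hP.eventually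
      have hU : ∀ᶠ y in 𝓝 z, g y ∈ U := hcur.continuousAt.preimage_mem_nhds (hK.1.mem_nhds hgU)
      filter_upwards [curve_source hcur, hev, hU, hsF, htK] with y hy1 hy2 hy3 hy4 hy5
      have h1 := Bt_chart hK hy3 hy1 hy2 (hFK _ hy3 hy4) hy5
      rw [← tcc_mem_Kc hy1, map_sub, tcc_cancel hy1, ← h1]
      have h2 : tcc (g y) (g z) (g y) (Bt K (g y) (s y) (t y)) -
          Pi (chartAt (Model n) (g z) (g y)) (tcc (g y) (g z) (g y) (Bt K (g y) (s y) (t y))) -
          tcc (g y) (g z) (g y) (Bt K (g y) (s y) (t y)) =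
          - Pi (chartAt (Model n) (g z) (g y)) (tcc (g y) (g z) (g y) (Bt K (g y) (s y) (t y))) := by
        abel
      rw [h2]
      exact Submodule.neg_mem _ (hy2.apply_mem _)

lemma th_zero_left (Pi : Model n → Model n →L[ℂ] Model n) (y v : Model n) :
    th Pi y 0 v = 0 := by
  simp [th]

/-- `kerSet` is a linear subspace -/
theorem kerD_coe {F K : Dist n X} {U : Set X} (hF : IsSub F U) (hK : IsSub K U)
    (hFK : ∀ x ∈ U, F x ≤ K x) {x : X} (hx : x ∈ U) :
    (kerD F K x : Set (TangentSpace (mI n) x)) = kerSet F K x := by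
  have he := kerSet_eq hF hK hFK hx
  let M : Submodule ℂ (TangentSpace (mI n) x) :=
    { carrier := kerSet F K x
      zero_mem' := by
        rw [he]
        refine ⟨Submodule.zero_mem _, fun v hv => ?_⟩
        have h := th_zero_left (PiK K x) (chartAt (Model n) x x) v
        refine (congrArg (fun w : TangentSpace (mI n) x => w ∈ K x) h).mpr ?_
        exact Submodule.zero_mem (K x)
      add_mem' := by
        intro a b ha hb
        rw [he] at ha hb ⊢
        refine ⟨Submodule.add_mem _ ha.1 hb.1, fun v hv => ?_⟩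
        have h := th_add_left (PiK K x) (chartAt (Model n) x x) a b v
        refine (congrArg (fun w : TangentSpace (mI n) x => w ∈ K x) h).mpr ?_
        exact Submodule.add_mem (K x) (ha.2 v hv) (hb.2 v hv)
      smul_mem' := by
        intro c a ha
        rw [he] at ha ⊢
        refine ⟨Submodule.smul_mem _ c ha.1, fun v hv => ?_⟩
        have h := th_smul_left (PiK K x) (chartAt (Model n) x x) c a v
        refine (congrArg (fun w : TangentSpace (mI n) x => w ∈ K x) h).mpr ?_
        exact Submodule.smul_mem (K x) c (ha.2 v hv) }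
  have h2 : kerD F K x = M := Submodule.span_eq M
  rw [h2]
  rfl

/-- membership in the kernel of the tensor, in any chart -/
theorem mem_kerD_iff {F K : Dist n X} {U : Set X} (hF : IsSub F U) (hK : IsSub K U)
    (hFK : ∀ x ∈ U, F x ≤ K x) {x : X} (hxU : x ∈ U) {x₀ : X}
    (hx : x ∈ (chartAt (Model n) x₀).source)
    {Pi : Model n → Model n →L[ℂ] Model n} (h : IsProjAt (KcB x₀ K) Pi (chartAt (Model n) x₀ x))
    {u : Model n} (hu : (u : TangentSpace (mI n) x) ∈ F x) :
    (u : TangentSpace (mI n) x) ∈ kerD F K x ↔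
      Dd Pi (chartAt (Model n) x₀ x) (tcc x x₀ x u) = 0 := by
  have h1 : (u : TangentSpace (mI n) x) ∈ kerD F K x ↔
      (u : TangentSpace (mI n) x) ∈ (kerD F K x : Set (TangentSpace (mI n) x)) := Iff.rfl
  rw [h1, kerD_coe hF hK hFK hxU, kerSet_eq hF hK hFK hxU]
  constructor
  · rintro ⟨-, h2⟩
    ext1 w
    rw [Dd_apply]
    have h3 : Pi (chartAt (Model n) x₀ x) w ∈ KcB x₀ K (chartAt (Model n) x₀ x) := h.apply_mem w
    have h4 := (tcc_symm_mem hx).1 h3
    have h5 := (Bt_mem_iff hK hxU hx h (hFK x hxU hu) h4).1 (h2 _ h4)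
    rw [tcc_cancel hx] at h5
    exact h5
  · intro h2
    refine ⟨hu, fun v hv => ?_⟩
    rw [Bt_mem_iff hK hxU hx h (hFK x hxU hu) hv]
    have h3 := (h.mem_self _).1 ((tcc_mem_Kc hx).2 hv)
    have h4 := congrArg (fun L : Model n →L[ℂ] Model n => L (tcc x x₀ x v)) h2
    simp only [Dd_apply] at h4
    rw [h3] at h4
    exact h4

omit [IsManifold (mI n) ω X] in
lemma sum_smul_tangent {k : ℕ} {x : X} (a : Fin k → ℂ) (V : Fin k → Model n) (T : Model n →L[ℂ] Model n) :
    T (∑ i, a i • (V i : TangentSpace (mI n) x) : TangentSpace (mI n) x) =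
      frameMap (fun i => T (V i)) a := by
  have h : (∑ i, a i • (V i : TangentSpace (mI n) x) : TangentSpace (mI n) x) =
      (∑ i, a i • V i : Model n) := rfl
  rw [frameMap_apply]
  have h2 := map_sum T (fun i => a i • V i) Finset.univ
  refine Eq.trans h2 ?_
  simp

theorem isKer_holds (n : ℕ) (X : Type) [TopologicalSpace X] [T2Space X]
    [ChartedSpace (Model n) X] [IsManifold (mI n) ω X] : St_isKer n X := by
  intro F K U hF hK hFK
  refine ⟨fun x hx => kerD_coe hF hK hFK hx, hF.1, ?_⟩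
  intro x hx
  obtain ⟨O, k, V, hxO, hOU, hFr⟩ := hF.2 x hx
  set Pi := PiK K x with hPi
  have hP := PiK_spec hK hx
  obtain ⟨N, hN, hNo, hxN⟩ := _root_.eventually_nhds_iff.1 hP.eventually
  let eqv : (Model n →L[ℂ] Model n) ≃L[ℂ] (Fin (Module.finrank ℂ (Model n →L[ℂ] Model n)) → ℂ) :=
    ContinuousLinearEquiv.ofFinrankEq (by simp)
  let Ψ : Model n → ((Fin k → ℂ) →L[ℂ] (Fin (Module.finrank ℂ (Model n →L[ℂ] Model n)) → ℂ)) :=
    fun y => (eqv : (Model n →L[ℂ] Model n) →L[ℂ] _).comp
      ((Dd Pi y).comp (frameMap fun i => Vc x (V i) y))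
  have hO' : IsOpen (O ∩ ((chartAt (Model n) x).source ∩ (chartAt (Model n) x) ⁻¹' N)) :=
    hFr.isOpen.inter ((chartAt (Model n) x).isOpen_inter_preimage hNo)
  refine ⟨O ∩ ((chartAt (Model n) x).source ∩ (chartAt (Model n) x) ⁻¹' N), k,
    Module.finrank ℂ (Model n →L[ℂ] Model n), V, fun y => Ψ (chartAt (Model n) x y),
    ⟨hxO, mem_chart_source _ x, hxN⟩, inter_subset_left.trans hOU, ?_, ?_, ?_⟩
  · exact ⟨hO', fun i => ContMDiffOn.mono (hFr.hol i) inter_subset_left,
      fun y hy => hFr.indep y hy.1, fun y hy => hFr.span y hy.1⟩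
  · intro y hy
    refine ContMDiffAt.contMDiffWithinAt ?_
    have hyt : chartAt (Model n) x y ∈ (chartAt (Model n) x).target :=
      (chartAt (Model n) x).map_source hy.2.1
    have h1 : AnalyticAt ℂ Ψ (chartAt (Model n) x y) := by
      refine analyticAt_comp analyticAt_const (analyticAt_comp (analyticAt_Dd (hN _ hy.2.2).an) ?_)
      refine analyticAt_frameMap fun i => ?_
      have h := Vc_contDiffOn (x₀ := x) hFr.isOpen (hFr.hol i)
      have ho : IsOpen ((chartAt (Model n) x).target ∩ (chartAt (Model n) x).symm ⁻¹' O) :=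
        (chartAt (Model n) x).isOpen_inter_preimage_symm hFr.isOpen
      have h2 := h.contDiffAt (ho.mem_nhds ⟨hyt, by
        rw [mem_preimage, (chartAt (Model n) x).left_inv hy.2.1]; exact hy.1⟩)
      rw [← contDiffWithinAt_univ, contDiffWithinAt_omega_iff_analyticWithinAt,
        analyticWithinAt_univ] at h2
      exact h2
    have h3 : ContMDiffAt 𝓘(ℂ, Model n)
        𝓘(ℂ, (Fin k → ℂ) →L[ℂ] (Fin (Module.finrank ℂ (Model n →L[ℂ] Model n)) → ℂ)) ω Ψ
        (chartAt (Model n) x y) := h1.contDiffAt.contMDiffAt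
    have h4 : ContMDiffAt (mI n) 𝓘(ℂ, Model n) ω (chartAt (Model n) x) y :=
      (contMDiffOn_chart (I := mI n) (n := ω) (x := x)).contMDiffAt
        ((chartAt (Model n) x).open_source.mem_nhds hy.2.1)
    exact h3.comp y h4
  · intro y hy a
    have hyU : y ∈ U := hOU hy.1
    have hu : (∑ i, a i • V i y) ∈ F y := by
      rw [← hFr.span y hy.1]
      exact Submodule.sum_mem _ fun i _ => Submodule.smul_mem _ _
        (Submodule.subset_span ⟨i, rfl⟩)
    have h1 := mem_kerD_iff hF hK hFK hyU hy.2.1 (hN _ hy.2.2) hu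
    refine Iff.trans h1 ?_
    change _ ↔ Ψ (chartAt (Model n) x y) a = 0
    have h2 : tcc y x y (∑ i, a i • V i y : TangentSpace (mI n) y) =
        frameMap (fun i => tcc y x y (V i y)) a :=
      sum_smul_tangent (x := y) a (fun i => (V i y : Model n)) (tcc y x y)
    have h3 : (fun i => tcc y x y (V i y)) = fun i => Vc x (V i) (chartAt (Model n) x y) := by
      funext i
      simp only [Vc]
      rw [(chartAt (Model n) x).left_inv hy.2.1]
    have h4 : Ψ (chartAt (Model n) x y) a =
        eqv (Dd Pi (chartAt (Model n) x y) (tcc y x y (∑ i, a i • V i y : TangentSpace (mI n) y))) := by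
      rw [h2, h3]
      rfl
    rw [h4]
    exact (map_eq_zero_iff eqv eqv.injective).symm

end

end Crest.Agent.R266.St4
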