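import Crest.Agent.R266.Chart
import Crest.Agent.R266.A.St4Defs

/-!
R266 / A / Coeff (helper290): nodes `St_liouville` and `St_coeff` of Step 4 of S0404.
-/

set_option autoImplicit false

open scoped Manifold ContDiff Topology
open Set Filter
open Crest.AlgGeometry.HolSplit

namespace Crest.Agent.R266.St4.CF

theorem liouville_holds : St_liouville := by
  intro c hc hg
  have key : ∀ b, ∀ z w, c b z = c b w := by
    intro b
    apply (hc b).apply_eq_apply_of_bounded
    obtain ⟨M1, hM1⟩ := (isCompact_closedBall (0 : ℂ) 1).exists_bound_of_continuousOn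
      (hc b).continuous.continuousOn
    obtain ⟨M2, hM2⟩ := (isCompact_closedBall (0 : ℂ) 1).exists_bound_of_continuousOn
      (hc (!b)).continuous.continuousOn
    rw [isBounded_iff_forall_norm_le]
    refine ⟨max M1 M2, ?_⟩
    rintro _ ⟨z, rfl⟩
    by_cases hz : ‖z‖ ≤ 1
    · exact (hM1 z (by simpa using hz)).trans (le_max_left _ _)
    · have hz0 : z ≠ 0 := by
        rintro rfl
        simp at hz
      have h1 := hg (!b) z hz0
      rw [Bool.not_not] at h1
      rw [h1]
      refine (hM2 z⁻¹ ?_).trans (le_max_right _ _)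
      rw [mem_closedBall_zero_iff, norm_inv]
      exact inv_le_one_of_one_le₀ (le_of_lt (not_le.1 hz))
  refine ⟨c false 1, fun b z => ?_⟩
  rw [key b z 1]
  cases b with
  | false => rfl
  | true =>
    have := hg false 1 one_ne_zero
    simpa using this

section local_coeff

variable {E : Type*} [NormedAddCommGroup E] [NormedSpace ℂ E]

/-- coefficients with respect to a holomorphic basis are holomorphic (pure form) -/
theorem coeff_pure [FiniteDimensional ℂ E] {k q : ℕ} {a : Fin k → ℂ → E} {b : Fin q → ℂ → E}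
    {σ : ℂ → E} {α : ℂ → Fin k → ℂ} {γ : ℂ → Fin q → ℂ} {z : ℂ}
    (ha : ∀ i, ContDiffAt ℂ ω (a i) z) (hb : ∀ j, ContDiffAt ℂ ω (b j) z)
    (hσ : ContDiffAt ℂ ω σ z)
    (hinj : ∀ (x : Fin k → ℂ) (y : Fin q → ℂ), (∑ i, x i • a i z) + (∑ j, y j • b j z) = 0 →
      x = 0 ∧ y = 0)
    (hsurj : ∀ v : E, ∃ (x : Fin k → ℂ) (y : Fin q → ℂ),
      (∑ i, x i • a i z) + (∑ j, y j • b j z) = v)
    (heq : ∀ᶠ t in 𝓝 z, (∑ i, α t i • a i t) + (∑ j, γ t j • b j t) = σ t) :
    ContDiffAt ℂ ω γ z := by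
  set A : ℂ → ((Fin k → ℂ) × (Fin q → ℂ)) →L[ℂ] E := fun t =>
    (∑ i, ((ContinuousLinearMap.proj i).comp
        (ContinuousLinearMap.fst ℂ (Fin k → ℂ) (Fin q → ℂ))).smulRight (a i t)) +
    (∑ j, ((ContinuousLinearMap.proj j).comp
        (ContinuousLinearMap.snd ℂ (Fin k → ℂ) (Fin q → ℂ))).smulRight (b j t)) with hAdef
  have hA : ∀ t x y, A t (x, y) = (∑ i, x i • a i t) + (∑ j, y j • b j t) := by
    intro t x y
    simp [hAdef]
  have hAc : ContDiffAt ℂ ω A z := by
    refine ContDiffAt.add ?_ ?_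
    · refine ContDiffAt.sum fun i _ => ?_
      exact (ContinuousLinearMap.smulRightL ℂ ((Fin k → ℂ) × (Fin q → ℂ)) E
        ((ContinuousLinearMap.proj i).comp
        (ContinuousLinearMap.fst ℂ (Fin k → ℂ) (Fin q → ℂ)))).contDiff.contDiffAt.comp z (ha i)
    · refine ContDiffAt.sum fun j _ => ?_
      exact (ContinuousLinearMap.smulRightL ℂ ((Fin k → ℂ) × (Fin q → ℂ)) E
        ((ContinuousLinearMap.proj j).comp
        (ContinuousLinearMap.snd ℂ (Fin k → ℂ) (Fin q → ℂ)))).contDiff.contDiffAt.comp z (hb j)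
  have hinjA : Function.Injective (A z) := by
    rw [injective_iff_map_eq_zero]
    rintro ⟨x, y⟩ hxy
    rw [hA] at hxy
    obtain ⟨h1, h2⟩ := hinj x y hxy
    rw [h1, h2]; rfl
  have hsurA : Function.Surjective (A z) := by
    intro v
    obtain ⟨x, y, h⟩ := hsurj v
    exact ⟨(x, y), by rw [hA, h]⟩
  let e : ((Fin k → ℂ) × (Fin q → ℂ)) ≃L[ℂ] E :=
    (LinearEquiv.ofBijective (A z).toLinearMap ⟨hinjA, hsurA⟩).toContinuousLinearEquiv
  have he : (e : ((Fin k → ℂ) × (Fin q → ℂ)) →L[ℂ] E) = A z := by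
    ext v <;> rfl
  have hinv : ContDiffAt ℂ ω (fun t => ContinuousLinearMap.inverse (A t)) z := by
    have h1 := contDiffAt_map_inverse (𝕜 := ℂ) (n := ω) e
    rw [he] at h1
    exact h1.comp z hAc
  have hnear : ∀ᶠ t in 𝓝 z, ∃ e' : ((Fin k → ℂ) × (Fin q → ℂ)) ≃L[ℂ] E,
      (e' : ((Fin k → ℂ) × (Fin q → ℂ)) →L[ℂ] E) = A t := by
    have h1 := e.nhds
    rw [he] at h1
    have h2 := hAc.continuousAt.eventually h1
    filter_upwards [h2] with t ht
    exact ht
  have hfin : ContDiffAt ℂ ω (fun t => (ContinuousLinearMap.inverse (A t) (σ t)).2) z :=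
    (hinv.clm_apply hσ).snd
  refine hfin.congr_of_eventuallyEq ?_
  filter_upwards [hnear, heq] with t ht h
  obtain ⟨e', he'⟩ := ht
  rw [← h, ← hA, ← he', ContinuousLinearMap.inverse_equiv]
  simp

end local_coeff

section linalg

variable {M : Type*} [AddCommGroup M] [Module ℂ M]

theorem exists_coeff (H : Submodule ℂ M) {q : ℕ} (τ : Fin q → M)
    (hc : IsCompl H (Submodule.span ℂ (Set.range τ))) (β : M) :
    ∃ c : Fin q → ℂ, β - ∑ j, c j • τ j ∈ H := by
  have hv : β ∈ H ⊔ Submodule.span ℂ (Set.range τ) := by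
    rw [hc.sup_eq_top]; trivial
  obtain ⟨h, hh, w, hw, hsum⟩ := Submodule.mem_sup.1 hv
  obtain ⟨y, hy⟩ := (Submodule.mem_span_range_iff_exists_fun ℂ).1 hw
  refine ⟨y, ?_⟩
  rw [hy, ← hsum, add_sub_cancel_right]
  exact hh

theorem unique_coeff (H : Submodule ℂ M) {q : ℕ} (τ : Fin q → M) (hl : LinearIndependent ℂ τ)
    (hcp : IsCompl H (Submodule.span ℂ (Set.range τ))) (β : M) (c c' : Fin q → ℂ)
    (h : β - ∑ j, c j • τ j ∈ H) (h' : β - ∑ j, c' j • τ j ∈ H) : c = c' := by
  have h1 := Submodule.sub_mem _ h' h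
  have h2 : (β - ∑ j, c' j • τ j) - (β - ∑ j, c j • τ j) = ∑ j, (c j - c' j) • τ j := by
    simp only [sub_smul, Finset.sum_sub_distrib]
    abel
  rw [h2] at h1
  have h3 : (∑ j, (c j - c' j) • τ j) ∈ Submodule.span ℂ (Set.range τ) :=
    (Submodule.mem_span_range_iff_exists_fun ℂ).2 ⟨fun j => c j - c' j, rfl⟩
  have h4 := Submodule.disjoint_def.1 hcp.disjoint _ h1 h3
  funext j
  exact sub_eq_zero.1 (Fintype.linearIndependent_iff.1 hl (fun j => c j - c' j) h4 j)

theorem add_coeff (H : Submodule ℂ M) {s β w : M} (h1 : s - β ∈ H) (h2 : β - w ∈ H) :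
    s - w ∈ H := by
  have := H.add_mem h1 h2
  rwa [sub_add_sub_cancel] at this

theorem sub_coeff (H : Submodule ℂ M) {s β w : M} (h1 : s - β ∈ H) (h2 : s - w ∈ H) :
    β - w ∈ H := by
  have := H.sub_mem h2 h1
  rwa [sub_sub_sub_cancel_left] at this

theorem basis_inj (H : Submodule ℂ M) {k q : ℕ} {V : Fin k → M} {τ : Fin q → M}
    (hV : LinearIndependent ℂ V) (hsp : Submodule.span ℂ (Set.range V) = H)
    (hτ : LinearIndependent ℂ τ) (hc : IsCompl H (Submodule.span ℂ (Set.range τ)))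
    (x : Fin k → ℂ) (y : Fin q → ℂ) (h : (∑ i, x i • V i) + (∑ j, y j • τ j) = 0) :
    x = 0 ∧ y = 0 := by
  have hx : (∑ i, x i • V i) ∈ H := by
    rw [← hsp]
    exact (Submodule.mem_span_range_iff_exists_fun ℂ).2 ⟨x, rfl⟩
  have hy : (∑ j, y j • τ j) ∈ Submodule.span ℂ (Set.range τ) :=
    (Submodule.mem_span_range_iff_exists_fun ℂ).2 ⟨y, rfl⟩
  have hxy' : (∑ i, x i • V i) = -(∑ j, y j • τ j) := eq_neg_of_add_eq_zero_left h
  have h0 : (∑ i, x i • V i) = 0 := by
    refine Submodule.disjoint_def.1 hc.disjoint _ hx ?_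
    rw [hxy']
    exact Submodule.neg_mem _ hy
  have h1 : (∑ j, y j • τ j) = 0 := by
    rw [h0] at hxy'
    exact neg_eq_zero.1 hxy'.symm
  exact ⟨funext fun i => Fintype.linearIndependent_iff.1 hV x h0 i,
    funext fun j => Fintype.linearIndependent_iff.1 hτ y h1 j⟩

theorem basis_surj (H : Submodule ℂ M) {k q : ℕ} {V : Fin k → M} {τ : Fin q → M}
    (hsp : Submodule.span ℂ (Set.range V) = H)
    (hc : IsCompl H (Submodule.span ℂ (Set.range τ))) (v : M) :
    ∃ (x : Fin k → ℂ) (y : Fin q → ℂ), (∑ i, x i • V i) + (∑ j, y j • τ j) = v := by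
  have hv : v ∈ H ⊔ Submodule.span ℂ (Set.range τ) := by
    rw [hc.sup_eq_top]; trivial
  obtain ⟨h, hh, w, hw, hsum⟩ := Submodule.mem_sup.1 hv
  rw [← hsp] at hh
  obtain ⟨x, hx⟩ := (Submodule.mem_span_range_iff_exists_fun ℂ).1 hh
  obtain ⟨y, hy⟩ := (Submodule.mem_span_range_iff_exists_fun ℂ).1 hw
  exact ⟨x, y, by rw [← hsum, ← hx, ← hy]⟩

theorem frame_coeff (H : Submodule ℂ M) {k : ℕ} {V : Fin k → M}
    (hsp : Submodule.span ℂ (Set.range V) = H) {v w : M} (h : v - w ∈ H) :
    ∃ α : Fin k → ℂ, (∑ i, α i • V i) + w = v := by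
  rw [← hsp] at h
  obtain ⟨x, hx⟩ := (Submodule.mem_span_range_iff_exists_fun ℂ).1 h
  exact ⟨x, by rw [hx, sub_add_cancel]⟩

end linalg

variable {n : ℕ} {X : Type} [TopologicalSpace X] [ChartedSpace (Model n) X]
  [IsManifold (mI n) ω X]

/-- sections along a curve in the trivialization at the value -/
theorem holAt_iff {g : ℂ → X} {s : ℂ → Model n} {z : ℂ} :
    HolAt n g s z ↔ ContMDiffAt 𝓘(ℂ, ℂ) (mI n) ω g z ∧
      ContDiffAt ℂ ω (fun t => tcc (g t) (g z) (g t) (s t)) z := by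
  have h := Bundle.contMDiffAt_totalSpace (IM := 𝓘(ℂ, ℂ)) (IB := mI n) (n := ω)
    (F := Model n) (E := (TangentSpace (mI n) : X → Type _))
    (f := fun t => tv n (g t) (s t)) (x₀ := z)
  rw [← contMDiffAt_iff_contDiffAt]
  exact h

/-- the restriction of a holomorphic vector field to a curve -/
theorem holAt_field {g : ℂ → X} {O : Set X} (hO : IsOpen O)
    {V : (x : X) → TangentSpace (mI n) x} (hV : IsHolVectorFieldOn O V) {z : ℂ}
    (hg : ContMDiffAt 𝓘(ℂ, ℂ) (mI n) ω g z) (hz : g z ∈ O) :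
    HolAt n g (fun t => V (g t)) z :=
  (ContMDiffOn.contMDiffAt hV (hO.mem_nhds hz)).comp z hg

omit [IsManifold (mI n) ω X] in
/-- membership in a distribution does not depend on the name of the point -/
theorem mem_congr_pt (H : Dist n X) {x y : X} (h : x = y) {v : Model n}
    (hv : (v : TangentSpace (mI n) x) ∈ H x) : (v : TangentSpace (mI n) y) ∈ H y := by
  subst h; exact hv

/-- the coefficients of a local holomorphic section with respect to a holomorphic complement are
holomorphic -/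
theorem coeff_contDiffAt {H : Dist n X} {O : Set X} {k : ℕ}
    {V : Fin k → (x : X) → TangentSpace (mI n) x} (hV : FrameOn H O k V)
    {g : ℂ → X} {q : ℕ} {τ : Fin q → ℂ → Model n} {s : ℂ → Model n} {γ : ℂ → Fin q → ℂ} {z : ℂ}
    (hg : ContMDiffAt 𝓘(ℂ, ℂ) (mI n) ω g z) (hz : g z ∈ O)
    (hτ : ∀ j, HolAt n g (τ j) z) (hs : HolAt n g s z)
    (hli : LinearIndependent ℂ (fun j => τ j z))
    (hcompl : IsCompl (H (g z))
      (Submodule.span ℂ (Set.range fun j => (τ j z : TangentSpace (mI n) (g z)))))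
    (heq : ∀ᶠ t in 𝓝 z, (s t - ∑ j, γ t j • τ j t : TangentSpace (mI n) (g t)) ∈ H (g t)) :
    ContDiffAt ℂ ω γ z := by
  have hev : ∀ᶠ t in 𝓝 z, g t ∈ O ∧ g t ∈ (chartAt (Model n) (g z)).source :=
    (hg.continuousAt.eventually (hV.isOpen.mem_nhds hz)).and
      (hg.continuousAt.eventually
        ((chartAt (Model n) (g z)).open_source.mem_nhds (mem_chart_source _ _)))
  -- coefficients along the frame
  have hex : ∀ t, ∃ α : Fin k → ℂ, (g t ∈ O ∧
      (s t - ∑ j, γ t j • τ j t : TangentSpace (mI n) (g t)) ∈ H (g t)) →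
      (∑ i, α i • (show Model n from V i (g t))) + (∑ j, γ t j • τ j t) = s t := by
    intro t
    by_cases h : g t ∈ O ∧ (s t - ∑ j, γ t j • τ j t : TangentSpace (mI n) (g t)) ∈ H (g t)
    · obtain ⟨α, hα⟩ := frame_coeff (M := Model n) (H (g t)) (V := fun i => V i (g t))
        (hV.span (g t) h.1) h.2
      exact ⟨α, fun _ => hα⟩
    · exact ⟨0, fun h' => absurd h' h⟩
  choose α hα using hex
  have hself : ∀ v : Model n, tcc (g z) (g z) (g z) v = v :=
    fun v => tcc_self (mem_chart_source _ _) v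
  have hsum : ∀ (x : Fin k → ℂ) (y : Fin q → ℂ),
      (∑ i, x i • tcc (g z) (g z) (g z) (V i (g z))) +
        (∑ j, y j • tcc (g z) (g z) (g z) (τ j z)) =
      (∑ i, x i • (show Model n from V i (g z))) + (∑ j, y j • τ j z) := by
    intro x y
    exact congrArg₂ (· + ·)
      (Finset.sum_congr rfl fun i _ => congrArg (fun w : Model n => x i • w) (hself _))
      (Finset.sum_congr rfl fun j _ => congrArg (fun w : Model n => y j • w) (hself _))
  refine coeff_pure (a := fun i t => tcc (g t) (g z) (g t) (V i (g t)))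
    (b := fun j t => tcc (g t) (g z) (g t) (τ j t))
    (σ := fun t => tcc (g t) (g z) (g t) (s t)) (α := α)
    (fun i => (holAt_iff.1 (holAt_field hV.isOpen (hV.hol i) hg hz)).2)
    (fun j => (holAt_iff.1 (hτ j)).2) (holAt_iff.1 hs).2 ?_ ?_ ?_
  · intro x y hxy
    exact basis_inj (M := Model n) (H (g z)) (V := fun i => V i (g z)) (τ := fun j => τ j z)
      (hV.indep (g z) hz) (hV.span (g z) hz) hli hcompl x y ((hsum x y).symm.trans hxy)
  · intro v
    obtain ⟨x, y, h⟩ := basis_surj (M := Model n) (H (g z)) (V := fun i => V i (g z))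
      (τ := fun j => τ j z) (hV.span (g z) hz) hcompl v
    exact ⟨x, y, (hsum x y).trans h⟩
  · filter_upwards [hev, heq] with t ht h
    have h1 := hα t ⟨ht.1, h⟩
    have h3 := congrArg (tcc (g t) (g z) (g t)) h1
    rw [map_add, map_sum, map_sum] at h3
    refine Eq.trans ?_ h3
    exact congrArg₂ (· + ·)
      (Finset.sum_congr rfl fun i _ =>
        ((tcc (g t) (g z) (g t)).map_smul (α t i) (show Model n from V i (g t))).symm)
      (Finset.sum_congr rfl fun j _ =>
        ((tcc (g t) (g z) (g t)).map_smul (γ t j) (τ j t)).symm)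

variable (n X) in
theorem _root_.Crest.Agent.R266.St4.coeff_holds [T2Space X] : St_coeff n X := by
  intro U H g q τ β hH hg hgU hτ hcompl hβ hglue
  -- existence and uniqueness of the coefficients at every point
  have hex : ∀ b z, ∃ c : Fin q → ℂ,
      (β b z - ∑ j, c j • τ j b z : TangentSpace (mI n) (g b z)) ∈ H (g b z) := by
    intro b z
    exact exists_coeff (M := Model n) (H (g b z)) (fun j => τ j b z) (hcompl b z).2 (β b z)
  have huniq : ∀ b z (c c' : Fin q → ℂ),
      (β b z - ∑ j, c j • τ j b z : TangentSpace (mI n) (g b z)) ∈ H (g b z) →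
      (β b z - ∑ j, c' j • τ j b z : TangentSpace (mI n) (g b z)) ∈ H (g b z) → c = c' := by
    intro b z c c' h h'
    exact unique_coeff (M := Model n) (H (g b z)) (fun j => τ j b z) (hcompl b z).1
      (hcompl b z).2 (β b z) c c' h h'
  choose c hc using hex
  have hdiff : ∀ b z, ContDiffAt ℂ ω (c b) z := by
    intro b z
    obtain ⟨s, hs, hsβ⟩ := hβ b z
    obtain ⟨O, k, V, hzO, -, hfr⟩ := hH.2 (g b z) (hgU b z)
    refine coeff_contDiffAt hfr (hg.hol b).contMDiffAt hzO (fun j => (hτ j).hol b z) hs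
      (hcompl b z).1 (hcompl b z).2 ?_
    filter_upwards [hsβ] with t ht
    exact add_coeff (M := Model n) (H (g b t)) ht (hc b t)
  have hgl : ∀ b z, z ≠ 0 → c (!b) z = c b z⁻¹ := by
    intro b z hz
    refine huniq b z⁻¹ _ _ ?_ (hc b z⁻¹)
    have h1 := mem_congr_pt H (hg.glue b z hz) (hc (!b) z)
    have h2 := hglue b z hz
    have h3 : ∀ j, τ j (!b) z = τ j b z⁻¹ := fun j => (hτ j).glue b z hz
    simp only [h3] at h1
    exact sub_coeff (M := Model n) (H (g b z⁻¹)) h2 h1
  have hconst : ∀ j, ∃ a, ∀ b z, c b z j = a := by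
    intro j
    refine liouville_holds (fun b z => c b z j) (fun b z => ?_) (fun b z hz => ?_)
    · exact (differentiableAt_pi.1 ((hdiff b z).differentiableAt (by simp))) j
    · exact congrFun (hgl b z hz) j
  choose a ha using hconst
  refine ⟨a, fun b z => ?_⟩
  have := hc b z
  simp only [ha] at this
  exact this

end Crest.Agent.R266.St4.CF
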