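import Crest.Agent.R266.A.St4Coeff

/-!
R266 / A / DensSec (helper290): node `St_dens` of Step 4 of S0404.
-/

set_option autoImplicit false

open scoped Manifold ContDiff Topology
open Set Filter
open Crest.AlgGeometry.HolSplit

namespace Crest.Agent.R266.St4.DS

section pure

variable {F : Type*} [NormedAddCommGroup F] [NormedSpace ℂ F] [FiniteDimensional ℂ F]

/-- analytic families of vectors are near a point either always dependent or independent outside
the point -/
theorem dep_or_indep {k : ℕ} {e : Fin k → ℂ → F} {z : ℂ} (he : ∀ i, AnalyticAt ℂ (e i) z) :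
    (∀ᶠ y in 𝓝 z, ¬ LinearIndependent ℂ (fun i => e i y)) ∨
      (∀ᶠ y in 𝓝[≠] z, LinearIndependent ℂ (fun i => e i y)) := by
  have hev : ∀ᶠ y in 𝓝 z, ∀ i, AnalyticAt ℂ (e i) y :=
    eventually_all.2 fun i => (he i).eventually_analyticAt
  obtain ⟨r, hr, hball⟩ := Metric.eventually_nhds_iff_ball.1 hev
  by_cases h : ∃ y₁ ∈ Metric.ball z r, LinearIndependent ℂ (fun i => e i y₁)
  · right
    obtain ⟨y₁, hy₁, hind⟩ := h
    obtain ⟨L, hL⟩ : ∃ L : F →L[ℂ] (Fin k → ℂ), ∀ i, L (e i y₁) = Pi.single i 1 := by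
      obtain ⟨g, hg⟩ :=
        (Fintype.linearCombination ℂ (fun i => e i y₁)).exists_leftInverse_of_injective
        (by
          rw [LinearMap.ker_eq_bot']
          intro m hm
          rw [Fintype.linearCombination_apply] at hm
          funext i
          exact Fintype.linearIndependent_iff.1 hind m hm i)
      refine ⟨LinearMap.toContinuousLinearMap g, fun i => ?_⟩
      have := congrArg (fun T => T (Pi.single i 1)) hg
      simpa [Fintype.linearCombination_apply] using this
    let m : ℂ → ℂ := fun y => (Matrix.of fun i j => L (e i y) j).det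
    have hm : AnalyticOnNhd ℂ m (Metric.ball z r) := by
      intro y hy
      have h1 : ∀ i j, AnalyticAt ℂ (fun y => L (e i y) j) y := by
        intro i j
        have h2 : AnalyticAt ℂ (fun y => L (e i y)) y := (L.analyticAt _).comp (hball y hy i)
        exact ((ContinuousLinearMap.proj (R := ℂ) (φ := fun _ : Fin k => ℂ) j).analyticAt _).comp h2
      have h3 : m = fun y => ∑ σ : Equiv.Perm (Fin k), ((Equiv.Perm.sign σ : ℤ) : ℂ) *
          ∏ i, L (e (σ i) y) i := by
        funext y
        simp only [m, Matrix.det_apply', Matrix.of_apply]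
      rw [h3]
      refine Finset.analyticAt_fun_sum _ fun σ _ => ?_
      exact analyticAt_const.mul (Finset.analyticAt_fun_prod _ fun i _ => h1 _ _)
    have hm1 : m y₁ ≠ 0 := by
      have : (Matrix.of fun i j => L (e i y₁) j) = (1 : Matrix (Fin k) (Fin k) ℂ) := by
        ext i j
        rw [Matrix.of_apply, hL, Matrix.one_apply, Pi.single_apply]
        simp only [eq_comm]
      simp only [m]
      rw [this, Matrix.det_one]
      exact one_ne_zero
    have hz : z ∈ Metric.ball z r := Metric.mem_ball_self hr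
    rcases (hm z hz).eventually_eq_zero_or_eventually_ne_zero with h0 | h0
    · exact absurd (hm.eqOn_zero_of_preconnected_of_eventuallyEq_zero
        (convex_ball z r).isPreconnected hz h0 hy₁) hm1
    · filter_upwards [h0] with y hy
      have h1 := Matrix.linearIndependent_rows_of_det_ne_zero hy
      have h2 : LinearIndependent ℂ (fun i => L (e i y)) := h1
      exact LinearIndependent.of_comp L.toLinearMap h2
  · left
    push Not at h
    filter_upwards [Metric.ball_mem_nhds z hr] with y hy
    exact h y hy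

/-- clopen argument -/
theorem eventually_global {p : ℂ → Prop}
    (h : ∀ z, (∀ᶠ y in 𝓝 z, ¬ p y) ∨ (∀ᶠ y in 𝓝[≠] z, p y)) :
    (∀ z, ∀ᶠ y in 𝓝 z, ¬ p y) ∨ (∀ z, ∀ᶠ y in 𝓝[≠] z, p y) := by
  have hclopen : IsClopen {z : ℂ | ∀ᶠ y in 𝓝 z, ¬ p y} := by
    refine ⟨?_, ?_⟩
    · rw [← isOpen_compl_iff, isOpen_iff_mem_nhds]
      intro z hz
      have hz' : ∀ᶠ y in 𝓝[≠] z, p y := (h z).resolve_left hz
      rw [eventually_nhdsWithin_iff] at hz'
      filter_upwards [eventually_eventually_nhds.2 hz'] with y hy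
      intro hy2
      by_cases hyz : y = z
      · rw [hyz] at hy2; exact hz hy2
      · have h3 : ∀ᶠ w in 𝓝 y, w ∈ ({z}ᶜ : Set ℂ) := isOpen_compl_singleton.mem_nhds hyz
        have h4 : ∀ᶠ w in 𝓝 y, False := by
          filter_upwards [hy, h3, hy2] with w a b c
          exact c (a b)
        exact h4.exists.elim fun _ h => h
    · rw [isOpen_iff_mem_nhds]
      intro z hz
      exact eventually_eventually_nhds.2 hz
  rcases isClopen_iff.1 hclopen with h0 | h0
  · right
    intro z
    refine (h z).resolve_left fun hz => ?_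
    have : z ∈ {z : ℂ | ∀ᶠ y in 𝓝 z, ¬ p y} := hz
    rw [h0] at this
    exact this
  · left
    intro z
    have : z ∈ {z : ℂ | ∀ᶠ y in 𝓝 z, ¬ p y} := by rw [h0]; trivial
    exact this

end pure

variable (n : ℕ) (X : Type) [TopologicalSpace X] [ChartedSpace (Model n) X]
  [IsManifold (mI n) ω X]

variable {n X} in
theorem dep_or_indep_sec {g : ℂ → X} {k : ℕ} {t : Fin k → ℂ → Model n} {z : ℂ}
    (hg : ContMDiffAt 𝓘(ℂ, ℂ) (mI n) ω g z) (ht : ∀ i, HolAt n g (t i) z) :
    (∀ᶠ y in 𝓝 z, ¬ LinearIndependent ℂ (fun i => t i y)) ∨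
      (∀ᶠ y in 𝓝[≠] z, LinearIndependent ℂ (fun i => t i y)) := by
  have hsrc := curve_source hg
  rcases dep_or_indep (fun i => (ht i).coord) with h | h
  · left
    filter_upwards [h, hsrc] with y hy hs
    rwa [tcc_linInd hs] at hy
  · right
    filter_upwards [h, hsrc.filter_mono nhdsWithin_le_nhds] with y hy hs
    rwa [tcc_linInd hs] at hy

theorem _root_.Crest.Agent.R266.St4.dens_holds [T2Space X] : St_dens n X := by
  intro g k t hg ht hex
  -- near each point
  have hloc : ∀ b z, (∀ᶠ y in 𝓝 z, ¬ LinearIndependent ℂ (fun i => t i b y)) ∨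
      (∀ᶠ y in 𝓝[≠] z, LinearIndependent ℂ (fun i => t i b y)) :=
    fun b z => dep_or_indep_sec (hg.hol b).contMDiffAt (fun i => (ht i).hol b z)
  have hglob := fun b => eventually_global (hloc b)
  -- transfer of dependence to the other chart
  have htrans : ∀ b, (∀ z, ∀ᶠ y in 𝓝 z, ¬ LinearIndependent ℂ (fun i => t i b y)) →
      ∀ z, ∀ᶠ y in 𝓝 z, ¬ LinearIndependent ℂ (fun i => t i (!b) y) := by
    intro b hb
    refine (hglob (!b)).resolve_right fun h => ?_
    have h1 := h 1
    rw [eventually_nhdsWithin_iff] at h1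
    have h2 : ∀ᶠ y : ℂ in 𝓝 1, y ≠ 0 := isOpen_ne.mem_nhds one_ne_zero
    have h3 : ∃ᶠ y : ℂ in 𝓝[≠] 1, True := by simp [Filter.frequently_true_iff_neBot]; infer_instance
    have h4 : ∀ᶠ y : ℂ in 𝓝[≠] 1, False := by
      rw [eventually_nhdsWithin_iff]
      filter_upwards [h1, h2] with y hy hy0 hy1
      have h5 := hy hy1
      have h6 : (fun i => t i (!b) y) = fun i => t i b y⁻¹ :=
        funext fun i => (ht i).glue b y hy0
      rw [h6] at h5
      exact (hb y⁻¹).self_of_nhds h5
    exact (h3.and_eventually h4).exists.elim fun _ h => h.2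
  have hgood : ∀ b, ∀ z, ∀ᶠ y in 𝓝[≠] z, LinearIndependent ℂ (fun i => t i b y) := by
    intro b
    refine (hglob b).resolve_left fun hb => ?_
    have hb' := htrans b hb
    obtain ⟨b₁, z₁, h₁⟩ := hex
    have : ∀ z, ∀ᶠ y in 𝓝 z, ¬ LinearIndependent ℂ (fun i => t i b₁ y) := by
      cases b <;> cases b₁
      · exact hb
      · exact hb'
      · exact hb'
      · exact hb
    exact (this z₁).self_of_nhds h₁
  intro b z
  rw [mem_closure_iff_nhds]
  intro U hU
  have h1 := (hgood b z).and (mem_nhdsWithin_of_mem_nhds hU : U ∈ 𝓝[≠] z)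
  obtain ⟨y, hy1, hy2⟩ := h1.exists
  exact ⟨y, hy2, hy1⟩

end Crest.Agent.R266.St4.DS
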