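import Mathlib
import Crest.Prelude.Def_TangentSplitting
import Crest.Agent.R266.Chart2
import Crest.Agent.R266.StepThreeDefs
import Crest.Agent.R266.A.St4Defs

/-!
R266 / A / Iface404 (helper744): the top-level nodes of S0404 as Props; `Main404.lean` derives
`S.FirstIntegrable ∧ S.SecondIntegrable` from them.  No sorry; safe to import.
-/

set_option autoImplicit false

open scoped Manifold ContDiff Topology
open Set Metric Filter
open Crest.AlgGeometry.HolSplit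
open Crest.Agent.R266.St4

namespace Crest.Agent.R266.F404

/-- the two-point map of a family of rational curves -/
def twoPt {X : Type} {E : Type} (f : E → Bool → ℂ → X) (b b' : Bool) (p : E × ℂ × ℂ) : X × X :=
  (f p.1 b p.2.1, f p.1 b' p.2.2)

section nodes

variable (n : ℕ) (X : Type) [TopologicalSpace X] [T2Space X] [SecondCountableTopology X]
  [CompactSpace X] [ConnectedSpace X] [ChartedSpace (Model n) X] [IsManifold (mI n) ω X]

/-- STEP 1 (helper943): a two-point submersive family of rational curves -/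
def St_one : Prop := IsProjective n X → IsRationallyConnected n X →
  ∃ (m : ℕ) (f : (Fin m → ℂ) → Bool → ℂ → X), IsFam n (ball (0 : Fin m → ℂ) 1) f ∧
    ∀ b b', ∀ V : Set ((Fin m → ℂ) × ℂ × ℂ), IsOpen V → V.Nonempty →
      V ⊆ (ball (0 : Fin m → ℂ) 1) ×ˢ (univ ×ˢ univ) → ∃ p ∈ V, Function.Surjective
        (mfderiv 𝓘(ℂ, (Fin m → ℂ) × ℂ × ℂ) ((mI n).prod (mI n)) (twoPt f b b') p)

/-- STEP 2 (helper963 local, helper256 gluing): the doubling near the diagonal -/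
def St_two : Prop := ∀ (S : Splitting n X) (E : Type) [NormedAddCommGroup E] [NormedSpace ℂ E]
  [FiniteDimensional ℂ E] (W : Set E) (f : E → Bool → ℂ → X) (s₀ : E), IsOpen W → s₀ ∈ W →
  IsFam n W f → ∃ r > 0, ∃ δ > 0, ∃ F : Bool → E × ℂ × ℂ → X,
    ball s₀ r ⊆ W ∧ Dbl S f s₀ r δ F

/-- STEP 3 (helper338): families of rational curves tangent to `E₁` resp. `E₂` -/
def St_three : Prop := ∀ (S : Splitting n X), IsProjective n X →
  ∀ (E : Type) [NormedAddCommGroup E] [NormedSpace ℂ E] [FiniteDimensional ℂ E]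
  (f : E → Bool → ℂ → X) (s₀ : E) (r δ : ℝ) (F : Bool → E × ℂ × ℂ → X), 0 < r → 0 < δ →
  IsFam n (ball s₀ r) f → Dbl S f s₀ r δ F →
  ∀ V : Set (E × ℂ), IsOpen V → V.Nonempty → V ⊆ ball s₀ r ×ˢ ball (0 : ℂ) 1 →
  (∀ O : Set (E × ℂ), IsOpen O → O.Nonempty → O ⊆ V → ∃ p ∈ O, Function.Surjective
    (mfderiv 𝓘(ℂ, E × ℂ) (mI n) (fun p : E × ℂ => f p.1 false p.2) p)) →
  (∃ (W : Set (E × ℂ)) (g : E × ℂ → Bool → ℂ → X), W.Nonempty ∧ W ⊆ V ∧ Fam n W g ∧
    (∀ w ∈ W, ∀ b z, (vel n (g w b) z : TangentSpace (mI n) (g w b z)) ∈ E₁ S (g w b z)) ∧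
    (∀ w ∈ W, g w false w.2 = f w.1 false w.2) ∧
    (∀ w ∈ W, vel n (g w false) w.2 = pr S (f w.1 false w.2) (vel n (f w.1 false) w.2))) ∧
  (∃ (W : Set (E × ℂ)) (g : E × ℂ → Bool → ℂ → X), W.Nonempty ∧ W ⊆ V ∧ Fam n W g ∧
    (∀ w ∈ W, ∀ b z, (vel n (g w b) z : TangentSpace (mI n) (g w b z)) ∈ E₂ S (g w b z)) ∧
    (∀ w ∈ W, g w false w.2 = f w.1 false w.2) ∧
    (∀ w ∈ W, vel n (g w false) w.2 =
      vel n (f w.1 false) w.2 - pr S (f w.1 false w.2) (vel n (f w.1 false) w.2)))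

/-- END GAME (helper725): an involutive subbundle containing the velocities of a two-point
submersive family is everything on some nonempty open set -/
def St_end : Prop := ∀ (D : Dist n X) (U : Set X), IsSub D U → BrSub D D U →
  ∀ (E : Type) [NormedAddCommGroup E] [NormedSpace ℂ E] [FiniteDimensional ℂ E]
  (M : Set E) (f : E → Bool → ℂ → X), IsOpen M → IsFam n M f →
  (∀ V : Set (E × ℂ × ℂ), IsOpen V → V.Nonempty → V ⊆ M ×ˢ (univ ×ˢ univ) →
    ∃ p ∈ V, Function.Surjective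
      (mfderiv 𝓘(ℂ, E × ℂ × ℂ) ((mI n).prod (mI n)) (twoPt f false false) p)) →
  ∀ O : Set (E × ℂ), IsOpen O → O.Nonempty → O ⊆ M ×ˢ univ →
  (∀ p ∈ O, f p.1 false p.2 ∈ U ∧
    (vel n (f p.1 false) p.2 : TangentSpace (mI n) (f p.1 false p.2)) ∈ D (f p.1 false p.2)) →
  ∃ U' : Set X, IsOpen U' ∧ U'.Nonempty ∧ U' ⊆ U ∧ ∀ x ∈ U', D x = ⊤

/-- IDENTITY THEOREM (helper35) -/
def St_ident : Prop := ∀ (S : Splitting n X) (U : Set X), IsOpen U → U.Nonempty →
  ((∀ x ∈ U, IntAt1 S x) → S.FirstIntegrable) ∧ ((∀ x ∈ U, IntAt2 S x) → S.SecondIntegrable)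

end nodes

end Crest.Agent.R266.F404
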