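import Mathlib
import Crest.Agent.R266.EndGame
import Crest.Agent.R266.Chart2
import Crest.Agent.R266.A.St4Defs
import Crest.Agent.R266.A.Iface404

/-!
# Row 266, S0404, last step (endGame): manifold part (helper725)
-/

set_option autoImplicit false
open scoped Topology ContDiff Manifold
open Set Filter
open Crest.AlgGeometry.HolSplit

namespace Crest.Agent.R266.EndGame

open VectorField St4

variable {n : ℕ} {X : Type} [TopologicalSpace X] [ChartedSpace (Model n) X]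
  [IsManifold (mI n) ω X]

variable {E : Type} [NormedAddCommGroup E] [NormedSpace ℂ E]

/-- derivative of a map read in the chart at `x₀`. -/
theorem fderiv_chart_comp {f : E → X} {p : E} {x₀ : X} (hf : MDifferentiableAt 𝓘(ℂ, E) (mI n) f p)
    (hp : f p ∈ (chartAt (Model n) x₀).source) (v : E) :
    fderiv ℂ (fun q => chartAt (Model n) x₀ (f q)) p v =
      tcc (f p) x₀ (f p) (mfderiv 𝓘(ℂ, E) (mI n) f p v) := by
  have h1 : MDifferentiableAt (mI n) 𝓘(ℂ, Model n) (extChartAt (mI n) x₀) (f p) :=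
    mdifferentiableAt_extChartAt hp
  have h2 := mfderiv_comp p h1 hf
  have h3 := mfderiv_extChart (n := n) hp
  have h4 : mfderiv 𝓘(ℂ, E) 𝓘(ℂ, Model n) (extChartAt (mI n) x₀ ∘ f) p =
    fderiv ℂ (fun q => chartAt (Model n) x₀ (f q)) p := by
    rw [mfderiv_eq_fderiv]
    rfl
  rw [h4] at h2
  have h5 := congrArg (fun L : E →L[ℂ] Model n => L v) h2
  refine h5.trans ?_
  exact congrArg (fun L : Model n →L[ℂ] Model n => L (mfderiv 𝓘(ℂ, E) (mI n) f p v)) h3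

theorem pure_span {M ι : Type*} [NormedAddCommGroup M] [NormedSpace ℂ M] {L L' : M →L[ℂ] M}
    (h1 : ∀ v, L' (L v) = v) (h2 : ∀ v, L (L' v) = v) (w : ι → M) (D : Submodule ℂ M)
    (hD : Submodule.span ℂ (range w) = D) (v : M) :
    v ∈ Submodule.span ℂ (range fun i => L (w i)) ↔ L' v ∈ D := by
  have h3 : Submodule.span ℂ (range fun i => L (w i)) = D.map L.toLinearMap := by
    rw [← hD, Submodule.map_span]
    congr 1
    ext w
    constructor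
    · rintro ⟨i, rfl⟩
      exact ⟨_, ⟨i, rfl⟩, rfl⟩
    · rintro ⟨_, ⟨i, rfl⟩, rfl⟩
      exact ⟨i, rfl⟩
  rw [h3]
  constructor
  · rintro ⟨w, hw, rfl⟩
    have : L' (L.toLinearMap w) = w := h1 w
    rw [this]
    exact hw
  · intro h
    exact ⟨_, h, h2 v⟩

theorem pure_li {M ι : Type*} [NormedAddCommGroup M] [NormedSpace ℂ M] {L L' : M →L[ℂ] M}
    (h1 : ∀ v, L' (L v) = v) (w : ι → M) (hw : LinearIndependent ℂ w) :
    LinearIndependent ℂ (fun i => L (w i)) := by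
  refine hw.map' L.toLinearMap ?_
  rw [LinearMap.ker_eq_bot']
  intro m hm
  rw [← h1 m]
  have h3 : L m = 0 := hm
  rw [h3, map_zero]

/-- the vectors of a frame in a chart -/
theorem mem_span_Vc {D : Dist n X} {O : Set X} {k : ℕ} {W : Fin k → (x : X) → TangentSpace (mI n) x}
    (hW : FrameOn D O k W) {x₀ : X} {y : Model n} (hy : y ∈ (chartAt (Model n) x₀).target)
    (hyO : (chartAt (Model n) x₀).symm y ∈ O) (v : Model n) :
    v ∈ Submodule.span ℂ (range fun i => Vc x₀ (W i) y) ↔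
      (tcc x₀ ((chartAt (Model n) x₀).symm y) ((chartAt (Model n) x₀).symm y) v :
        TangentSpace (mI n) ((chartAt (Model n) x₀).symm y)) ∈ D ((chartAt (Model n) x₀).symm y) :=
  pure_span (L := tcc ((chartAt (Model n) x₀).symm y) x₀ ((chartAt (Model n) x₀).symm y))
    (tcc_cancel' (symm_mem hy)) (tcc_cancel (symm_mem hy)) (fun i => W i _)
    (D ((chartAt (Model n) x₀).symm y)) (hW.span _ hyO) v

theorem linearIndependent_Vc {D : Dist n X} {O : Set X} {k : ℕ}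
    {W : Fin k → (x : X) → TangentSpace (mI n) x}
    (hW : FrameOn D O k W) {x₀ : X} {y : Model n} (hy : y ∈ (chartAt (Model n) x₀).target)
    (hyO : (chartAt (Model n) x₀).symm y ∈ O) :
    LinearIndependent ℂ (fun i => Vc x₀ (W i) y) :=
  pure_li (L := tcc ((chartAt (Model n) x₀).symm y) x₀ ((chartAt (Model n) x₀).symm y))
    (tcc_cancel' (symm_mem hy)) (fun i => W i _) (hW.indep _ hyO)

/-- an involutive subbundle is locally, in a chart, the kernel of an analytic projection with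
involutive kernel. -/
theorem exists_local_proj {D : Dist n X} {U : Set X} (hD : IsSub D U) (hbr : BrSub D D U)
    {x₀ : X} (hx₀ : x₀ ∈ U) :
    ∃ (V : Set (Model n)) (Q : Model n → Model n →L[ℂ] Model n), IsOpen V ∧
      V ⊆ (chartAt (Model n) x₀).target ∧ chartAt (Model n) x₀ x₀ ∈ V ∧
      (∀ y ∈ V, (chartAt (Model n) x₀).symm y ∈ U) ∧
      AnalyticOnNhd ℂ Q V ∧ (∀ y ∈ V, ∀ v, Q y (Q y v) = Q y v) ∧
      (∀ y ∈ V, ∀ v : Model n, Q y v = 0 ↔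
        (tcc x₀ ((chartAt (Model n) x₀).symm y) ((chartAt (Model n) x₀).symm y) v :
          TangentSpace (mI n) ((chartAt (Model n) x₀).symm y)) ∈
            D ((chartAt (Model n) x₀).symm y)) ∧
      (∀ y ∈ V, ∀ u v, Q y u = 0 → Q y v = 0 → fderiv ℂ Q y u v = fderiv ℂ Q y v u) ∧
      (∀ x ∈ V, Q x = 0 → ∀ y ∈ V, Q y = 0) := by
  obtain ⟨O, k, W, hxO, hOU, hW⟩ := hD.2 x₀ hx₀
  have hU1 : IsOpen ((chartAt (Model n) x₀).target ∩ (chartAt (Model n) x₀).symm ⁻¹' O) :=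
    (chartAt (Model n) x₀).isOpen_inter_preimage_symm hW.isOpen
  set U1 := (chartAt (Model n) x₀).target ∩ (chartAt (Model n) x₀).symm ⁻¹' O with hU1def
  have hc0 : chartAt (Model n) x₀ x₀ ∈ U1 := by
    refine ⟨(chartAt (Model n) x₀).map_source (mem_chart_source _ x₀), ?_⟩
    rw [mem_preimage, (chartAt (Model n) x₀).left_inv (mem_chart_source _ x₀)]
    exact hxO
  have he : ∀ i, AnalyticOnNhd ℂ (Vc x₀ (W i)) U1 := by
    intro i
    have h1 : ContDiffOn ℂ ω (Vc x₀ (W i)) U1 := Vc_contDiffOn hW.isOpen (hW.hol i)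
    intro y hy
    exact (h1.contDiffAt (hU1.mem_nhds hy)).analyticAt
  have hli : LinearIndependent ℂ (fun i => Vc x₀ (W i) (chartAt (Model n) x₀ x₀)) :=
    linearIndependent_Vc hW hc0.1 hc0.2
  have hbr' : ∀ i j, ∀ y ∈ U1, lieBracket ℂ (Vc x₀ (W i)) (Vc x₀ (W j)) y ∈
      Submodule.span ℂ (range fun i => Vc x₀ (W i) y) := by
    intro i j y hy
    rw [mem_span_Vc hW hy.1 hy.2]
    have h1 := mlieBracket_chart (n := n) hy.1 (holField_mdiff hW.isOpen (hW.hol i) hy.2)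
      (holField_mdiff hW.isOpen (hW.hol j) hy.2)
    have h2 : tcc x₀ ((chartAt (Model n) x₀).symm y) ((chartAt (Model n) x₀).symm y)
        (lieBracket ℂ (Vc x₀ (W i)) (Vc x₀ (W j)) y) =
        mlieBracket (mI n) (W i) (W j) ((chartAt (Model n) x₀).symm y) := by
      rw [← h1]
      exact tcc_cancel' (symm_mem hy.1) _
    have hmem : ∀ i, ∀ x ∈ O, W i x ∈ D x := by
      intro i x hx
      rw [← hW.span x hx]
      exact Submodule.subset_span ⟨i, rfl⟩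
    have h3 := hbr O hW.isOpen hOU (W i) (W j) (hW.hol i) (hW.hol j) (hmem i) (hmem j) _ hy.2
    exact (congrArg (fun w : Model n => w ∈ (D ((chartAt (Model n) x₀).symm y) :
      Submodule ℂ (Model n))) h2).mpr h3
  obtain ⟨V, hVU, hVo, hV0, Q, hQ, hid, hker, hinv, hz⟩ :=
    exists_proj_of_frame hU1 hc0 he hli hbr'
  refine ⟨V, Q, hVo, fun y hy => (hVU hy).1, hV0, fun y hy => hOU (hVU hy).2, hQ, hid, ?_,
    hinv, hz⟩
  intro y hy v
  rw [hker y hy v, mem_span_Vc hW (hVU hy).1 (hVU hy).2]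

omit [IsManifold (mI n) ω X] in
/-- derivative of the two-point map -/
theorem mfderiv_twoPoint {f : E × ℂ → X} {s : E} {z₁ z₂ : ℂ}
    (h1 : MDifferentiableAt 𝓘(ℂ, E × ℂ) (mI n) f (s, z₁))
    (h2 : MDifferentiableAt 𝓘(ℂ, E × ℂ) (mI n) f (s, z₂)) (ξ : E) (a₁ a₂ : ℂ) :
    mfderiv 𝓘(ℂ, E × ℂ × ℂ) ((mI n).prod (mI n))
      (fun p : E × ℂ × ℂ => (f (p.1, p.2.1), f (p.1, p.2.2))) (s, z₁, z₂)
        ((ξ, a₁, a₂) : E × ℂ × ℂ) =
      ((mfderiv 𝓘(ℂ, E × ℂ) (mI n) f (s, z₁) ((ξ, a₁) : E × ℂ) : Model n),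
        (mfderiv 𝓘(ℂ, E × ℂ) (mI n) f (s, z₂) ((ξ, a₂) : E × ℂ) : Model n)) := by
  let L1 : E × ℂ × ℂ →L[ℂ] E × ℂ := (ContinuousLinearMap.fst ℂ E (ℂ × ℂ)).prod
    ((ContinuousLinearMap.fst ℂ ℂ ℂ).comp (ContinuousLinearMap.snd ℂ E (ℂ × ℂ)))
  let L2 : E × ℂ × ℂ →L[ℂ] E × ℂ := (ContinuousLinearMap.fst ℂ E (ℂ × ℂ)).prod
    ((ContinuousLinearMap.snd ℂ ℂ ℂ).comp (ContinuousLinearMap.snd ℂ E (ℂ × ℂ)))
  have e1 : HasMFDerivAt 𝓘(ℂ, E × ℂ × ℂ) 𝓘(ℂ, E × ℂ) (fun p : E × ℂ × ℂ => (p.1, p.2.1))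
      (s, z₁, z₂) L1 := L1.hasFDerivAt.hasMFDerivAt
  have e2 : HasMFDerivAt 𝓘(ℂ, E × ℂ × ℂ) 𝓘(ℂ, E × ℂ) (fun p : E × ℂ × ℂ => (p.1, p.2.2))
      (s, z₁, z₂) L2 := L2.hasFDerivAt.hasMFDerivAt
  have g1 : HasMFDerivAt 𝓘(ℂ, E × ℂ) (mI n) f (s, z₁) (mfderiv 𝓘(ℂ, E × ℂ) (mI n) f (s, z₁)) :=
    h1.hasMFDerivAt
  have g2 : HasMFDerivAt 𝓘(ℂ, E × ℂ) (mI n) f (s, z₂) (mfderiv 𝓘(ℂ, E × ℂ) (mI n) f (s, z₂)) :=
    h2.hasMFDerivAt
  have k1 := HasMFDerivAt.comp (s, z₁, z₂) g1 e1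
  have k2 := HasMFDerivAt.comp (s, z₁, z₂) g2 e2
  have k := k1.prodMk k2
  have := k.mfderiv
  exact congrArg (fun T : E × ℂ × ℂ →L[ℂ] Model n × Model n => T (ξ, a₁, a₂)) this

/-- (M1) an involutive subbundle which contains the velocities of a family of curves whose two-point
map is densely submersive is the whole tangent bundle on a nonempty open set. -/
theorem endGame_dist {D : Dist n X} {U : Set X} (hD : IsSub D U) (hbr : BrSub D D U)
    {O : Set (E × ℂ)} (hO : IsOpen O) (hOne : O.Nonempty) {f : E × ℂ → X}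
    (hf : ContMDiffOn 𝓘(ℂ, E × ℂ) (mI n) ω f O) (hfU : ∀ p ∈ O, f p ∈ U)
    (hvel : ∀ p ∈ O, (mfderiv 𝓘(ℂ, E × ℂ) (mI n) f p ((0, 1) : E × ℂ)) ∈ D (f p))
    (h2 : ∀ V : Set (E × ℂ × ℂ), IsOpen V → V.Nonempty →
      (∀ p ∈ V, (p.1, p.2.1) ∈ O ∧ (p.1, p.2.2) ∈ O) →
      ∃ p ∈ V, Function.Surjective (mfderiv 𝓘(ℂ, E × ℂ × ℂ) ((mI n).prod (mI n))
        (fun p : E × ℂ × ℂ => (f (p.1, p.2.1), f (p.1, p.2.2))) p)) :
    ∃ U' : Set X, U' ⊆ U ∧ IsOpen U' ∧ U'.Nonempty ∧ ∀ x ∈ U', D x = ⊤ := by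
  obtain ⟨p₀, hp₀⟩ := hOne
  set x₀ := f p₀ with hx₀
  obtain ⟨V, Q, hVo, hVt, hV0, hVU, hQ, hid, hker, hinv, hz⟩ := exists_local_proj hD hbr (hfU p₀ hp₀)
  -- the open set where the family is in the chart
  have hcV : IsOpen ((chartAt (Model n) x₀).source ∩ (chartAt (Model n) x₀) ⁻¹' V) :=
    (chartAt (Model n) x₀).isOpen_inter_preimage hVo
  have hO2 : IsOpen (O ∩ f ⁻¹' ((chartAt (Model n) x₀).source ∩ (chartAt (Model n) x₀) ⁻¹' V)) :=
    hf.continuousOn.isOpen_inter_preimage hO hcV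
  set O2 := O ∩ f ⁻¹' ((chartAt (Model n) x₀).source ∩ (chartAt (Model n) x₀) ⁻¹' V) with hO2def
  have hp2 : p₀ ∈ O2 := ⟨hp₀, mem_chart_source _ x₀, hV0⟩
  have hfd : ∀ p ∈ O, MDifferentiableAt 𝓘(ℂ, E × ℂ) (mI n) f p := fun p hp =>
    (hf.contMDiffAt (hO.mem_nhds hp)).mdifferentiableAt (by simp)
  set F : E × ℂ → Model n := fun q => chartAt (Model n) x₀ (f q) with hF
  have hFan : AnalyticOnNhd ℂ F O2 := by
    intro p hp
    have h3 : ContMDiffAt (mI n) 𝓘(ℂ, Model n) ω (chartAt (Model n) x₀) (f p) :=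
      (contMDiffOn_chart (I := mI n) (n := ω) (x := x₀)).contMDiffAt
        ((chartAt (Model n) x₀).open_source.mem_nhds hp.2.1)
    have h4 : ContMDiffAt 𝓘(ℂ, E × ℂ) 𝓘(ℂ, Model n) ω F p :=
      ContMDiffAt.comp p h3 (hf.contMDiffAt (hO.mem_nhds hp.1))
    exact (contMDiffAt_iff_contDiffAt.mp h4).analyticAt
  have hFV : MapsTo F O2 V := fun p hp => hp.2.2
  have hFder : ∀ p ∈ O2, ∀ v : E × ℂ, fderiv ℂ F p v =
      tcc (f p) x₀ (f p) (mfderiv 𝓘(ℂ, E × ℂ) (mI n) f p v) := fun p hp v =>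
    fderiv_chart_comp (hfd p hp.1) hp.2.1 v
  have hsymmF : ∀ p ∈ O2, (chartAt (Model n) x₀).symm (F p) = f p := fun p hp =>
    (chartAt (Model n) x₀).left_inv hp.2.1
  have hker' : ∀ x ∈ (chartAt (Model n) x₀).source, chartAt (Model n) x₀ x ∈ V → ∀ v : Model n,
      (Q (chartAt (Model n) x₀ x) v = 0 ↔ (tcc x₀ x x v : TangentSpace (mI n) x) ∈ D x) := by
    intro x hx hxV v
    have h3 := hker _ hxV v
    rwa [(chartAt (Model n) x₀).left_inv hx] at h3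
  have hhor : ∀ p ∈ O2, Q (F p) (fderiv ℂ F p (0, 1)) = 0 := by
    intro p hp
    rw [hFder p hp]
    refine (hker' (f p) hp.2.1 hp.2.2 _).mpr ?_
    have h3 := hvel p hp.1
    have h4 : tcc x₀ (f p) (f p) (tcc (f p) x₀ (f p)
        (mfderiv 𝓘(ℂ, E × ℂ) (mI n) f p ((0, 1) : E × ℂ))) =
        (mfderiv 𝓘(ℂ, E × ℂ) (mI n) f p ((0, 1) : E × ℂ)) := tcc_cancel' hp.2.1 _
    exact (congrArg (fun w : Model n => w ∈ (D (f p) : Submodule ℂ (Model n))) h4).mpr h3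
  -- a product neighbourhood
  obtain ⟨ε, hε, hball⟩ := Metric.isOpen_iff.mp hO2 p₀ hp2
  have hprod : ∀ s ∈ Metric.ball p₀.1 ε, ∀ z ∈ Metric.ball p₀.2 ε, (s, z) ∈ O2 := by
    intro s hs z hz'
    refine hball ?_
    rw [← ball_prod_same]
    exact ⟨hs, hz'⟩
  obtain ⟨p, hpV, hsurj⟩ := h2 (Metric.ball p₀.1 ε ×ˢ (Metric.ball p₀.2 ε ×ˢ Metric.ball p₀.2 ε))
    (Metric.isOpen_ball.prod (Metric.isOpen_ball.prod Metric.isOpen_ball))
    ⟨(p₀.1, p₀.2, p₀.2), ⟨Metric.mem_ball_self hε, Metric.mem_ball_self hε,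
      Metric.mem_ball_self hε⟩⟩
    (fun p hp => ⟨(hprod _ hp.1 _ hp.2.1).1, (hprod _ hp.1 _ hp.2.2).1⟩)
  obtain ⟨s, z₁, z₂⟩ := p
  obtain ⟨hs, hz₁, hz₂⟩ := hpV
  simp only at hs hz₁ hz₂
  have hm1 := hprod s hs z₁ hz₁
  have hm2 := hprod s hs z₂ hz₂
  have hQ0 : Q (F (s, z₁)) = 0 := by
    refine proj_eq_zero hQ hid hinv hO2 hFan hFV hhor (s := s) (B := Metric.ball p₀.2 ε)
      Metric.isOpen_ball (convex_ball _ _).isPreconnected (fun z hz' => hprod s hs z hz')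
      hz₁ hz₂ ?_
    intro w
    obtain ⟨q, hq⟩ := hsurj ((tcc x₀ (f (s, z₁)) (f (s, z₁)) w : Model n), (0 : Model n))
    obtain ⟨ξ, a, a'⟩ := q
    have h5 := mfderiv_twoPoint (hfd _ hm1.1) (hfd _ hm2.1) ξ a a'
    have h6 := h5.symm.trans hq
    have h7 : mfderiv 𝓘(ℂ, E × ℂ) (mI n) f (s, z₁) ((ξ, a) : E × ℂ) =
      tcc x₀ (f (s, z₁)) (f (s, z₁)) w := congrArg Prod.fst h6
    have h8 : mfderiv 𝓘(ℂ, E × ℂ) (mI n) f (s, z₂) ((ξ, a') : E × ℂ) =
      (0 : Model n) := congrArg Prod.snd h6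
    refine ⟨ξ, a, a', ?_, ?_⟩
    · rw [hFder _ hm1]
      exact (congrArg (fun v : Model n => tcc (f (s, z₁)) x₀ (f (s, z₁)) v) h7).trans
        (tcc_cancel hm1.2.1 w)
    · rw [hFder _ hm2]
      exact (congrArg (fun v : Model n => tcc (f (s, z₂)) x₀ (f (s, z₂)) v) h8).trans
        (map_zero _)
  have hQV : ∀ y ∈ V, Q y = 0 := hz _ (hFV hm1) hQ0
  refine ⟨(chartAt (Model n) x₀).source ∩ (chartAt (Model n) x₀) ⁻¹' V, ?_, hcV,
    ⟨x₀, mem_chart_source _ x₀, hV0⟩, ?_⟩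
  · intro x hx
    have h3 := hVU _ hx.2
    rwa [(chartAt (Model n) x₀).left_inv hx.1] at h3
  · intro x hx
    rw [eq_top_iff]
    intro v _
    have h3 := (hker' x hx.1 hx.2 (tcc x x₀ x v)).mp (by rw [hQV _ hx.2]; rfl)
    have h4 : tcc x₀ x x (tcc x x₀ x v) = v := tcc_cancel' hx.1 _
    exact (congrArg (fun w : Model n => w ∈ (D x : Submodule ℂ (Model n))) h4).mp h3

omit [IsManifold (mI n) ω X] in
/-- the velocity of a member of a family is the partial derivative of the family -/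
theorem vel_family {f : E → Bool → ℂ → X} {b : Bool} {p : E × ℂ}
    (hf : MDifferentiableAt 𝓘(ℂ, E × ℂ) (mI n) (fun q : E × ℂ => f q.1 b q.2) p) :
    (vel n (f p.1 b) p.2 : Model n) =
      mfderiv 𝓘(ℂ, E × ℂ) (mI n) (fun q : E × ℂ => f q.1 b q.2) p ((0, 1) : E × ℂ) := by
  obtain ⟨s, z⟩ := p
  have e1 : HasMFDerivAt 𝓘(ℂ, ℂ) 𝓘(ℂ, E × ℂ) (fun t : ℂ => ((s, t) : E × ℂ)) z
      (ContinuousLinearMap.inr ℂ E ℂ) := by
    have : HasFDerivAt (fun t : ℂ => ((s, t) : E × ℂ)) (ContinuousLinearMap.inr ℂ E ℂ) z := by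
      have h1 := (hasFDerivAt_const s z : HasFDerivAt (fun _ : ℂ => s) (0 : ℂ →L[ℂ] E) z).prodMk
        (hasFDerivAt_id z)
      exact h1
    exact this.hasMFDerivAt
  have k1 := HasMFDerivAt.comp z hf.hasMFDerivAt e1
  have h2 := k1.mfderiv
  have h3 := congrArg (fun T : ℂ →L[ℂ] Model n => T (1 : ℂ)) h2
  exact h3

end Crest.Agent.R266.EndGame

namespace Crest.Agent.R266.F404

open St4

/-- END GAME -/
theorem end_holds (n : ℕ) (X : Type) [TopologicalSpace X] [T2Space X] [SecondCountableTopology X]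
    [CompactSpace X] [ConnectedSpace X] [ChartedSpace (Model n) X] [IsManifold (mI n) ω X] :
    St_end n X := by
  intro D U hD hbr E _ _ _ M f hM hf h2 O hO hOne hOM hOU
  have hmem : ∀ p ∈ O, p ∈ M ×ˢ (univ : Set ℂ) := fun p hp => hOM hp
  have hfO : ContMDiffOn 𝓘(ℂ, E × ℂ) (mI n) ω (fun q : E × ℂ => f q.1 false q.2) O :=
    (hf.hol false).mono hOM
  obtain ⟨U', hU'U, hU'o, hU'n, hU't⟩ := EndGame.endGame_dist (f := fun q : E × ℂ => f q.1 false q.2)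
    hD hbr hO hOne hfO (fun p hp => (hOU p hp).1) (fun p hp => by
      have h1 : (vel n (f p.1 false) p.2 : Model n) = _ := EndGame.vel_family
        ((hfO.contMDiffAt (hO.mem_nhds hp)).mdifferentiableAt (by simp))
      exact (congrArg (fun w : Model n => w ∈ (D (f p.1 false p.2) : Submodule ℂ (Model n)))
        h1).mp (hOU p hp).2)
    (fun V hV hVne hVO => by
      obtain ⟨p, hp, hs⟩ := h2 V hV hVne (fun p hp => ⟨(hmem _ (hVO p hp).1).1, trivial, trivial⟩)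
      exact ⟨p, hp, hs⟩)
  exact ⟨U', hU'o, hU'n, hU'U, hU't⟩

end Crest.Agent.R266.F404
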