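import Mathlib
import Crest.Prelude.Def_TangentSplitting
import Crest.Agent.R266.Chart
import Crest.Agent.R266.A.St4Defs
import Crest.Agent.R266.L3a

/-!
R266 / A / SecCalc (helper609): calculus of sections of `g^* T_X` along curves, in charts.
-/

set_option autoImplicit false

open scoped Manifold ContDiff Topology
open Set Filter
open Crest.AlgGeometry.HolSplit

namespace Crest.Agent.R266.St4

variable {n : ℕ} {X : Type} [TopologicalSpace X] [ChartedSpace (Model n) X]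
  [IsManifold (mI n) ω X]

theorem contDiffAt_omega_iff {E F : Type*} [NormedAddCommGroup E] [NormedSpace ℂ E]
    [NormedAddCommGroup F] [NormedSpace ℂ F] [CompleteSpace F] {f : E → F} {z : E} :
    ContDiffAt ℂ ω f z ↔ AnalyticAt ℂ f z := by
  rw [← contDiffWithinAt_univ, contDiffWithinAt_omega_iff_analyticWithinAt,
    analyticWithinAt_univ]

theorem contMDiffAt_chart' {x₀ x : X} (hx : x ∈ (chartAt (Model n) x₀).source) :
    ContMDiffAt (mI n) (mI n) ω (chartAt (Model n) x₀) x :=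
  (contMDiffOn_chart (I := mI n) (n := ω) (x := x₀)).contMDiffAt
    ((chartAt (Model n) x₀).open_source.mem_nhds hx)

theorem contMDiffAt_chart_symm' {x₀ : X} {y : Model n} (hy : y ∈ (chartAt (Model n) x₀).target) :
    ContMDiffAt (mI n) (mI n) ω (chartAt (Model n) x₀).symm y :=
  (contMDiffOn_chart_symm (I := mI n) (n := ω) (x := x₀)).contMDiffAt
    ((chartAt (Model n) x₀).open_target.mem_nhds hy)

/-- coordinate of a section along a curve in the chart at `x₀` -/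
noncomputable def sc (x₀ : X) (g : ℂ → X) (s : ℂ → Model n) (z : ℂ) : Model n :=
  tcc (g z) x₀ (g z) (s z)

variable (n) in
/-- the curve in the chart at `x₀` -/
noncomputable def gc (x₀ : X) (g : ℂ → X) (z : ℂ) : Model n := chartAt (Model n) x₀ (g z)

theorem holAt_iff_chart {x₀ : X} {g : ℂ → X} {s : ℂ → Model n} {z : ℂ}
    (hz : g z ∈ (chartAt (Model n) x₀).source) :
    HolAt n g s z ↔ ContMDiffAt 𝓘(ℂ, ℂ) (mI n) ω g z ∧ AnalyticAt ℂ (sc x₀ g s) z := by
  unfold HolAt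
  have h := (trivializationAt (Model n) (TangentSpace (mI n)) x₀).contMDiffAt_iff
    (IM := 𝓘(ℂ, ℂ)) (IB := mI n) (n := ω) (f := fun t => tv n (g t) (s t)) (x₀ := z)
    (by
      rw [Bundle.Trivialization.mem_source]
      simpa [tv] using hz)
  rw [h]
  refine and_congr Iff.rfl ?_
  rw [contMDiffAt_iff_contDiffAt, contDiffAt_omega_iff]
  exact Iff.rfl

theorem HolAt.base {g : ℂ → X} {s : ℂ → Model n} {z : ℂ} (h : HolAt n g s z) :
    ContMDiffAt 𝓘(ℂ, ℂ) (mI n) ω g z :=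
  ((holAt_iff_chart (x₀ := g z) (mem_chart_source _ _)).1 h).1

theorem HolAt.sc_analytic {x₀ : X} {g : ℂ → X} {s : ℂ → Model n} {z : ℂ} (h : HolAt n g s z)
    (hz : g z ∈ (chartAt (Model n) x₀).source) : AnalyticAt ℂ (sc x₀ g s) z :=
  ((holAt_iff_chart hz).1 h).2

theorem gc_analytic {x₀ : X} {g : ℂ → X} {z : ℂ} (hg : ContMDiffAt 𝓘(ℂ, ℂ) (mI n) ω g z)
    (hz : g z ∈ (chartAt (Model n) x₀).source) : AnalyticAt ℂ (gc n x₀ g) z := by
  have h1 : ContMDiffAt (mI n) (mI n) ω (chartAt (Model n) x₀) (g z) := contMDiffAt_chart' hz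
  have h2 := h1.comp z hg
  rw [contMDiffAt_iff_contDiffAt, contDiffAt_omega_iff] at h2
  exact h2

omit [IsManifold (mI n) ω X] in
theorem eventually_mem_source {x₀ : X} {g : ℂ → X} {z : ℂ} (hg : ContinuousAt g z)
    (hz : g z ∈ (chartAt (Model n) x₀).source) :
    ∀ᶠ t in 𝓝 z, g t ∈ (chartAt (Model n) x₀).source :=
  hg.eventually ((chartAt (Model n) x₀).open_source.mem_nhds hz)

theorem vel_chart {x₀ : X} {g : ℂ → X} {z : ℂ} (hg : ContMDiffAt 𝓘(ℂ, ℂ) (mI n) ω g z)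
    (hz : g z ∈ (chartAt (Model n) x₀).source) :
    tcc (g z) x₀ (g z) (vel n g z) = deriv (gc n x₀ g) z := by
  have h1 : ContMDiffAt (mI n) (mI n) ω (chartAt (Model n) x₀) (g z) := contMDiffAt_chart' hz
  have h1d : MDifferentiableAt (mI n) (mI n) (chartAt (Model n) x₀) (g z) :=
    h1.mdifferentiableAt (by simp)
  have h2d : MDifferentiableAt 𝓘(ℂ, ℂ) (mI n) g z := hg.mdifferentiableAt (by simp)
  have h3 := mfderiv_comp z h1d h2d
  have h4 := mfderiv_chartAt_eq_tangentCoordChange (I := mI n) (x := g z) (y := x₀) hz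
  have h5 : mfderiv 𝓘(ℂ, ℂ) (mI n) (gc n x₀ g) z = fderiv ℂ (gc n x₀ g) z := mfderiv_eq_fderiv
  have h6 : (mfderiv 𝓘(ℂ, ℂ) (mI n) (gc n x₀ g) z) (1 : ℂ)
      = (mfderiv (mI n) (mI n) (chartAt (Model n) x₀) (g z)) (mfderiv 𝓘(ℂ, ℂ) (mI n) g z (1 : ℂ)) := by
    have := congrArg (fun L : ℂ →L[ℂ] Model n => L 1) h3
    exact this
  rw [h4] at h6
  have h7 : deriv (gc n x₀ g) z = fderiv ℂ (gc n x₀ g) z 1 := rfl
  rw [h7, ← h5]
  exact h6.symm

/-! ### algebra of sections -/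

theorem sc_add (x₀ : X) (g : ℂ → X) (s t : ℂ → Model n) :
    sc x₀ g (fun z => s z + t z) = fun z => sc x₀ g s z + sc x₀ g t z := by
  funext z
  exact map_add (tcc (g z) x₀ (g z)) _ _

theorem sc_smul (x₀ : X) (g : ℂ → X) (c : ℂ → ℂ) (s : ℂ → Model n) :
    sc x₀ g (fun z => c z • s z) = fun z => c z • sc x₀ g s z := by
  funext z
  exact map_smul (tcc (g z) x₀ (g z)) _ _

theorem sc_zero_iff {x₀ : X} {g : ℂ → X} {s : ℂ → Model n} {z : ℂ}
    (hz : g z ∈ (chartAt (Model n) x₀).source) : sc x₀ g s z = 0 ↔ s z = 0 := by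
  unfold sc
  constructor
  · intro h
    have := congrArg (tcc x₀ (g z) (g z)) h
    rwa [tcc_cancel' hz, map_zero] at this
  · intro h
    rw [h, map_zero]

theorem HolAt.add {g : ℂ → X} {s t : ℂ → Model n} {z : ℂ} (hs : HolAt n g s z)
    (ht : HolAt n g t z) : HolAt n g (fun y => s y + t y) z := by
  have hz := mem_chart_source (Model n) (g z)
  rw [holAt_iff_chart hz] at *
  refine ⟨hs.1, ?_⟩
  rw [sc_add]
  exact hs.2.add ht.2

theorem HolAt.smul {g : ℂ → X} {c : ℂ → ℂ} {s : ℂ → Model n} {z : ℂ} (hc : AnalyticAt ℂ c z)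
    (hs : HolAt n g s z) : HolAt n g (fun y => c y • s y) z := by
  have hz := mem_chart_source (Model n) (g z)
  rw [holAt_iff_chart hz] at *
  refine ⟨hs.1, ?_⟩
  rw [sc_smul]
  exact hc.smul hs.2

theorem HolAt.congr {g : ℂ → X} {s t : ℂ → Model n} {z : ℂ} (hs : HolAt n g s z)
    (h : ∀ᶠ y in 𝓝 z, t y = s y) : HolAt n g t z := by
  unfold HolAt at *
  refine ContMDiffAt.congr_of_eventuallyEq hs ?_
  filter_upwards [h] with y hy
  rw [hy]

theorem HolAt.zero {g : ℂ → X} {z : ℂ} (hg : ContMDiffAt 𝓘(ℂ, ℂ) (mI n) ω g z) :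
    HolAt n g (fun _ => (0 : Model n)) z := by
  have hz := mem_chart_source (Model n) (g z)
  rw [holAt_iff_chart hz]
  refine ⟨hg, ?_⟩
  have : sc (g z) g (fun _ => (0 : Model n)) = fun _ => 0 := by
    funext y
    exact map_zero (tcc (g y) (g z) (g y))
  rw [this]
  exact analyticAt_const

/-- `Pc` along the curve -/
theorem Pc_sc (S : Splitting n X) {x₀ : X} {g : ℂ → X} {z : ℂ} (s : ℂ → Model n)
    (hz : g z ∈ (chartAt (Model n) x₀).source) :
    Pc S x₀ (gc n x₀ g z) (sc x₀ g s z) = sc x₀ g (fun y => pr S (g y) (s y)) z := by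
  have hy : gc n x₀ g z ∈ (chartAt (Model n) x₀).target := (chartAt (Model n) x₀).map_source hz
  have h1 : (chartAt (Model n) x₀).symm (gc n x₀ g z) = g z := (chartAt (Model n) x₀).left_inv hz
  have h := Pc_tcc S hy (s z)
  rw [h1] at h
  exact h

theorem Pc_gc_analytic (S : Splitting n X) {x₀ : X} {g : ℂ → X} {z : ℂ}
    (hg : ContMDiffAt 𝓘(ℂ, ℂ) (mI n) ω g z) (hz : g z ∈ (chartAt (Model n) x₀).source) :
    AnalyticAt ℂ (fun y => Pc S x₀ (gc n x₀ g y)) z := by
  have h1 : AnalyticAt ℂ (Pc S x₀) (gc n x₀ g z) := by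
    rw [← contDiffAt_omega_iff]
    exact (Pc_contDiffOn S x₀).contDiffAt ((chartAt (Model n) x₀).open_target.mem_nhds
      ((chartAt (Model n) x₀).map_source hz))
  exact h1.comp (gc_analytic hg hz)

theorem HolAt.proj (S : Splitting n X) {g : ℂ → X} {s : ℂ → Model n} {z : ℂ}
    (hs : HolAt n g s z) : HolAt n g (fun y => pr S (g y) (s y)) z := by
  have hz := mem_chart_source (Model n) (g z)
  have hb := hs.base
  rw [holAt_iff_chart hz] at *
  refine ⟨hs.1, ?_⟩
  refine (L3.analyticAt_clm_apply (Pc_gc_analytic S hb hz) hs.2).congr ?_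
  filter_upwards [eventually_mem_source hb.continuousAt hz] with y hy
  exact Pc_sc S s hy

theorem isSec_add {g : Bool → ℂ → X} {s t : Bool → ℂ → Model n} (hs : IsSec n g s)
    (ht : IsSec n g t) : IsSec n g (s + t) :=
  ⟨fun b z => (hs.hol b z).add (ht.hol b z), fun b z hz => by
    simp only [Pi.add_apply]; rw [hs.glue b z hz, ht.glue b z hz]⟩

theorem isSec_smul {g : Bool → ℂ → X} {s : Bool → ℂ → Model n} (c : ℂ) (hs : IsSec n g s) :
    IsSec n g (c • s) :=
  ⟨fun b z => HolAt.smul (c := fun _ => c) analyticAt_const (hs.hol b z), fun b z hz => by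
    simp only [Pi.smul_apply]; rw [hs.glue b z hz]⟩

theorem isSec_zero_all {g : Bool → ℂ → X} (hg : IsCurve n g) :
    IsSec n g (0 : Bool → ℂ → Model n) :=
  ⟨fun b z => HolAt.zero (hg.hol b z), fun _ _ _ => rfl⟩

theorem isSec_sum_all {ι : Type*} (I : Finset ι) {g : Bool → ℂ → X} (hg : IsCurve n g)
    {s : ι → Bool → ℂ → Model n} (hs : ∀ i ∈ I, IsSec n g (s i)) :
    IsSec n g (∑ i ∈ I, s i) := by
  classical
  induction I using Finset.induction_on with
  | empty => simpa using isSec_zero_all hg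
  | insert a I ha ih =>
    rw [Finset.sum_insert ha]
    exact isSec_add (hs a (Finset.mem_insert_self _ _))
      (ih fun i hi => hs i (Finset.mem_insert_of_mem hi))

theorem isSec_proj (S : Splitting n X) {g : Bool → ℂ → X} (hg : IsCurve n g)
    {s : Bool → ℂ → Model n} (hs : IsSec n g s) :
    IsSec n g (fun b z => pr S (g b z) (s b z)) :=
  ⟨fun b z => (hs.hol b z).proj S, fun b z hz => by
    show pr S (g (!b) z) (s (!b) z) = pr S (g b z⁻¹) (s b z⁻¹)
    rw [hs.glue b z hz, hg.glue b z hz]⟩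

/-- (S1) -/
theorem secAdd : St_secAdd n X := fun _ _ =>
  ⟨fun _ _ hs ht => isSec_add hs ht, fun c _ hs => isSec_smul c hs⟩

/-- (S2) -/
theorem secProj : St_secProj n X := fun S _ hg _ hs => isSec_proj S hg hs

/-! ### the velocity -/

theorem vel_hol {g : ℂ → X} (hg : ContMDiff 𝓘(ℂ, ℂ) (mI n) ω g) (z : ℂ) :
    HolAt n g (vel n g) z := by
  have hz := mem_chart_source (Model n) (g z)
  rw [holAt_iff_chart hz]
  refine ⟨hg z, ?_⟩
  refine (gc_analytic (hg z) hz).deriv.congr ?_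
  filter_upwards [eventually_mem_source (hg z).continuousAt hz] with y hy
  exact (vel_chart (hg y) hy).symm

omit [IsManifold (mI n) ω X] in
theorem vel_congr_inv {g g' : ℂ → X} (hg : ContMDiff 𝓘(ℂ, ℂ) (mI n) ω g) {z : ℂ} (hz : z ≠ 0)
    (h : ∀ z, z ≠ 0 → g' z = g z⁻¹) : vel n g' z = (-(z ^ 2)⁻¹) • vel n g z⁻¹ := by
  have h1 : g' =ᶠ[𝓝 z] g ∘ (fun y => y⁻¹) := by
    filter_upwards [isOpen_ne.mem_nhds hz] with y hy using h y hy
  have h2 : mfderiv 𝓘(ℂ, ℂ) (mI n) g' z = mfderiv 𝓘(ℂ, ℂ) (mI n) (g ∘ (fun y => y⁻¹)) z :=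
    h1.mfderiv_eq
  have h3 : MDifferentiableAt 𝓘(ℂ, ℂ) (mI n) g z⁻¹ := (hg z⁻¹).mdifferentiableAt (by simp)
  have h4 : DifferentiableAt ℂ (fun y : ℂ => y⁻¹) z := differentiableAt_inv hz
  have h5 := mfderiv_comp z h3 h4.mdifferentiableAt
  have h6 : (mfderiv 𝓘(ℂ, ℂ) 𝓘(ℂ, ℂ) (fun y : ℂ => y⁻¹) z : ℂ →L[ℂ] ℂ) (1 : ℂ) = -(z ^ 2)⁻¹ := by
    rw [mfderiv_eq_fderiv]
    exact (hasDerivAt_inv hz).deriv
  have h7 : vel n g' z = (mfderiv 𝓘(ℂ, ℂ) (mI n) g z⁻¹ : ℂ →L[ℂ] Model n)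
      ((mfderiv 𝓘(ℂ, ℂ) 𝓘(ℂ, ℂ) (fun y : ℂ => y⁻¹) z : ℂ →L[ℂ] ℂ) (1 : ℂ)) := by
    have h8 := congrArg (fun L : ℂ →L[ℂ] Model n => L (1 : ℂ)) (h2.trans h5)
    exact h8
  rw [h7, h6]
  have key : ∀ (L : ℂ →L[ℂ] Model n) (c : ℂ), L c = c • L 1 := fun L c => by
    rw [← map_smul, smul_eq_mul, mul_one]
  exact key _ _

theorem isCurve_vel_glue {g : Bool → ℂ → X} (hg : IsCurve n g) (b : Bool) {z : ℂ} (hz : z ≠ 0) :
    vel n (g (!b)) z = (-(z ^ 2)⁻¹) • vel n (g b) z⁻¹ :=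
  vel_congr_inv (hg.hol b) hz (fun y hy => hg.glue b y hy)

/-- a section given by its values in the two charts `b₀`, `!b₀` -/
theorem isSec_of_pair {g : Bool → ℂ → X} (b₀ : Bool) {s : Bool → ℂ → Model n}
    (h0 : ∀ z, HolAt n (g b₀) (s b₀) z) (h1 : ∀ z, HolAt n (g (!b₀)) (s (!b₀)) z)
    (hglue : ∀ z, z ≠ 0 → s (!b₀) z = s b₀ z⁻¹) : IsSec n g s := by
  refine ⟨fun b z => ?_, fun b z hz => ?_⟩
  · cases b <;> cases b₀
    · exact h0 z
    · exact h1 z
    · exact h1 z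
    · exact h0 z
  · have h2 := hglue z⁻¹ (inv_ne_zero hz)
    rw [inv_inv] at h2
    cases b <;> cases b₀
    · exact hglue z hz
    · exact h2.symm
    · exact h2.symm
    · exact hglue z hz

/-- (S3) -/
theorem secVel : St_secVel n X := by
  intro g hg b₀ c₀ c₁ c₂
  refine ⟨fun b z => if b = b₀ then (c₀ + c₁ * z + c₂ * z ^ 2) • vel n (g b) z
    else (-(c₀ * z ^ 2 + c₁ * z + c₂)) • vel n (g b) z, ?_, ?_, ?_⟩
  · refine isSec_of_pair b₀ ?_ ?_ ?_
    · intro z
      simp only [if_true]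
      refine HolAt.smul ?_ (vel_hol (hg.hol b₀) z)
      exact (analyticAt_const.add (analyticAt_const.mul analyticAt_id)).add
        (analyticAt_const.mul (analyticAt_id.pow 2))
    · intro z
      have hb : ((!b₀) = b₀) = False := by cases b₀ <;> simp
      simp only [hb, if_false]
      refine HolAt.smul ?_ (vel_hol (hg.hol (!b₀)) z)
      exact (((analyticAt_const.mul (analyticAt_id.pow 2)).add
        (analyticAt_const.mul analyticAt_id)).add analyticAt_const).neg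
    · intro z hz
      have hb : ((!b₀) = b₀) = False := by cases b₀ <;> simp
      simp only [hb, if_false, if_true]
      rw [isCurve_vel_glue hg b₀ hz, smul_smul]
      congr 1
      field_simp
  · intro z
    simp
  · intro z
    have hb : ((!b₀) = b₀) = False := by cases b₀ <;> simp
    simp [hb]

end Crest.Agent.R266.St4
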