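import Mathlib
import Crest.Prelude.Def_TangentSplitting
import Crest.Agent.R266.Chart
import Crest.Agent.R266.A.St4Defs
import Crest.Agent.R266.A.SecCalc
import Crest.Agent.R266.L3a

/-!
R266 / A / Nab (helper609): the partial connection of `E₂` along curves tangent to `E₁`.
-/

set_option autoImplicit false

open scoped Manifold ContDiff Topology
open Set Filter
open Crest.AlgGeometry.HolSplit

namespace Crest.Agent.R266.St4

variable {n : ℕ} {X : Type} [TopologicalSpace X] [ChartedSpace (Model n) X]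
  [IsManifold (mI n) ω X]

/-- change of charts -/
theorem hasFDerivAt_change {x x₀ : X} {y : Model n} (hy : y ∈ (chartAt (Model n) x).target)
    (hy₀ : (chartAt (Model n) x).symm y ∈ (chartAt (Model n) x₀).source) :
    HasFDerivAt (chartAt (Model n) x₀ ∘ (chartAt (Model n) x).symm)
      (tcc x x₀ ((chartAt (Model n) x).symm y)) y := by
  have h := hasFDerivWithinAt_tangentCoordChange (I := mI n) (x := x) (y := x₀)
    (z := (chartAt (Model n) x).symm y) (by
      simp only [extChartAt_source]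
      exact ⟨(chartAt (Model n) x).map_target hy, hy₀⟩)
  have h1 : (extChartAt (mI n) x) ((chartAt (Model n) x).symm y) = y := by
    simp only [extChartAt, OpenPartialHomeomorph.extend_coe, Function.comp_apply]
    exact (chartAt (Model n) x).right_inv hy
  rw [h1] at h
  simp only [ModelWithCorners.range_eq_univ, hasFDerivWithinAt_univ] at h
  exact h

theorem contDiffAt_change {x x₀ : X} {y : Model n} (hy : y ∈ (chartAt (Model n) x).target)
    (hy₀ : (chartAt (Model n) x).symm y ∈ (chartAt (Model n) x₀).source) :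
    ContDiffAt ℂ ω (chartAt (Model n) x₀ ∘ (chartAt (Model n) x).symm) y := by
  have h := (contMDiffAt_chart' hy₀).comp y (contMDiffAt_chart_symm' hy)
  rw [contMDiffAt_iff_contDiffAt] at h
  exact h

/-- the partial connection, in the chart at `x₀` -/
noncomputable def nabc (S : Splitting n X) (x₀ : X) (g : ℂ → X) (s : ℂ → Model n) (z : ℂ) :
    Model n :=
  deriv (sc x₀ g s) z - Pc S x₀ (gc n x₀ g z) (deriv (sc x₀ g s) z)
    - (fderiv ℂ (Pc S x₀) (gc n x₀ g z) (sc x₀ g s z)) (deriv (gc n x₀ g) z)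

/-- the partial connection -/
noncomputable def nab (S : Splitting n X) (g : ℂ → X) (s : ℂ → Model n) (z : ℂ) : Model n :=
  nabc S (g z) g s z

/-- chart independence -/
theorem nab_chart (S : Splitting n X) {x₀ : X} {g : ℂ → X} {s : ℂ → Model n} {z : ℂ}
    (hs : HolAt n g s z) (hv : pr S (g z) (vel n g z) = vel n g z)
    (hz : g z ∈ (chartAt (Model n) x₀).source) :
    tcc (g z) x₀ (g z) (nab S g s z) = nabc S x₀ g s z := by
  have hg := hs.base
  set x := g z with hx
  have hzx : g z ∈ (chartAt (Model n) x).source := mem_chart_source _ _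
  have hy : gc n x g z ∈ (chartAt (Model n) x).target := (chartAt (Model n) x).map_source hzx
  have hsymm : (chartAt (Model n) x).symm (gc n x g z) = g z := (chartAt (Model n) x).left_inv hzx
  set ψ : Model n → Model n := chartAt (Model n) x₀ ∘ (chartAt (Model n) x).symm with hψdef
  -- good neighbourhood
  have hnb : ∀ᶠ y in 𝓝 (gc n x g z), y ∈ (chartAt (Model n) x).target ∧
      (chartAt (Model n) x).symm y ∈ (chartAt (Model n) x₀).source := by
    have ho : IsOpen ((chartAt (Model n) x).target ∩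
        (chartAt (Model n) x).symm ⁻¹' (chartAt (Model n) x₀).source) :=
      (chartAt (Model n) x).isOpen_inter_preimage_symm (chartAt (Model n) x₀).open_source
    refine ho.mem_nhds ⟨hy, ?_⟩
    rw [mem_preimage, hsymm]; exact hz
  have hψ : ContDiffAt ℂ 2 ψ (gc n x g z) :=
    (contDiffAt_change (x := x) (x₀ := x₀) hy (by rw [hsymm]; exact hz)).of_le le_top
  have hγ : AnalyticAt ℂ (gc n x g) z := gc_analytic hg hzx
  have hσ : AnalyticAt ℂ (sc x g s) z := hs.sc_analytic hzx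
  have hP : DifferentiableAt ℂ (Pc S x) (gc n x g z) :=
    ((Pc_contDiffOn S x).contDiffAt ((chartAt (Model n) x).open_target.mem_nhds hy)).differentiableAt
      (by simp)
  have hψz : ψ (gc n x g z) = gc n x₀ g z := by
    simp only [hψdef, Function.comp_apply, hsymm]; rfl
  have hQ : DifferentiableAt ℂ (Pc S x₀) (ψ (gc n x g z)) := by
    rw [hψz]
    exact ((Pc_contDiffOn S x₀).contDiffAt ((chartAt (Model n) x₀).open_target.mem_nhds
      ((chartAt (Model n) x₀).map_source hz))).differentiableAt (by simp)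
  have hcomm : ∀ᶠ y in 𝓝 (gc n x g z), ∀ v,
      Pc S x₀ (ψ y) (fderiv ℂ ψ y v) = fderiv ℂ ψ y (Pc S x y v) := by
    filter_upwards [hnb] with y hy' v
    have hw1 : (chartAt (Model n) x).symm y ∈ (chartAt (Model n) x).source :=
      (chartAt (Model n) x).map_target hy'.1
    rw [(hasFDerivAt_change hy'.1 hy'.2).fderiv]
    have h1 : (chartAt (Model n) x₀).symm (ψ y) = (chartAt (Model n) x).symm y :=
      (chartAt (Model n) x₀).left_inv hy'.2
    rw [Pc_apply, Pc_apply, h1, tcc_comp hw1 hy'.2 (mem_chart_source _ _),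
      tcc_comp (mem_chart_source _ _) hw1 hy'.2]
  have hPv : Pc S x (gc n x g z) (deriv (gc n x g) z) = deriv (gc n x g) z := by
    rw [← vel_chart hg hzx]
    have := Pc_sc S (g := g) (z := z) (vel n g) hzx
    unfold sc at this
    rw [this]
    exact congrArg (tcc (g z) x (g z)) hv
  have key := L3.nabla_change (ψ := ψ) (P := Pc S x) (Q := Pc S x₀) (γ := gc n x g)
    (σ := sc x g s) (z := z) hψ hP hQ hγ.differentiableAt hσ.differentiableAt hcomm hPv
  -- identify the transported section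
  have hnbz : ∀ᶠ t in 𝓝 z, g t ∈ (chartAt (Model n) x).source ∧
      g t ∈ (chartAt (Model n) x₀).source :=
    (eventually_mem_source hg.continuousAt hzx).and (eventually_mem_source hg.continuousAt hz)
  have h2 : ∀ t, g t ∈ (chartAt (Model n) x).source → g t ∈ (chartAt (Model n) x₀).source →
      fderiv ℂ ψ (gc n x g t) (sc x g s t) = sc x₀ g s t := by
    intro t ht ht₀
    have hs1 : (chartAt (Model n) x).symm (gc n x g t) = g t := (chartAt (Model n) x).left_inv ht
    have h3 := (hasFDerivAt_change (x := x) (x₀ := x₀) (y := gc n x g t)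
      ((chartAt (Model n) x).map_source ht) (by rw [hs1]; exact ht₀)).fderiv
    rw [hs1] at h3
    rw [h3]
    unfold sc
    rw [tcc_comp (mem_chart_source _ _) ht ht₀]
  have h3 : (fun t => fderiv ℂ ψ (gc n x g t) (sc x g s t)) =ᶠ[𝓝 z] sc x₀ g s := by
    filter_upwards [hnbz] with t ht using h2 t ht.1 ht.2
  have h4 : ψ ∘ gc n x g =ᶠ[𝓝 z] gc n x₀ g := by
    filter_upwards [hnbz] with t ht
    show chartAt (Model n) x₀ ((chartAt (Model n) x).symm (chartAt (Model n) x (g t))) = _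
    rw [(chartAt (Model n) x).left_inv ht.1]; rfl
  have h5 : fderiv ℂ ψ (gc n x g z) = tcc x x₀ (g z) := by
    have h3 := (hasFDerivAt_change (x := x) (x₀ := x₀) (y := gc n x g z)
      ((chartAt (Model n) x).map_source hzx) (by rw [hsymm]; exact hz)).fderiv
    rwa [hsymm] at h3
  rw [h3.deriv_eq, h4.deriv_eq, hψz, h2 z hzx hz, h5] at key
  exact key.symm

theorem Pc_differentiableAt' (S : Splitting n X) {x₀ : X} {g : ℂ → X} {z : ℂ}
    (hz : g z ∈ (chartAt (Model n) x₀).source) :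
    DifferentiableAt ℂ (Pc S x₀) (gc n x₀ g z) :=
  ((Pc_contDiffOn S x₀).contDiffAt ((chartAt (Model n) x₀).open_target.mem_nhds
      ((chartAt (Model n) x₀).map_source hz))).differentiableAt (by simp)

theorem Pc_deriv_gc (S : Splitting n X) {x₀ : X} {g : ℂ → X} {z : ℂ}
    (hg : ContMDiffAt 𝓘(ℂ, ℂ) (mI n) ω g z) (hv : pr S (g z) (vel n g z) = vel n g z)
    (hz : g z ∈ (chartAt (Model n) x₀).source) :
    Pc S x₀ (gc n x₀ g z) (deriv (gc n x₀ g) z) = deriv (gc n x₀ g) z := by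
  rw [← vel_chart hg hz]
  have := Pc_sc S (g := g) (z := z) (vel n g) hz
  unfold sc at this
  rw [this]
  exact congrArg (tcc (g z) x₀ (g z)) hv

theorem Pc_nabc (S : Splitting n X) {x₀ : X} {g : ℂ → X} {s : ℂ → Model n} {z : ℂ}
    (hg : ContMDiffAt 𝓘(ℂ, ℂ) (mI n) ω g z) (hv : pr S (g z) (vel n g z) = vel n g z)
    (hz : g z ∈ (chartAt (Model n) x₀).source) :
    Pc S x₀ (gc n x₀ g z) (nabc S x₀ g s z) = 0 := by
  have hy : gc n x₀ g z ∈ (chartAt (Model n) x₀).target := (chartAt (Model n) x₀).map_source hz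
  have h1 := Pc_deriv_gc S hg hv hz
  have hid : ∀ᶠ y in 𝓝 (gc n x₀ g z), ∀ v, Pc S x₀ y (Pc S x₀ y v) = Pc S x₀ y v := by
    filter_upwards [(chartAt (Model n) x₀).open_target.mem_nhds hy] with y hy' v
    exact Pc_idem S hy' v
  have h2 := fderiv_idem (Pc_differentiableAt' S hz) hid (sc x₀ g s z) (deriv (gc n x₀ g) z)
  rw [h1] at h2
  have h3 : Pc S x₀ (gc n x₀ g z)
      ((fderiv ℂ (Pc S x₀) (gc n x₀ g z) (sc x₀ g s z)) (deriv (gc n x₀ g) z)) = 0 := by
    simpa using h2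
  unfold nabc
  rw [map_sub, map_sub, h3, Pc_idem S hy, sub_self, sub_zero]

theorem pr_nab (S : Splitting n X) {g : ℂ → X} {s : ℂ → Model n} {z : ℂ}
    (hg : ContMDiffAt 𝓘(ℂ, ℂ) (mI n) ω g z) (hv : pr S (g z) (vel n g z) = vel n g z) :
    pr S (g z) (nab S g s z) = 0 := by
  have hz := mem_chart_source (Model n) (g z)
  have h1 := Pc_nabc (s := s) S hg hv hz
  have h2 : nabc S (g z) g s z = sc (g z) g (nab S g s) z := (tcc_self hz _).symm
  rw [h2, Pc_sc S _ hz, sc_zero_iff hz] at h1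
  exact h1

theorem nabc_analytic (S : Splitting n X) {x₀ : X} {g : ℂ → X} {s : ℂ → Model n} {z : ℂ}
    (hs : HolAt n g s z) (hz : g z ∈ (chartAt (Model n) x₀).source) :
    AnalyticAt ℂ (nabc S x₀ g s) z := by
  have hy : gc n x₀ g z ∈ (chartAt (Model n) x₀).target := (chartAt (Model n) x₀).map_source hz
  have h1 : AnalyticAt ℂ (Pc S x₀) (gc n x₀ g z) := by
    rw [← contDiffAt_omega_iff]
    exact (Pc_contDiffOn S x₀).contDiffAt ((chartAt (Model n) x₀).open_target.mem_nhds hy)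
  have hγ : AnalyticAt ℂ (gc n x₀ g) z := gc_analytic hs.base hz
  have hσ : AnalyticAt ℂ (sc x₀ g s) z := hs.sc_analytic hz
  have h2 : AnalyticAt ℂ (fun t => fderiv ℂ (Pc S x₀) (gc n x₀ g t)) z := h1.fderiv.comp hγ
  exact (hσ.deriv.sub (L3.analyticAt_clm_apply (Pc_gc_analytic S hs.base hz) hσ.deriv)).sub
    (L3.analyticAt_clm_apply (L3.analyticAt_clm_apply h2 hσ) hγ.deriv)

theorem HolAt.nab (S : Splitting n X) {g : ℂ → X} {s : ℂ → Model n}
    (hs : ∀ z, HolAt n g s z) (hv : ∀ z, pr S (g z) (vel n g z) = vel n g z) (z : ℂ) :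
    HolAt n g (nab S g s) z := by
  have hz := mem_chart_source (Model n) (g z)
  rw [holAt_iff_chart hz]
  refine ⟨(hs z).base, ?_⟩
  refine (nabc_analytic S (hs z) hz).congr ?_
  filter_upwards [eventually_mem_source (hs z).base.continuousAt hz] with y hy
  exact (nab_chart S (hs y) (hv y) hy).symm

theorem deriv_comp_inv' {F : Type*} [NormedAddCommGroup F] [NormedSpace ℂ F] {f f' : ℂ → F} {z : ℂ}
    (hz : z ≠ 0) (hf : DifferentiableAt ℂ f z⁻¹) (h : ∀ᶠ y in 𝓝 z, f' y = f y⁻¹) :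
    deriv f' z = (-(z ^ 2)⁻¹) • deriv f z⁻¹ := by
  rw [Filter.EventuallyEq.deriv_eq (f₁ := f') (f := fun y => f y⁻¹) h]
  have h1 := HasDerivAt.scomp z hf.hasDerivAt (hasDerivAt_inv hz)
  exact h1.deriv

theorem nab_inv (S : Splitting n X) {g g' : ℂ → X} {s s' : ℂ → Model n}
    (hs : ∀ z, HolAt n g s z) (hgg : ∀ z, z ≠ 0 → g' z = g z⁻¹)
    (hss : ∀ z, z ≠ 0 → s' z = s z⁻¹) {z : ℂ} (hz : z ≠ 0) :
    nab S g' s' z = (-(z ^ 2)⁻¹) • nab S g s z⁻¹ := by
  have hx := hgg z hz
  have hsrc : g z⁻¹ ∈ (chartAt (Model n) (g z⁻¹)).source := mem_chart_source _ _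
  have hne : ∀ᶠ y in 𝓝 z, y ≠ 0 := isOpen_ne.mem_nhds hz
  have h1 : ∀ᶠ y in 𝓝 z, sc (g z⁻¹) g' s' y = sc (g z⁻¹) g s y⁻¹ := by
    filter_upwards [hne] with y hy
    unfold sc
    rw [hgg y hy, hss y hy]
  have h2 : ∀ᶠ y in 𝓝 z, gc n (g z⁻¹) g' y = gc n (g z⁻¹) g y⁻¹ := by
    filter_upwards [hne] with y hy
    unfold gc
    rw [hgg y hy]
  have h3 := deriv_comp_inv' hz ((hs z⁻¹).sc_analytic hsrc).differentiableAt h1
  have h4 := deriv_comp_inv' hz (gc_analytic (hs z⁻¹).base hsrc).differentiableAt h2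
  unfold nab nabc
  rw [hx, h3, h4, h1.self_of_nhds, h2.self_of_nhds]
  simp only [map_smul, smul_sub]

/-- the operator `(z - z₀)² ∇` on global sections -/
noncomputable def raise (S : Splitting n X) (g : Bool → ℂ → X) (s : Bool → ℂ → Model n)
    (b₀ : Bool) (z₀ : ℂ) : Bool → ℂ → Model n := fun b z =>
  if b = b₀ then (z - z₀) ^ 2 • nab S (g b) (s b) z
  else (-(1 - z₀ * z) ^ 2) • nab S (g b) (s b) z

theorem raise_self (S : Splitting n X) (g : Bool → ℂ → X) (s : Bool → ℂ → Model n)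
    (b₀ : Bool) (z₀ : ℂ) : raise S g s b₀ z₀ b₀ = fun z => (z - z₀) ^ 2 • nab S (g b₀) (s b₀) z := by
  funext z
  simp [raise]

theorem raise_not (S : Splitting n X) (g : Bool → ℂ → X) (s : Bool → ℂ → Model n)
    (b₀ : Bool) (z₀ : ℂ) :
    raise S g s b₀ z₀ (!b₀) = fun z => (-(1 - z₀ * z) ^ 2) • nab S (g (!b₀)) (s (!b₀)) z := by
  funext z
  have hb : ((!b₀) = b₀) = False := by cases b₀ <;> simp
  simp only [raise, hb, if_false]

theorem isSec_raise (S : Splitting n X) {g : Bool → ℂ → X} (hg : IsCurve n g)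
    (hv : ∀ b z, pr S (g b z) (vel n (g b) z) = vel n (g b) z)
    {s : Bool → ℂ → Model n} (hs : IsSec n g s) (b₀ : Bool) (z₀ : ℂ) :
    IsSec n g (raise S g s b₀ z₀) := by
  refine isSec_of_pair b₀ ?_ ?_ ?_
  · intro z
    rw [raise_self]
    exact HolAt.smul ((analyticAt_id.sub analyticAt_const).pow 2)
      (HolAt.nab S (fun z => hs.hol b₀ z) (hv b₀) z)
  · intro z
    rw [raise_not]
    exact HolAt.smul ((analyticAt_const.sub (analyticAt_const.mul analyticAt_id)).pow 2).neg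
      (HolAt.nab S (fun z => hs.hol (!b₀) z) (hv (!b₀)) z)
  · intro z hz
    rw [raise_self, raise_not]
    simp only
    rw [nab_inv S (fun z => hs.hol b₀ z) (fun y hy => hg.glue b₀ y hy)
      (fun y hy => hs.glue b₀ y hy) hz, smul_smul]
    congr 1
    field_simp

theorem pr_raise (S : Splitting n X) {g : Bool → ℂ → X} (hg : IsCurve n g)
    (hv : ∀ b z, pr S (g b z) (vel n (g b) z) = vel n (g b) z)
    (s : Bool → ℂ → Model n) (b₀ : Bool) (z₀ : ℂ) (b : Bool) (z : ℂ) :
    pr S (g b z) (raise S g s b₀ z₀ b z) = 0 := by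
  unfold raise
  split_ifs
  · rw [map_smul, pr_nab S (hg.hol b z) (hv b z), smul_zero]
  · rw [map_smul, pr_nab S (hg.hol b z) (hv b z), smul_zero]

/-- vanishing order of a section at a point -/
noncomputable def ordS (g : Bool → ℂ → X) (s : Bool → ℂ → Model n) (b : Bool) (z : ℂ) : ℕ∞ :=
  analyticOrderAt (sc (g b z) (g b) (s b)) z

theorem ordS_raise (S : Splitting n X) {g : Bool → ℂ → X}
    (hv : ∀ b z, pr S (g b z) (vel n (g b) z) = vel n (g b) z)
    {s : Bool → ℂ → Model n} (hs : IsSec n g s)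
    (h2 : ∀ b z, pr S (g b z) (s b z) = 0) (b₀ : Bool) (z₀ : ℂ) {K : ℕ} (hK : K ≠ 0)
    (hord : ordS g s b₀ z₀ = K) : ordS g (raise S g s b₀ z₀) b₀ z₀ = (K + 1 : ℕ) := by
  set x₀ := g b₀ z₀ with hx₀
  have hz : g b₀ z₀ ∈ (chartAt (Model n) x₀).source := mem_chart_source _ _
  have hbase := (hs.hol b₀ z₀).base
  have hσ : AnalyticAt ℂ (sc x₀ (g b₀) (s b₀)) z₀ := (hs.hol b₀ z₀).sc_analytic hz
  have hγ : AnalyticAt ℂ (gc n x₀ (g b₀)) z₀ := gc_analytic hbase hz
  have hA : AnalyticAt ℂ (fun t => ContinuousLinearMap.id ℂ (Model n) - Pc S x₀ (gc n x₀ (g b₀) t)) z₀ :=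
    analyticAt_const.sub (Pc_gc_analytic S hbase hz)
  have h1 : AnalyticAt ℂ (Pc S x₀) (gc n x₀ (g b₀) z₀) := by
    rw [← contDiffAt_omega_iff]
    exact (Pc_contDiffOn S x₀).contDiffAt ((chartAt (Model n) x₀).open_target.mem_nhds
      ((chartAt (Model n) x₀).map_source hz))
  have h2' : AnalyticAt ℂ (fun t => fderiv ℂ (Pc S x₀) (gc n x₀ (g b₀) t)) z₀ := h1.fderiv.comp hγ
  have hsrc := eventually_mem_source hbase.continuousAt hz
  have hAσ : ∀ᶠ t in 𝓝 z₀, (ContinuousLinearMap.id ℂ (Model n) - Pc S x₀ (gc n x₀ (g b₀) t))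
      (sc x₀ (g b₀) (s b₀) t) = sc x₀ (g b₀) (s b₀) t := by
    filter_upwards [hsrc] with t ht
    have h3 := Pc_sc S (s b₀) ht
    have h4 : sc x₀ (g b₀) (fun y => pr S (g b₀ y) (s b₀ y)) t = 0 := by
      rw [sc_zero_iff ht]; exact h2 b₀ t
    rw [h4] at h3
    simp [h3]
  have key := L3.order_nabla2 hK hσ hA h2' hγ.deriv hAσ hord
  unfold ordS
  rw [← key]
  refine analyticOrderAt_congr ?_
  filter_upwards [hsrc] with t ht
  have h5 : sc x₀ (g b₀) (raise S g s b₀ z₀ b₀) t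
      = (t - z₀) ^ 2 • sc x₀ (g b₀) (nab S (g b₀) (s b₀)) t := by
    rw [raise_self]
    exact map_smul (tcc (g b₀ t) x₀ (g b₀ t)) _ _
  rw [h5]
  congr 1
  have h6 : sc x₀ (g b₀) (nab S (g b₀) (s b₀)) t = nabc S x₀ (g b₀) (s b₀) t :=
    nab_chart S (hs.hol b₀ t) (hv b₀ t) ht
  rw [h6]
  rfl

end Crest.Agent.R266.St4
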