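import Mathlib
import Crest.Prelude.Def_TangentSplitting
import Crest.Agent.R266.Chart
import Crest.Agent.R266.A.St4Defs
import Crest.Agent.R266.A.SecCalc
import Crest.Agent.R266.L3a
import Crest.Agent.R266.Emb
import Crest.Agent.R266.PdAn
import Crest.Agent.R266.P1PolyX

/-!
R266 / A / OrdBound (helper609): a global section of `g^* T_X` over `ℙ¹` with a zero of order
`> 2 d` (`d` the degree of the curve in projective space) vanishes identically.
-/

set_option autoImplicit false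

open scoped Manifold ContDiff Topology
open Set Filter
open Crest.AlgGeometry.HolSplit
open Crest.Agent.R266.Rat Crest.Agent.R266.Emb

namespace Crest.Agent.R266.St4

section pure

/-- change of homogeneous coordinates in the bivector `K ∧ dK(v)` -/
theorem wedge_change {E : Type*} [NormedAddCommGroup E] [NormedSpace ℂ E] {N : ℕ}
    {Kp Kq : E → CN N} {y : E} (hp : DifferentiableAt ℂ Kp y) (hq : DifferentiableAt ℂ Kq y)
    (hrel : ∀ᶠ y' in 𝓝 y, ∃ c : ℂ, Kq y' = c • Kp y') {l : ℂ} (hl : Kq y = l • Kp y)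
    (v : E) (i j : Fin (N + 1)) :
    Kq y i * (fderiv ℂ Kq y v) j - Kq y j * (fderiv ℂ Kq y v) i
      = l ^ 2 * (Kp y i * (fderiv ℂ Kp y v) j - Kp y j * (fderiv ℂ Kp y v) i) := by
  have hcomp : ∀ (K : E → CN N) (i : Fin (N + 1)), DifferentiableAt ℂ K y →
      HasFDerivAt (fun y' => K y' i) ((ContinuousLinearMap.proj i).comp (fderiv ℂ K y)) y := by
    intro K i hK
    exact (ContinuousLinearMap.proj (R := ℂ) (φ := fun _ : Fin (N + 1) => ℂ) i).hasFDerivAt.comp y
      hK.hasFDerivAt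
  -- differentiate `Kq i * Kp j = Kq j * Kp i`
  have h1 := (hcomp Kq i hq).mul (hcomp Kp j hp)
  have h2 := (hcomp Kq j hq).mul (hcomp Kp i hp)
  have heq : (fun y' => Kq y' i * Kp y' j) =ᶠ[𝓝 y] fun y' => Kq y' j * Kp y' i := by
    filter_upwards [hrel] with y' hy'
    obtain ⟨c, hc⟩ := hy'
    rw [hc]
    simp only [Pi.smul_apply, smul_eq_mul]
    ring
  have h3 := (h2.congr_of_eventuallyEq heq).unique h1
  have h4 := congrArg (fun L : E →L[ℂ] ℂ => L v) h3
  simp at h4
  have e1 : Kq y i = l * Kp y i := by rw [hl]; rfl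
  have e2 : Kq y j = l * Kp y j := by rw [hl]; rfl
  rw [e1, e2] at h4 ⊢
  linear_combination l * h4

end pure

variable {n N : ℕ} {X : Type} [TopologicalSpace X] [ChartedSpace (Model n) X]
  [IsManifold (mI n) ω X]

/-- an entire lift of a rational curve to homogeneous coordinates, of degree `d` -/
structure Lift (pe : ProjEmbedding n X N) (g : Bool → ℂ → X) (d : ℕ) (p : Bool → ℂ → CN N) :
    Prop where
  diff : ∀ b, Differentiable ℂ (p b)
  glue : ∀ b z, z ≠ 0 → p (!b) z = z ^ d • p b z⁻¹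
  onX : ∀ b z, OnX pe (p b z) (g b z)

/-- homogeneous coordinates in a chart -/
noncomputable def Kpe (pe : ProjEmbedding n X N) (q x₀ : X) (y : Model n) : CN N :=
  pe.coords q ((chartAt (Model n) x₀).symm y)

/-- the differential of the homogeneous coordinates along a curve, applied to a section -/
noncomputable def Dc (pe : ProjEmbedding n X N) (q : X) (g : ℂ → X) (s : ℂ → Model n) (z : ℂ) :
    CN N := mfderiv (mI n) 𝓘(ℂ, CN N) (pe.coords q) (g z) (s z)

theorem Kpe_analytic (pe : ProjEmbedding n X N) {q x₀ : X} {g : ℂ → X} {z : ℂ}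
    (hz : g z ∈ (chartAt (Model n) x₀).source) (hq : g z ∈ pe.nbhd q) :
    AnalyticAt ℂ (Kpe pe q x₀) (gc n x₀ g z) := by
  have h1 : (chartAt (Model n) x₀).symm (gc n x₀ g z) = g z := (chartAt (Model n) x₀).left_inv hz
  exact analyticAt_coords_chart pe q x₀ ((chartAt (Model n) x₀).map_source hz)
    (by rw [h1]; exact hq)

theorem Dc_chart (pe : ProjEmbedding n X N) {q x₀ : X} {g : ℂ → X} (s : ℂ → Model n) {z : ℂ}
    (hz : g z ∈ (chartAt (Model n) x₀).source) (hq : g z ∈ pe.nbhd q) :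
    Dc pe q g s z = fderiv ℂ (Kpe pe q x₀) (gc n x₀ g z) (sc x₀ g s z) := by
  have hsymm : (chartAt (Model n) x₀).symm (gc n x₀ g z) = g z :=
    (chartAt (Model n) x₀).left_inv hz
  have h1 : MDifferentiableAt (mI n) (mI n) (chartAt (Model n) x₀) (g z) :=
    (contMDiffAt_chart' hz).mdifferentiableAt (by simp)
  have h2 : MDifferentiableAt (mI n) 𝓘(ℂ, CN N) (Kpe pe q x₀) (chartAt (Model n) x₀ (g z)) :=
    (Kpe_analytic pe hz hq).differentiableAt.mdifferentiableAt
  have h3 := mfderiv_comp (g z) h2 h1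
  have h4 : (Kpe pe q x₀ ∘ chartAt (Model n) x₀) =ᶠ[𝓝 (g z)] pe.coords q := by
    filter_upwards [(chartAt (Model n) x₀).open_source.mem_nhds hz] with w hw
    show pe.coords q ((chartAt (Model n) x₀).symm (chartAt (Model n) x₀ w)) = _
    rw [(chartAt (Model n) x₀).left_inv hw]
  rw [h4.mfderiv_eq] at h3
  have h5 := mfderiv_chartAt_eq_tangentCoordChange (I := mI n) (x := g z) (y := x₀) hz
  have h6 := congrArg (fun L : Model n →L[ℂ] CN N => L (s z)) h3
  have h7 : Dc pe q g s z = (mfderiv (mI n) 𝓘(ℂ, CN N) (Kpe pe q x₀) (chartAt (Model n) x₀ (g z)))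
    ((mfderiv (mI n) (mI n) (chartAt (Model n) x₀) (g z)) (s z)) := h6
  rw [h7, h5, mfderiv_eq_fderiv]
  rfl

/-- the bivector `K ∧ dK(s)` -/
noncomputable def wd (pe : ProjEmbedding n X N) (q : X) (g : ℂ → X) (s : ℂ → Model n) (z : ℂ)
    (i j : Fin (N + 1)) : ℂ :=
  pe.coords q (g z) i * Dc pe q g s z j - pe.coords q (g z) j * Dc pe q g s z i

theorem wd_change (pe : ProjEmbedding n X N) {p q : X} {g : ℂ → X} (s : ℂ → Model n) {z : ℂ}
    (hp : g z ∈ pe.nbhd p) (hq : g z ∈ pe.nbhd q) {l : ℂ}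
    (hl : pe.coords q (g z) = l • pe.coords p (g z)) (i j : Fin (N + 1)) :
    wd pe q g s z i j = l ^ 2 * wd pe p g s z i j := by
  have hz := mem_chart_source (Model n) (g z)
  have hsymm : (chartAt (Model n) (g z)).symm (gc n (g z) g z) = g z :=
    (chartAt (Model n) (g z)).left_inv hz
  have hy : gc n (g z) g z ∈ (chartAt (Model n) (g z)).target :=
    (chartAt (Model n) (g z)).map_source hz
  have e1 : Kpe pe q (g z) (gc n (g z) g z) = pe.coords q (g z) := by
    unfold Kpe; rw [hsymm]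
  have e2 : Kpe pe p (g z) (gc n (g z) g z) = pe.coords p (g z) := by
    unfold Kpe; rw [hsymm]
  have hrel : ∀ᶠ y' in 𝓝 (gc n (g z) g z), ∃ c : ℂ, Kpe pe q (g z) y' = c • Kpe pe p (g z) y' := by
    have ho : IsOpen ((chartAt (Model n) (g z)).target ∩
        (chartAt (Model n) (g z)).symm ⁻¹' (pe.nbhd p ∩ pe.nbhd q)) :=
      (chartAt (Model n) (g z)).isOpen_inter_preimage_symm
        ((pe.isOpen_nbhd p).inter (pe.isOpen_nbhd q))
    have hm : gc n (g z) g z ∈ ((chartAt (Model n) (g z)).target ∩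
        (chartAt (Model n) (g z)).symm ⁻¹' (pe.nbhd p ∩ pe.nbhd q)) := by
      refine ⟨hy, ?_⟩
      rw [mem_preimage, hsymm]; exact ⟨hp, hq⟩
    filter_upwards [ho.mem_nhds hm] with y' hy'
    exact pe.compatible p q _ hy'.2
  have h := wedge_change (Kpe_analytic pe hz hp).differentiableAt
    (Kpe_analytic pe hz hq).differentiableAt hrel (l := l) (by rw [e1, e2]; exact hl)
    (sc (g z) g s z) i j
  unfold wd
  rw [Dc_chart pe s hz hp, Dc_chart pe s hz hq]
  rw [e1, e2] at h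
  exact h

/-- vanishing bivector means vanishing vector -/
theorem eq_zero_of_wd (pe : ProjEmbedding n X N) {q : X} {g : ℂ → X} (s : ℂ → Model n) {z : ℂ}
    (hq : g z ∈ pe.nbhd q) (h : ∀ i j, wd pe q g s z i j = 0) : s z = 0 := by
  refine pe.immersive q (g z) hq (s z) ?_
  refine prop_of_wedge (pe.ne_zero q (g z) hq) (fun i j => ?_)
  have := h j i
  unfold wd at this
  have h2 := sub_eq_zero.1 this
  show Dc pe q g s z i * pe.coords q (g z) j = Dc pe q g s z j * pe.coords q (g z) i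
  rw [mul_comm, h2, mul_comm]

section lift

variable {pe : ProjEmbedding n X N} {g : Bool → ℂ → X} {d : ℕ} {p : Bool → ℂ → CN N}

/-- the scalar relating the lift and the homogeneous coordinates at the point -/
noncomputable def scal (L : Lift pe g d p) (b : Bool) (z : ℂ) : ℂ :=
  ((L.onX b z).exists_coords (pe.mem_nbhd (g b z))).choose

theorem scal_ne (L : Lift pe g d p) (b : Bool) (z : ℂ) : scal L b z ≠ 0 :=
  ((L.onX b z).exists_coords (pe.mem_nbhd (g b z))).choose_spec.1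

theorem scal_eq (L : Lift pe g d p) (b : Bool) (z : ℂ) :
    p b z = scal L b z • pe.coords (g b z) (g b z) :=
  ((L.onX b z).exists_coords (pe.mem_nbhd (g b z))).choose_spec.2

/-- the bivector `p ∧ dp(s)`, an entire function -/
noncomputable def Bv (L : Lift pe g d p) (s : Bool → ℂ → Model n) (i j : Fin (N + 1)) (b : Bool)
    (z : ℂ) : ℂ := scal L b z ^ 2 * wd pe (g b z) (g b) (s b) z i j

theorem Bv_eq (L : Lift pe g d p) (s : Bool → ℂ → Model n) (i j : Fin (N + 1)) (b : Bool)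
    {z : ℂ} {q : X} (hq : g b z ∈ pe.nbhd q) {c : ℂ} (hc : p b z = c • pe.coords q (g b z)) :
    Bv L s i j b z = c ^ 2 * wd pe q (g b) (s b) z i j := by
  obtain ⟨l, hl⟩ := pe.compatible (g b z) q (g b z) ⟨pe.mem_nbhd _, hq⟩
  have h1 := wd_change pe (s b) (pe.mem_nbhd (g b z)) hq hl i j
  have h2 := scal_eq L b z
  rw [hc, hl, smul_smul] at h2
  have hne := pe.ne_zero (g b z) (g b z) (pe.mem_nbhd _)
  have h3 : c * l = scal L b z := smul_left_injective ℂ hne h2
  unfold Bv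
  rw [h1, ← h3]
  ring

theorem Bv_glue (hg : IsCurve n g) (L : Lift pe g d p) {s : Bool → ℂ → Model n}
    (hs : IsSec n g s) (i j : Fin (N + 1)) (b : Bool) {z : ℂ} (hz : z ≠ 0) :
    Bv L s i j (!b) z = z ^ (2 * d) * Bv L s i j b z⁻¹ := by
  have h1 := hg.glue b z hz
  have h2 := hs.glue b z hz
  have h3 := L.glue b z hz
  have h4 := scal_eq L b z⁻¹
  have hq : g (!b) z ∈ pe.nbhd (g b z⁻¹) := by rw [h1]; exact pe.mem_nbhd _
  have hc : p (!b) z = (z ^ d * scal L b z⁻¹) • pe.coords (g b z⁻¹) (g (!b) z) := by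
    rw [h3, h1, h4, smul_smul]
  rw [Bv_eq L s i j (!b) hq hc]
  unfold Bv wd Dc
  rw [h1, h2]
  ring

/-- local form of the bivector: an analytic linear expression in the coordinates of `s` -/
theorem Bv_local (hg : IsCurve n g) (L : Lift pe g d p) (b : Bool) (z₁ : ℂ)
    (i j : Fin (N + 1)) : ∃ R : ℂ → Model n → ℂ,
      (∀ h : ℂ → Model n, AnalyticAt ℂ h z₁ → AnalyticAt ℂ (fun t => R t (h t)) z₁) ∧
      (∀ t (c : ℂ) v, R t (c • v) = c * R t v) ∧
      ∀ s : Bool → ℂ → Model n, ∀ᶠ t in 𝓝 z₁,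
        Bv L s i j b t = R t (sc (g b z₁) (g b) (s b) t) := by
  set x := g b z₁ with hx
  have hzx : g b z₁ ∈ (chartAt (Model n) x).source := mem_chart_source _ _
  have hqx : g b z₁ ∈ pe.nbhd x := pe.mem_nbhd _
  have hbase : ContMDiffAt 𝓘(ℂ, ℂ) (mI n) ω (g b) z₁ := hg.hol b z₁
  have hγ : AnalyticAt ℂ (gc n x (g b)) z₁ := gc_analytic hbase hzx
  have hK : AnalyticAt ℂ (Kpe pe x x) (gc n x (g b) z₁) := Kpe_analytic pe hzx hqx
  have hKg : AnalyticAt ℂ (fun t => Kpe pe x x (gc n x (g b) t)) z₁ := hK.comp hγ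
  have hKi : ∀ i, AnalyticAt ℂ (fun t => Kpe pe x x (gc n x (g b) t) i) z₁ := fun i =>
    ((ContinuousLinearMap.proj (R := ℂ) (φ := fun _ : Fin (N + 1) => ℂ) i).analyticAt _).comp hKg
  have hDK : AnalyticAt ℂ (fun t => fderiv ℂ (Kpe pe x x) (gc n x (g b) t)) z₁ :=
    hK.fderiv.comp hγ
  have hKz : ∀ t, g b t ∈ (chartAt (Model n) x).source →
      Kpe pe x x (gc n x (g b) t) = pe.coords x (g b t) := by
    intro t ht
    show pe.coords x ((chartAt (Model n) x).symm (chartAt (Model n) x (g b t))) = _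
    rw [(chartAt (Model n) x).left_inv ht]
  -- a nonvanishing coordinate
  obtain ⟨i₀, hi₀⟩ : ∃ i₀, Kpe pe x x (gc n x (g b) z₁) i₀ ≠ 0 := by
    have := pe.ne_zero x (g b z₁) hqx
    rw [← hKz z₁ hzx] at this
    exact Function.ne_iff.1 this
  have hpi : AnalyticAt ℂ (fun t => p b t i₀) z₁ := by
    have h1 : AnalyticAt ℂ (p b) z₁ := (L.diff b).analyticAt z₁
    exact ((ContinuousLinearMap.proj (R := ℂ) (φ := fun _ : Fin (N + 1) => ℂ) i₀).analyticAt
      _).comp h1
  have hcan : AnalyticAt ℂ (fun t => p b t i₀ / Kpe pe x x (gc n x (g b) t) i₀) z₁ :=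
    hpi.div (hKi i₀) hi₀
  refine ⟨fun t v => (p b t i₀ / Kpe pe x x (gc n x (g b) t) i₀) ^ 2 *
    (Kpe pe x x (gc n x (g b) t) i * (fderiv ℂ (Kpe pe x x) (gc n x (g b) t) v) j
      - Kpe pe x x (gc n x (g b) t) j * (fderiv ℂ (Kpe pe x x) (gc n x (g b) t) v) i), ?_, ?_, ?_⟩
  · intro h hh
    have h1 := L3.analyticAt_clm_apply hDK hh
    have h2 : ∀ i, AnalyticAt ℂ (fun t => (fderiv ℂ (Kpe pe x x) (gc n x (g b) t) (h t)) i) z₁ :=
      fun i => ((ContinuousLinearMap.proj (R := ℂ) (φ := fun _ : Fin (N + 1) => ℂ) i).analyticAt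
        _).comp h1
    exact (hcan.pow 2).mul (((hKi i).mul (h2 j)).sub ((hKi j).mul (h2 i)))
  · intro t c v
    simp only [map_smul, Pi.smul_apply, smul_eq_mul]
    ring
  · intro s
    have hne : ∀ᶠ t in 𝓝 z₁, Kpe pe x x (gc n x (g b) t) i₀ ≠ 0 :=
      (hKi i₀).continuousAt.eventually_ne hi₀
    have hnb : ∀ᶠ t in 𝓝 z₁, g b t ∈ pe.nbhd x :=
      hbase.continuousAt.eventually ((pe.isOpen_nbhd x).mem_nhds hqx)
    filter_upwards [hne, hnb, eventually_mem_source hbase.continuousAt hzx] with t h1 h2 h3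
    have h4 := hKz t h3
    obtain ⟨c, _, hc⟩ := (L.onX b t).exists_coords h2
    have h5 : c = p b t i₀ / Kpe pe x x (gc n x (g b) t) i₀ := by
      rw [eq_div_iff h1, hc, ← h4]; rfl
    rw [Bv_eq L s i j b h2 hc, h5]
    unfold wd
    rw [Dc_chart pe (s b) h3 h2, h4]

theorem Bv_differentiable (hg : IsCurve n g) (L : Lift pe g d p) {s : Bool → ℂ → Model n}
    (hs : IsSec n g s) (i j : Fin (N + 1)) (b : Bool) : Differentiable ℂ (Bv L s i j b) := by
  intro z₁
  obtain ⟨R, hR1, -, hR3⟩ := Bv_local hg L b z₁ i j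
  have h1 := hR1 _ ((hs.hol b z₁).sc_analytic (mem_chart_source _ _))
  exact h1.differentiableAt.congr_of_eventuallyEq (hR3 s)

end lift

end Crest.Agent.R266.St4
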