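import Mathlib
import Crest.Prelude.Def_TangentSplitting
import Crest.Agent.R266.Chart
import Crest.Agent.R266.A.St4Defs
import Crest.Agent.R266.A.SecCalc
import Crest.Agent.R266.A.Nab
import Crest.Agent.R266.A.OrdBound
import Crest.Agent.R266.L3a
import Crest.Agent.R266.Emb
import Crest.Agent.R266.PdAn
import Crest.Agent.R266.P1PolyX

/-!
R266 / A / GoodE1 (helper609): along a rational curve tangent to `E₁` a global section of
`g^* E₂` with a zero vanishes identically; `E₁` is good.
-/

set_option autoImplicit false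

open scoped Manifold ContDiff Topology
open Set Filter
open Crest.AlgGeometry.HolSplit
open Crest.Agent.R266.Rat Crest.Agent.R266.Emb

namespace Crest.Agent.R266.St4

variable {n N : ℕ} {X : Type} [TopologicalSpace X] [ChartedSpace (Model n) X]
  [IsManifold (mI n) ω X]

theorem sec_zero_of_order {pe : ProjEmbedding n X N} {g : Bool → ℂ → X} {d : ℕ}
    {p : Bool → ℂ → CN N} (hg : IsCurve n g) (L : Lift pe g d p) {s : Bool → ℂ → Model n}
    (hs : IsSec n g s) (b₀ : Bool) (z₀ : ℂ) (h : ((2 * d + 1 : ℕ) : ℕ∞) ≤ ordS g s b₀ z₀) :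
    ∀ b z, s b z = 0 := by
  have hσ : AnalyticAt ℂ (sc (g b₀ z₀) (g b₀) (s b₀)) z₀ :=
    (hs.hol b₀ z₀).sc_analytic (mem_chart_source _ _)
  obtain ⟨a, ha, haσ⟩ := (natCast_le_analyticOrderAt hσ).1 h
  have hB0 : ∀ i j z, Bv L s i j b₀ z = 0 := by
    intro i j
    obtain ⟨R, hR1, hR2, hR3⟩ := Bv_local hg L b₀ z₀ i j
    have hd0 := Bv_differentiable hg L hs i j b₀
    have hd1 := Bv_differentiable hg L hs i j (!b₀)
    -- bound of the other chart on the unit disc
    obtain ⟨C, hC⟩ := (isCompact_closedBall (0 : ℂ) 1).exists_bound_of_continuousOn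
      hd1.continuous.continuousOn
    refine L3.eq_zero_of_growth (C := C) (m := 2 * d) hd0 ?_ (hR1 a ha) (z₀ := z₀) ?_
    · intro z hz
      have hz0 : z ≠ 0 := by
        intro h; rw [h, norm_zero] at hz; linarith
      have h1 := Bv_glue hg L hs i j (!b₀) (z := z) hz0
      rw [Bool.not_not] at h1
      rw [h1, norm_mul, norm_pow, mul_comm]
      refine mul_le_mul_of_nonneg_right (hC _ ?_) (by positivity)
      rw [mem_closedBall_zero_iff, norm_inv]
      exact inv_le_one_of_one_le₀ hz
    · filter_upwards [hR3 s, haσ] with t h1 h2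
      rw [h1, h2, hR2, smul_eq_mul]
  have hB1 : ∀ i j z, Bv L s i j (!b₀) z = 0 := by
    intro i j
    have hd1 := Bv_differentiable hg L hs i j (!b₀)
    have h1 : ∀ z, z ≠ 0 → Bv L s i j (!b₀) z = 0 := by
      intro z hz
      rw [Bv_glue hg L hs i j b₀ hz, hB0, mul_zero]
    intro z
    by_cases hz : z = 0
    · subst hz
      have h2 : Tendsto (Bv L s i j (!b₀)) (𝓝[≠] 0) (𝓝 (Bv L s i j (!b₀) 0)) :=
        (hd1.continuous.tendsto 0).mono_left nhdsWithin_le_nhds
      have h3 : Tendsto (Bv L s i j (!b₀)) (𝓝[≠] 0) (𝓝 0) := by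
        refine tendsto_const_nhds.congr' ?_
        filter_upwards [self_mem_nhdsWithin] with z hz using (h1 z hz).symm
      exact tendsto_nhds_unique h2 h3
    · exact h1 z hz
  intro b z
  refine eq_zero_of_wd pe (s b) (pe.mem_nbhd (g b z)) fun i j => ?_
  have h1 : Bv L s i j b z = 0 := by
    rcases Bool.eq_or_eq_not b b₀ with rfl | rfl
    · exact hB0 i j z
    · exact hB1 i j z
  unfold Bv at h1
  exact (mul_eq_zero.1 h1).resolve_left (pow_ne_zero _ (scal_ne L b z))

theorem exists_lift_curve (pe : ProjEmbedding n X N) {g : Bool → ℂ → X} (hg : IsCurve n g) :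
    ∃ (d : ℕ) (p : Bool → ℂ → CN N), Lift pe g d p := by
  obtain ⟨d, q, hq, hl⟩ := P1.p1_poly_onX pe (g false) (g true) (hg.hol false) (hg.hol true)
    (fun z hz => hg.glue false z hz)
  have hdiff : ∀ q : Cf N d, Differentiable ℂ (pev q) := by
    intro q
    rw [differentiable_pi]
    intro i
    unfold pev
    fun_prop
  refine ⟨d, fun b => if b then pev (revc q) else pev q, ?_, ?_, ?_⟩
  · intro b
    cases b
    · simpa using hdiff q
    · simpa using hdiff (revc q)
  · intro b z hz
    cases b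
    · simpa using pev_revc q hz
    · have := pev_revc (revc q) hz
      rw [revc_revc] at this
      simpa using this
  · intro b z
    cases b
    · simpa using hq z
    · simp only [if_true]
      by_cases hz : z = 0
      · subst hz
        have : pev (revc q) 0 = fun i => q i (Fin.last d) := by
          funext i
          unfold pev revc
          rw [Finset.sum_eq_single (0 : Fin (d + 1))]
          · simp [Fin.rev_zero]
          · intro j _ hj
            have : (j : ℕ) ≠ 0 := fun h => hj (Fin.ext h)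
            simp [this]
          · simp
        rw [this]
        exact hl
      · rw [pev_revc q hz]
        have h1 := (hq z⁻¹).smul (pow_ne_zero d hz)
        have h2 : g true z = g false z⁻¹ := hg.glue false z hz
        rw [h2]
        exact h1

/-- (L3): along a rational curve tangent to `E₁`, a global section of `E₂` with a zero is `0` -/
theorem sec_zero (pe : ProjEmbedding n X N) (S : Splitting n X) {g : Bool → ℂ → X}
    (hg : IsCurve n g) (hv : ∀ b z, pr S (g b z) (vel n (g b) z) = vel n (g b) z)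
    {s : Bool → ℂ → Model n} (hs : IsSec n g s) (h2 : ∀ b z, pr S (g b z) (s b z) = 0)
    {b₀ : Bool} {z₀ : ℂ} (h0 : s b₀ z₀ = 0) : ∀ b z, s b z = 0 := by
  classical
  obtain ⟨d, p, L⟩ := exists_lift_curve pe hg
  by_contra hne
  -- sections with a zero of exact order `K` at the point
  let Q : ℕ → Prop := fun K => K ≠ 0 ∧ ∃ s : Bool → ℂ → Model n, IsSec n g s ∧
    (∀ b z, pr S (g b z) (s b z) = 0) ∧ ordS g s b₀ z₀ = K
  have hbd : ∀ K, Q K → K ≤ 2 * d := by
    rintro K ⟨hK, s, hs, hs2, hord⟩
    by_contra hlt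
    push Not at hlt
    have h1 := sec_zero_of_order hg L hs b₀ z₀ (by rw [hord]; exact_mod_cast hlt)
    have h3 : ordS g s b₀ z₀ = ⊤ := by
      unfold ordS
      rw [analyticOrderAt_eq_top]
      refine Eventually.of_forall fun z => ?_
      unfold sc
      rw [h1, map_zero]
    rw [h3] at hord
    exact ENat.top_ne_natCast K hord
  have hstep : ∀ K, Q K → Q (K + 1) := by
    rintro K ⟨hK, s, hs, hs2, hord⟩
    exact ⟨Nat.succ_ne_zero K, raise S g s b₀ z₀, isSec_raise S hg hv hs b₀ z₀,
      pr_raise S hg hv s b₀ z₀, ordS_raise S hv hs hs2 b₀ z₀ hK hord⟩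
  -- the order of `s`
  obtain ⟨K, hK⟩ : ∃ K : ℕ, ordS g s b₀ z₀ = K := by
    by_cases ht : ordS g s b₀ z₀ = ⊤
    · exact absurd (sec_zero_of_order hg L hs b₀ z₀ (by rw [ht]; exact le_top)) hne
    · exact ⟨(ordS g s b₀ z₀).toNat, (ENat.natCast_toNat ht).symm⟩
  have hK0 : K ≠ 0 := by
    rintro rfl
    have hσ : AnalyticAt ℂ (sc (g b₀ z₀) (g b₀) (s b₀)) z₀ :=
      (hs.hol b₀ z₀).sc_analytic (mem_chart_source _ _)
    have h1 : sc (g b₀ z₀) (g b₀) (s b₀) z₀ ≠ 0 := by
      rw [← hσ.analyticOrderAt_eq_zero]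
      exact_mod_cast hK
    apply h1
    unfold sc
    rw [h0, map_zero]
  have hall : ∀ m, Q (K + m) := by
    intro m
    induction m with
    | zero => exact ⟨hK0, s, hs, h2, hK⟩
    | succ m ih => exact hstep _ ih
  have := hbd _ (hall (2 * d + 1))
  omega

end Crest.Agent.R266.St4
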