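import Mathlib
import Crest.Prelude.Def_TangentSplitting
import Crest.Agent.R266.Chart
import Crest.Agent.R266.A.St4Defs
import Crest.Agent.R266.A.SecCalc
import Crest.Agent.R266.A.Nab
import Crest.Agent.R266.A.OrdBound
import Crest.Agent.R266.A.GoodE1

/-!
R266 / A / GoodE1X (helper609): `goodE₁_holds : St_goodE₁ n X`, i.e. `E₁` has a complement by
global sections along rational curves tangent to `E₁`.
-/

set_option autoImplicit false

open scoped Manifold ContDiff Topology
open Set Filter
open Crest.AlgGeometry.HolSplit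

namespace Crest.Agent.R266.St4

variable {n : ℕ} {X : Type} [TopologicalSpace X] [ChartedSpace (Model n) X]
  [IsManifold (mI n) ω X]

/-- the trace as a continuous function of the endomorphism -/
theorem continuous_trace_clm : Continuous (fun A : Model n →L[ℂ] Model n =>
    LinearMap.trace ℂ (Model n) A.toLinearMap) := by
  let L : (Model n →L[ℂ] Model n) →ₗ[ℂ] ℂ :=
    (LinearMap.trace ℂ (Model n)).comp (ContinuousLinearMap.coeLM ℂ)
  exact L.continuous_of_finiteDimensional

theorem trace_pr_eq (S : Splitting n X) {x₀ : X} {g : ℂ → X} {z : ℂ}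
    (hz : g z ∈ (chartAt (Model n) x₀).source) :
    LinearMap.trace ℂ (Model n) (pr S (g z)).toLinearMap =
      LinearMap.trace ℂ (Model n) (Pc S x₀ (gc n x₀ g z)).toLinearMap := by
  have hsymm : (chartAt (Model n) x₀).symm (gc n x₀ g z) = g z :=
    (chartAt (Model n) x₀).left_inv hz
  set T : Model n →ₗ[ℂ] Model n := (tcc (g z) x₀ (g z)).toLinearMap
  set T' : Model n →ₗ[ℂ] Model n := (tcc x₀ (g z) (g z)).toLinearMap
  set A : Model n →ₗ[ℂ] Model n := (pr S (g z)).toLinearMap
  have h1 : (Pc S x₀ (gc n x₀ g z)).toLinearMap = T ∘ₗ (A ∘ₗ T') := by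
    ext1 v
    show Pc S x₀ (gc n x₀ g z) v = tcc (g z) x₀ (g z) (pr S (g z) (tcc x₀ (g z) (g z) v))
    rw [Pc_apply, hsymm]
  have h2 : T' ∘ₗ T = LinearMap.id := by
    ext1 v
    exact tcc_cancel' hz v
  rw [h1, LinearMap.trace_comp_comm', LinearMap.comp_assoc, h2, LinearMap.comp_id]

theorem continuous_trace_pr (S : Splitting n X) {g : ℂ → X}
    (hg : ContMDiff 𝓘(ℂ, ℂ) (mI n) ω g) :
    Continuous (fun z => LinearMap.trace ℂ (Model n) (pr S (g z)).toLinearMap) := by
  rw [continuous_iff_continuousAt]
  intro z₀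
  have hz := mem_chart_source (Model n) (g z₀)
  have h1 : ContinuousAt (fun z => LinearMap.trace ℂ (Model n)
      (Pc S (g z₀) (gc n (g z₀) g z)).toLinearMap) z₀ :=
    ContinuousAt.comp (f := fun z => Pc S (g z₀) (gc n (g z₀) g z))
      (g := fun A : Model n →L[ℂ] Model n => LinearMap.trace ℂ (Model n) A.toLinearMap)
      continuous_trace_clm.continuousAt (Pc_gc_analytic S (hg z₀) hz).continuousAt
  refine h1.congr ?_
  filter_upwards [eventually_mem_source (hg z₀).continuousAt hz] with z hz'
  exact (trace_pr_eq S hz').symm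

theorem isProj_pr (S : Splitting n X) (x : X) :
    LinearMap.IsProj (LinearMap.range (pr S x).toLinearMap) (pr S x).toLinearMap := by
  refine ⟨fun v => ⟨v, rfl⟩, ?_⟩
  rintro _ ⟨v, rfl⟩
  exact pr_idem S x v

theorem trace_pr (S : Splitting n X) (x : X) :
    LinearMap.trace ℂ (Model n) (pr S x).toLinearMap =
      (Module.finrank ℂ (LinearMap.range (pr S x).toLinearMap) : ℂ) :=
  (isProj_pr S x).trace

theorem norm_natCast_sub (a b : ℕ) : ‖(a : ℂ) - (b : ℂ)‖ = |(a : ℝ) - (b : ℝ)| := by
  have h : ((a : ℂ) - (b : ℂ)) = (((a : ℝ) - (b : ℝ) : ℝ) : ℂ) := by push_cast; rfl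
  rw [h, Complex.norm_real, Real.norm_eq_abs]

/-- the rank of `E₁` is constant along a curve -/
theorem finrank_range_const (S : Splitting n X) {g : Bool → ℂ → X} (hg : IsCurve n g)
    (b b' : Bool) (z z' : ℂ) : Module.finrank ℂ (LinearMap.range (pr S (g b z)).toLinearMap) =
      Module.finrank ℂ (LinearMap.range (pr S (g b' z')).toLinearMap) := by
  have h1 : ∀ b, ∀ z z', Module.finrank ℂ (LinearMap.range (pr S (g b z)).toLinearMap) =
      Module.finrank ℂ (LinearMap.range (pr S (g b z')).toLinearMap) := by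
    intro b z z'
    have hlc : IsLocallyConstant
        (fun z => Module.finrank ℂ (LinearMap.range (pr S (g b z)).toLinearMap)) := by
      rw [IsLocallyConstant.iff_eventually_eq]
      intro z₀
      have h2 := (continuous_trace_pr S (hg.hol b)).tendsto z₀
      have h3 := h2.eventually (Metric.ball_mem_nhds _ (show (0 : ℝ) < 1 by norm_num))
      filter_upwards [h3] with z hz
      rw [trace_pr, trace_pr, dist_eq_norm] at hz
      by_contra hne
      have h4 : (1 : ℝ) ≤ |(Module.finrank ℂ (LinearMap.range (pr S (g b z)).toLinearMap) : ℝ) -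
          (Module.finrank ℂ (LinearMap.range (pr S (g b z₀)).toLinearMap) : ℝ)| := by
        have h5 : (1 : ℤ) ≤ |(Module.finrank ℂ (LinearMap.range (pr S (g b z)).toLinearMap) : ℤ) -
          (Module.finrank ℂ (LinearMap.range (pr S (g b z₀)).toLinearMap) : ℤ)| := by
          apply Int.one_le_abs
          intro h6
          exact hne (by omega)
        exact_mod_cast h5
      have h6 : ‖(Module.finrank ℂ (LinearMap.range (pr S (g b z)).toLinearMap) : ℂ) -
          (Module.finrank ℂ (LinearMap.range (pr S (g b z₀)).toLinearMap) : ℂ)‖ =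
          |(Module.finrank ℂ (LinearMap.range (pr S (g b z)).toLinearMap) : ℝ) -
          (Module.finrank ℂ (LinearMap.range (pr S (g b z₀)).toLinearMap) : ℝ)| := by
        exact norm_natCast_sub _ _
      rw [h6] at hz
      linarith
    exact hlc.apply_eq_of_preconnectedSpace z z'
  have h2 : g (!b) 1 = g b 1 := by
    have := hg.glue b 1 one_ne_zero
    rwa [inv_one] at this
  rcases Bool.eq_or_eq_not b' b with rfl | rfl
  · exact h1 _ _ _
  · rw [h1 b z 1, h1 (!b) z' 1, h2]

theorem finrank_ker_const (S : Splitting n X) {g : Bool → ℂ → X} (hg : IsCurve n g)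
    (b b' : Bool) (z z' : ℂ) : Module.finrank ℂ (LinearMap.ker (pr S (g b z)).toLinearMap) =
      Module.finrank ℂ (LinearMap.ker (pr S (g b' z')).toLinearMap) := by
  have h1 := LinearMap.finrank_range_add_finrank_ker (pr S (g b z)).toLinearMap
  have h2 := LinearMap.finrank_range_add_finrank_ker (pr S (g b' z')).toLinearMap
  have h3 := finrank_range_const S hg b b' z z'
  omega

theorem sum_apply_sec' {ι : Type*} (f : Finset ι) (s : ι → Bool → ℂ → Model n) (b : Bool)
    (z : ℂ) : (∑ i ∈ f, s i) b z = ∑ i ∈ f, s i b z := by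
  rw [Finset.sum_apply, Finset.sum_apply]

/-- `E₁` is good along rational curves tangent to `E₁` -/
theorem goodE₁_holds (n : ℕ) (X : Type) [TopologicalSpace X] [T2Space X]
    [ChartedSpace (Model n) X] [IsManifold (mI n) ω X] : St_goodE₁ n X := by
  classical
  rintro S ⟨N, ⟨pe⟩⟩ g hg hvel ⟨b₁, z₁, hspan⟩
  have hv : ∀ b z, pr S (g b z) (vel n (g b) z) = vel n (g b) z := by
    intro b z
    obtain ⟨v, hv⟩ := hvel b z
    have h1 : pr S (g b z) (v : Model n) = vel n (g b) z := hv
    have h2 := pr_idem S (g b z) (v : Model n)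
    rw [h1] at h2
    exact h2
  set x₁ := g b₁ z₁ with hx₁
  set K₁ : Submodule ℂ (Model n) := LinearMap.ker (pr S x₁).toLinearMap with hK₁
  set q := Module.finrank ℂ K₁ with hq
  let e : Module.Basis (Fin q) ℂ K₁ := Module.finBasis ℂ K₁
  -- sections through the basis of `E₂`
  have hex : ∀ j : Fin q, ∃ s : Bool → ℂ → Model n, IsSec n g s ∧
      (∀ b z, pr S (g b z) (s b z) = 0) ∧ s b₁ z₁ = (e j : Model n) := by
    intro j
    obtain ⟨t, ht, -, htv⟩ := hspan (e j : Model n) trivial
    refine ⟨t + (-1 : ℂ) • (fun b z => pr S (g b z) (t b z)),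
      isSec_add ht (isSec_smul (-1) (isSec_proj S hg ht)), ?_, ?_⟩
    · intro b z
      simp only [Pi.add_apply, Pi.smul_apply]
      rw [map_add, map_smul, pr_idem]
      simp
    · simp only [Pi.add_apply, Pi.smul_apply]
      have h1 : pr S (g b₁ z₁) (e j : Model n) = 0 := (e j).2
      have h2 : t b₁ z₁ = (e j : Model n) := htv
      rw [h2, h1, smul_zero, add_zero]
  choose τ hτ hτ0 hτe using hex
  have hindep : ∀ b z, LinearIndependent ℂ (fun j => τ j b z) := by
    intro b z
    rw [Fintype.linearIndependent_iff]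
    intro c hc j
    have hsec : IsSec n g (∑ j, c j • τ j) :=
      isSec_sum_all Finset.univ hg (fun i _ => isSec_smul (c i) (hτ i))
    have h2 : ∀ b z, pr S (g b z) ((∑ j, c j • τ j) b z) = 0 := by
      intro b z
      rw [sum_apply_sec', map_sum]
      refine Finset.sum_eq_zero fun i _ => ?_
      simp only [Pi.smul_apply]
      rw [map_smul, hτ0, smul_zero]
    have h0 : (∑ j, c j • τ j) b z = 0 := by
      rw [sum_apply_sec']
      exact hc
    have h3 := sec_zero pe S hg hv hsec h2 h0 b₁ z₁
    rw [sum_apply_sec'] at h3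
    have h4 : ∑ j, c j • (e j : Model n) = 0 := by
      rw [← h3]
      refine Finset.sum_congr rfl fun i _ => ?_
      simp only [Pi.smul_apply, hτe]
    have h5 : ∑ j, c j • e j = 0 := by
      apply Subtype.ext
      simpa using h4
    exact Fintype.linearIndependent_iff.1 e.linearIndependent c h5 j
  refine ⟨q, τ, hτ, fun b z => ⟨hindep b z, ?_⟩⟩
  have hspan_eq : Submodule.span ℂ (Set.range fun j => τ j b z)
      = LinearMap.ker (pr S (g b z)).toLinearMap := by
    apply Submodule.eq_of_le_of_finrank_eq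
    · rw [Submodule.span_le]
      rintro _ ⟨j, rfl⟩
      exact hτ0 j b z
    · rw [finrank_span_eq_card (hindep b z), Fintype.card_fin, hq, hK₁, hx₁]
      exact finrank_ker_const S hg b₁ b z₁ z
  have hcompl : IsCompl (LinearMap.range (pr S (g b z)).toLinearMap)
      (Submodule.span ℂ (Set.range fun j => τ j b z)) := by
    rw [hspan_eq]
    exact (isProj_pr S (g b z)).isCompl
  exact hcompl

end Crest.Agent.R266.St4
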