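import Mathlib
import Crest.Agent.R266.Chart3
import Crest.Agent.R266.A.Iface404

/-!
R266 / A / Ident (helper35): the identity theorem node of S0404.
-/

set_option autoImplicit false

open scoped Manifold ContDiff Topology
open Set Metric Filter
open Crest.AlgGeometry.HolSplit

namespace Crest.Agent.R266.F404

theorem ident_holds (n : ℕ) (X : Type) [TopologicalSpace X] [T2Space X]
    [SecondCountableTopology X] [CompactSpace X] [ConnectedSpace X] [ChartedSpace (Model n) X]
    [IsManifold (mI n) ω X] : St_ident n X := fun S _U hU hne =>
  ⟨fun h => firstIntegrable_of_open S hU hne h, fun h => secondIntegrable_of_open S hU hne h⟩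

end Crest.Agent.R266.F404
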