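import Crest.Agent.R266.A.St4Coeff

/-! R266 / A / St4Coeff2 (helper576): `St_coeff`. -/

set_option autoImplicit false

open scoped Manifold ContDiff Topology
open Set Filter
open Crest.AlgGeometry.HolSplit

namespace Crest.Agent.R266.St4

section la

variable {M : Type*} [AddCommGroup M] [Module ℂ M]

/-- pointwise statement: coefficients exist -/
theorem exists_coeff {S : Submodule ℂ M} {q : ℕ} {t : Fin q → M}
    (hc : IsCompl S (Submodule.span ℂ (Set.range t)))
    (β : M) : ∃ c : Fin q → ℂ, β - ∑ j, c j • t j ∈ S := by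
  have h1 : β ∈ S ⊔ Submodule.span ℂ (Set.range t) := by
    rw [hc.sup_eq_top]; trivial
  obtain ⟨h, hh, u, hu, hsum⟩ := Submodule.mem_sup.1 h1
  obtain ⟨c, hc'⟩ := (Submodule.mem_span_range_iff_exists_fun ℂ).1 hu
  refine ⟨c, ?_⟩
  have : β - ∑ j, c j • t j = h := by
    rw [hc', ← hsum]
    abel
  rw [this]
  exact hh

theorem coeff_unique {S : Submodule ℂ M} {q : ℕ} {t : Fin q → M}
    (hi : LinearIndependent ℂ t)
    (hc : IsCompl S (Submodule.span ℂ (Set.range t)))
    {β : M} {c c' : Fin q → ℂ} (h : β - ∑ j, c j • t j ∈ S)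
    (h' : β - ∑ j, c' j • t j ∈ S) : c = c' := by
  have h1 : (∑ j, (c' j - c j) • t j) ∈ S := by
    have := S.sub_mem h h'
    have e : (∑ j, (c' j - c j) • t j) =
        β - ∑ j, c j • t j - (β - ∑ j, c' j • t j) := by
      simp only [sub_smul, Finset.sum_sub_distrib]
      abel
    rw [e]
    exact this
  have h2 : (∑ j, (c' j - c j) • t j) ∈ Submodule.span ℂ (Set.range t) :=
    Submodule.sum_mem _ fun j _ => Submodule.smul_mem _ _ (Submodule.subset_span ⟨j, rfl⟩)
  have h3 : (∑ j, (c' j - c j) • t j) = 0 :=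
    Submodule.disjoint_def.1 hc.disjoint _ h1 h2
  have h4 := Fintype.linearIndependent_iff.1 hi _ h3
  funext j
  have := h4 j
  exact (sub_eq_zero.1 this).symm

end la

variable {n : ℕ} {X : Type} [TopologicalSpace X] [ChartedSpace (Model n) X]

/-- a distribution as a subspace of the model space -/
noncomputable def toM (H : Dist n X) (x : X) : Submodule ℂ (Model n) := H x

/-- a vector field with values in the model space -/
noncomputable def vv (V : (x : X) → TangentSpace (mI n) x) (x : X) : Model n := V x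

theorem isCompl_iff {H : Dist n X} {x : X} {q : ℕ} {t : Fin q → Model n} :
    IsCompl (H x) (Submodule.span ℂ (Set.range fun j => (t j : TangentSpace (mI n) x))) ↔
    IsCompl (toM H x) (Submodule.span ℂ (Set.range t)) := Iff.rfl

theorem span_iff {H : Dist n X} {x : X} {k : ℕ} {V : Fin k → (x : X) → TangentSpace (mI n) x} :
    Submodule.span ℂ (Set.range fun i => V i x) = H x ↔
      Submodule.span ℂ (Set.range fun i => vv (V i) x) = toM H x := Iff.rfl

theorem li_iff {x : X} {k : ℕ} {V : Fin k → (x : X) → TangentSpace (mI n) x} :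
    LinearIndependent ℂ (fun i => V i x) ↔ LinearIndependent ℂ (fun i => vv (V i) x) :=
  Iff.rfl

variable [IsManifold (mI n) ω X]

theorem coeff_holds [T2Space X] : St_coeff n X := by
  intro U H g q τ β hH hg hU hτ hcomp hβ hglue
  have hcomp' : ∀ b z, LinearIndependent ℂ (fun j => τ j b z) ∧
      IsCompl (toM H (g b z)) (Submodule.span ℂ (Set.range fun j => τ j b z)) := hcomp
  have hβ' : ∀ b z, ∃ s : ℂ → Model n, HolAt n (g b) s z ∧
    ∀ᶠ t in 𝓝 z, s t - β b t ∈ toM H (g b t) := hβ
  have hglue' : ∀ b z, z ≠ 0 → β (!b) z - β b z⁻¹ ∈ toM H (g b z⁻¹) := hglue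
  choose c hc using fun b z => exists_coeff (hcomp' b z).2 (β b z)
  have huniq : ∀ b z (c' : Fin q → ℂ), β b z - ∑ j, c' j • τ j b z ∈ toM H (g b z) →
      c b z = c' :=
    fun b z c' h => coeff_unique (hcomp' b z).1 (hcomp' b z).2 (hc b z) h
  have han : ∀ b z, AnalyticAt ℂ (c b) z := by
    intro b z
    obtain ⟨s, hs, hsβ⟩ := hβ' b z
    obtain ⟨O, k, V, hxO, hOU, hV⟩ := hH.2 (g b z) (hU b z)
    have hgz : ContMDiffAt 𝓘(ℂ, ℂ) (mI n) ω (g b) z := hg.hol b z
    have hO : ∀ᶠ t in 𝓝 z, g b t ∈ O := hgz.continuousAt.preimage_mem_nhds (hV.isOpen.mem_nhds hxO)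
    have hex : ∀ t, ∃ a : Fin k → ℂ, (g b t ∈ O → s t - β b t ∈ toM H (g b t) →
        s t = ∑ i, a i • vv (V i) (g b t) + ∑ j, c b t j • τ j b t) := by
      intro t
      by_cases h : g b t ∈ O ∧ s t - β b t ∈ toM H (g b t)
      · have h1 : s t - ∑ j, c b t j • τ j b t ∈ toM H (g b t) := by
          have := (toM H (g b t)).add_mem h.2 (hc b t)
          have e : s t - β b t + (β b t - ∑ j, c b t j • τ j b t) =
            s t - ∑ j, c b t j • τ j b t := by abel
          rwa [e] at this
        have h2 : s t - ∑ j, c b t j • τ j b t ∈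
            Submodule.span ℂ (Set.range fun i => vv (V i) (g b t)) := by
          rw [span_iff.1 (hV.span _ h.1)]; exact h1
        obtain ⟨a, ha⟩ := (Submodule.mem_span_range_iff_exists_fun ℂ).1 h2
        refine ⟨a, fun _ _ => ?_⟩
        rw [ha]; abel
      · exact ⟨0, fun h1 h2 => absurd ⟨h1, h2⟩ h⟩
    choose a ha using hex
    have key : AnalyticAt ℂ (fun t => Sum.elim (a t) (c b t)) z := by
      refine coeff_along (g := g b) (e := Sum.elim (fun i t => vv (V i) (g b t))
        (fun j t => τ j b t)) (s := s) ?_ hs ?_ _ ?_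
      · rintro (i | j)
        · exact holAt_field hV.isOpen (hV.hol i) hxO hgz
        · exact (hτ j).hol b z
      · have h1 : LinearIndependent ℂ (fun i => vv (V i) (g b z)) := hV.indep _ hxO
        have h2 := (hcomp' b z).1
        have h3 : Disjoint (Submodule.span ℂ (Set.range fun i => vv (V i) (g b z)))
            (Submodule.span ℂ (Set.range fun j => τ j b z)) := by
          rw [span_iff.1 (hV.span _ hxO)]
          exact (hcomp' b z).2.disjoint
        have h4 := LinearIndependent.sum_type h1 h2 h3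
        have h5 : (fun i => (Sum.elim (fun i t => vv (V i) (g b t))
            (fun j t => τ j b t) : Fin k ⊕ Fin q → ℂ → Model n) i z) =
            Sum.elim (fun i => vv (V i) (g b z)) (fun j => τ j b z) := by
          funext i
          rcases i with i | j <;> rfl
        rw [h5]
        exact h4
      · filter_upwards [hO, hsβ] with t h1 h2
        rw [ha t h1 h2]
        simp
    have h5 : AnalyticAt ℂ (fun t => (ContinuousLinearMap.pi fun j : Fin q =>
        ContinuousLinearMap.proj (R := ℂ) (φ := fun _ : Fin k ⊕ Fin q => ℂ) (Sum.inr j))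
        (Sum.elim (a t) (c b t))) z :=
      (ContinuousLinearMap.analyticAt _ _).comp key
    refine h5.congr (Eventually.of_forall fun t => ?_)
    funext j
    simp
  have hgl : ∀ b z, z ≠ 0 → c (!b) z = c b z⁻¹ := by
    intro b z hz
    refine huniq (!b) z _ ?_
    have hgg := hg.glue b z hz
    have h1 : β (!b) z - ∑ j, c b z⁻¹ j • τ j (!b) z ∈ toM H (g b z⁻¹) := by
      have h3 := (toM H (g b z⁻¹)).add_mem (hglue' b z hz) (hc b z⁻¹)
      have e : β (!b) z - β b z⁻¹ + (β b z⁻¹ - ∑ j, c b z⁻¹ j • τ j b z⁻¹) =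
          β (!b) z - ∑ j, c b z⁻¹ j • τ j (!b) z := by
        have : ∀ j, τ j (!b) z = τ j b z⁻¹ := fun j => (hτ j).glue b z hz
        simp only [this]
        abel
      rwa [e] at h3
    rw [hgg]
    exact h1
  have hconst : ∀ j, ∃ a, ∀ b z, c b z j = a := by
    intro j
    refine liouville_P1 (fun b z => c b z j) ?_ ?_
    · intro b z
      have : DifferentiableAt ℂ (c b) z := (han b z).differentiableAt
      exact (differentiableAt_pi.1 this) j
    · intro b z hz
      exact congrFun (hgl b z hz) j
  choose a ha using hconst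
  refine ⟨a, fun b z => ?_⟩
  have h := hc b z
  have e : c b z = a := funext fun j => ha j b z
  rw [e] at h
  exact h

end Crest.Agent.R266.St4
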