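import Mathlib
import Crest.Agent.R266.A.St4Defs
import Crest.Agent.R266.A.St4Coeff2

/-!
R266 / A / KerClosed (helper719): `St_kerClosed`.
-/

set_option autoImplicit false

open scoped Manifold ContDiff Topology
open Set Filter
open Crest.AlgGeometry.HolSplit

namespace Crest.Agent.R266.St4

theorem kerClosed_holds (n : ℕ) (X : Type) [TopologicalSpace X] [T2Space X]
    [ChartedSpace (Model n) X] [IsManifold (mI n) ω X] : St_kerClosed n X := by
  intro F G U hK g s z hzU hs hF hG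
  have hF' : ∀ᶠ y in 𝓝 z, s y ∈ toM F (g y) := hF
  have hG' : ∃ᶠ y in 𝓝[≠] z, s y ∈ toM G (g y) := hG
  change ∀ᶠ y in 𝓝 z, s y ∈ toM G (g y)
  obtain ⟨O, k, l, V, Φ, hxO, hOU, hV, hΦc, hΦ⟩ := hK.2 (g z) hzU
  have hΦ' : ∀ y ∈ O, ∀ a : Fin k → ℂ, (∑ i, a i • vv (V i) y) ∈ toM G y ↔ Φ y a = 0 := hΦ
  have hgz : ContMDiffAt 𝓘(ℂ, ℂ) (mI n) ω g z := hs.curve
  have hO : ∀ᶠ t in 𝓝 z, g t ∈ O := hgz.continuousAt.preimage_mem_nhds (hV.isOpen.mem_nhds hxO)
  -- coefficients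
  have hex : ∀ t, ∃ a : Fin k → ℂ, (g t ∈ O → s t ∈ toM F (g t) →
      s t = ∑ i, a i • vv (V i) (g t)) := by
    intro t
    by_cases h : g t ∈ O ∧ s t ∈ toM F (g t)
    · have h2 := h.2
      rw [← span_iff.1 (hV.span _ h.1)] at h2
      obtain ⟨a, ha⟩ := (Submodule.mem_span_range_iff_exists_fun ℂ).1 h2
      exact ⟨a, fun _ _ => ha.symm⟩
    · exact ⟨0, fun h1 h2 => absurd ⟨h1, h2⟩ h⟩
  choose a ha using hex
  have haA : AnalyticAt ℂ a z := by
    refine coeff_along (g := g) (e := fun i t => vv (V i) (g t))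
      (s := s) ?_ hs ?_ a ?_
    · intro i
      exact holAt_field hV.isOpen (hV.hol i) hxO hgz
    · exact hV.indep _ hxO
    · filter_upwards [hO, hF'] with t h1 h2
      exact ha t h1 h2
  have hΦA : AnalyticAt ℂ (fun t => Φ (g t)) z := by
    have h1 : ContMDiffAt (mI n) 𝓘(ℂ, (Fin k → ℂ) →L[ℂ] (Fin l → ℂ)) ω Φ (g z) :=
      (hΦc (g z) hxO).contMDiffAt (hV.isOpen.mem_nhds hxO)
    have h2 := h1.comp z hgz
    rw [contMDiffAt_iff_contDiffAt] at h2
    exact h2.analyticAt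
  have hA : AnalyticAt ℂ (fun t => Φ (g t) (a t)) z := analyticAt_clm_apply' hΦA haA
  have hiff : ∀ᶠ t in 𝓝 z, (s t ∈ toM G (g t) ↔ Φ (g t) (a t) = 0) := by
    filter_upwards [hO, hF'] with t h1 h2
    rw [ha t h1 h2]
    exact hΦ' (g t) h1 (a t)
  have hfreq : ∃ᶠ t in 𝓝[≠] z, Φ (g t) (a t) = 0 := by
    refine (hG'.and_eventually (hiff.filter_mono nhdsWithin_le_nhds)).mono ?_
    rintro t ⟨h1, h2⟩
    exact h2.1 h1
  have hev := hA.frequently_zero_iff_eventually_zero.1 hfreq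
  filter_upwards [hev, hiff] with t h1 h2
  exact h2.2 h1

end Crest.Agent.R266.St4
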