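import Mathlib
import Crest.Agent.R266.A.St4Defs
import Crest.Agent.R266.Chart
import Crest.Agent.R266.Sard

/-!
R266 / A / KerFrame (helper719): tools for `St_kerRank` and `St_kerClosed`
(local frames of kernels of holomorphic matrices, semicontinuity, identity theorem).
-/

set_option autoImplicit false

open scoped Manifold ContDiff Topology
open Set Filter Module
open Crest.AlgGeometry.HolSplit

namespace Crest.Agent.R266.St4.KerFrame

/-! ### linear algebra -/

section linalg

variable {V W : Type*} [NormedAddCommGroup V] [NormedSpace ℂ V] [FiniteDimensional ℂ V]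
  [NormedAddCommGroup W] [NormedSpace ℂ W] [FiniteDimensional ℂ W]

/-- local structure of kernels near `A₀`: there are analytic maps `F i`, independent, whose span
contains the kernel. -/
theorem exists_frame (A₀ : V →L[ℂ] W) :
    ∃ (N : Set (V →L[ℂ] W)) (F : Fin (finrank ℂ (LinearMap.ker A₀.toLinearMap)) → (V →L[ℂ] W) → V),
      IsOpen N ∧ A₀ ∈ N ∧ (∀ i, ContDiffOn ℂ ω (F i) N) ∧
      ∀ A ∈ N, LinearIndependent ℂ (fun i => F i A) ∧
        LinearMap.ker A.toLinearMap ≤ Submodule.span ℂ (range fun i => F i A) := by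
  classical
  set K := LinearMap.ker A₀.toLinearMap with hK
  set R := LinearMap.range A₀.toLinearMap with hR
  obtain ⟨C, hC⟩ := Submodule.exists_isCompl K
  obtain ⟨D, hD⟩ := Submodule.exists_isCompl R
  let π : V →L[ℂ] K := LinearMap.toContinuousLinearMap (Submodule.projectionOnto K C hC)
  let p : W →L[ℂ] R := LinearMap.toContinuousLinearMap (Submodule.projectionOnto R D hD)
  have hπ : ∀ x : K, π (x : V) = x := fun x => Submodule.projectionOnto_apply_left hC x
  have hp : ∀ x : R, p (x : W) = x := fun x => Submodule.projectionOnto_apply_left hD x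
  let M : (V →L[ℂ] W) → (V →L[ℂ] K × R) := fun A =>
    (ContinuousLinearMap.inl ℂ K R).comp π + (ContinuousLinearMap.inr ℂ K R).comp (p.comp A)
  have hM : ∀ A v, M A v = (π v, p (A v)) := by
    intro A v
    change ((π v, 0) : K × R) + (0, p (A v)) = _
    simp
  have hMc : ContDiff ℂ ω M :=
    contDiff_const.add (contDiff_const.clm_comp (contDiff_const.clm_comp contDiff_id))
  have hinj : Function.Injective (M A₀) := by
    rw [injective_iff_map_eq_zero]
    intro v hv
    rw [hM] at hv
    have h1 : π v = 0 := congrArg Prod.fst hv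
    have h2 : p (A₀ v) = 0 := congrArg Prod.snd hv
    have h3 : A₀ v = 0 := by
      have := hp ⟨A₀ v, ⟨v, rfl⟩⟩
      have h4 : (⟨A₀ v, ⟨v, rfl⟩⟩ : R) = 0 := this.symm.trans h2
      exact congrArg Subtype.val h4
    have h5 : v ∈ K := h3
    have := hπ ⟨v, h5⟩
    have h6 : (⟨v, h5⟩ : K) = 0 := this.symm.trans h1
    exact congrArg Subtype.val h6
  have hfin : finrank ℂ V = finrank ℂ (K × R) := by
    rw [finrank_prod]
    have := A₀.toLinearMap.finrank_range_add_finrank_ker
    rw [← hK, ← hR] at this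
    omega
  have hsur : Function.Surjective (M A₀) :=
    (LinearMap.injective_iff_surjective_of_finrank_eq_finrank
      (f := (M A₀).toLinearMap) hfin).1 hinj
  let e0 : V ≃L[ℂ] (K × R) :=
    (LinearEquiv.ofBijective (M A₀).toLinearMap ⟨hinj, hsur⟩).toContinuousLinearEquiv
  have he0 : (e0 : V →L[ℂ] K × R) = M A₀ := by ext <;> rfl
  let b := Module.finBasis ℂ K
  let F : Fin (finrank ℂ K) → (V →L[ℂ] W) → V := fun i A =>
    ContinuousLinearMap.inverse (M A) (b i, 0)
  refine ⟨M ⁻¹' range ((↑) : (V ≃L[ℂ] (K × R)) → _), F, ?_, ?_, ?_, ?_⟩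
  · exact ContinuousLinearEquiv.isOpen.preimage hMc.continuous
  · exact ⟨e0, he0⟩
  · rintro i A ⟨e, he⟩
    have h1 : ContDiffAt ℂ ω ContinuousLinearMap.inverse (M A) := by
      rw [← he]; exact contDiffAt_map_inverse e
    exact ((h1.comp A hMc.contDiffAt).clm_apply contDiffAt_const).contDiffWithinAt
  · rintro A ⟨e, he⟩
    have hie : ContinuousLinearMap.inverse (M A) = (e.symm : (K × R) →L[ℂ] V) := by
      rw [← he, ContinuousLinearMap.inverse_equiv]
    have hF : ∀ i, M A (F i A) = (b i, 0) := by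
      intro i
      have : F i A = e.symm (b i, 0) := by
        change ContinuousLinearMap.inverse (M A) (b i, 0) = _
        rw [hie]; rfl
      rw [this, ← he]
      exact e.apply_symm_apply _
    refine ⟨?_, ?_⟩
    · refine LinearIndependent.of_comp (π : V →ₗ[ℂ] K) ?_
      have : (π : V →ₗ[ℂ] K) ∘ (fun i => F i A) = b := by
        funext i
        have h := hF i
        rw [hM] at h
        exact congrArg Prod.fst h
      rw [this]
      exact b.linearIndependent
    · intro v hv
      have hv' : A v = 0 := hv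
      have h1 : M A v = (π v, 0) := by
        rw [hM, hv', map_zero]
      have h2 : M A v = M A (∑ i, b.repr (π v) i • F i A) := by
        rw [map_sum, h1]
        simp only [map_smul, hF]
        refine Prod.ext ?_ ?_
        · rw [Prod.fst_sum]
          simp
        · rw [Prod.snd_sum]
          simp
      have hinjA : Function.Injective (M A) := by
        rw [← he]; exact e.injective
      rw [hinjA h2]
      exact Submodule.sum_mem _ fun i _ => Submodule.smul_mem _ _ (Submodule.subset_span ⟨i, rfl⟩)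

/-- semicontinuity -/
theorem eventually_finrank_ker_le (A₀ : V →L[ℂ] W) :
    ∀ᶠ A in 𝓝 A₀, finrank ℂ (LinearMap.ker (A : V →L[ℂ] W).toLinearMap) ≤
      finrank ℂ (LinearMap.ker A₀.toLinearMap) := by
  obtain ⟨N, F, hN, h0, -, h⟩ := exists_frame A₀
  filter_upwards [hN.mem_nhds h0] with A hA
  obtain ⟨h1, h2⟩ := h A hA
  refine (Submodule.finrank_mono h2).trans ?_
  rw [finrank_span_eq_card h1]
  simp

/-- identity theorem for kernel dimensions -/
theorem finrank_ker_ge {T : Type*} [NormedAddCommGroup T] [NormedSpace ℂ T] {B O : Set T}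
    (hBc : IsPreconnected B) (hO : IsOpen O) (hOn : O.Nonempty) (hOB : O ⊆ B)
    {L : T → (V →L[ℂ] W)} (hL : AnalyticOnNhd ℂ L B) {r : ℕ}
    (h : ∀ y ∈ O, r ≤ finrank ℂ (LinearMap.ker (L y).toLinearMap)) :
    ∀ y ∈ B, r ≤ finrank ℂ (LinearMap.ker (L y).toLinearMap) := by
  intro y0 hy0
  by_contra hlt
  push Not at hlt
  have hrn := (L y0).toLinearMap.finrank_range_add_finrank_ker
  obtain ⟨s, p, hsp⟩ := SardAux.exists_minor_ne_zero (A := L y0) le_rfl
  have hd : AnalyticOnNhd ℂ (fun y => SardAux.minor s p (L y)) B := by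
    intro y hy
    unfold SardAux.minor
    simp only [Matrix.det_apply]
    apply Finset.analyticAt_fun_sum
    intro σ _
    apply AnalyticAt.const_smul
    apply Finset.analyticAt_fun_prod
    intro i _
    simp only [Matrix.of_apply]
    exact ((p (σ i)).analyticAt _).comp
      (((ContinuousLinearMap.apply ℂ W (s i)).analyticAt _).comp (hL y hy))
  obtain ⟨z, hz⟩ := hOn
  have hzero : (fun y => SardAux.minor s p (L y)) =ᶠ[𝓝 z] 0 := by
    filter_upwards [hO.mem_nhds hz] with y hy
    by_contra hne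
    have h1 := SardAux.le_finrank_of_minor_ne_zero hne
    have h2 := (L y).toLinearMap.finrank_range_add_finrank_ker
    have h3 := h y hy
    omega
  exact hsp (hd.eqOn_zero_of_preconnected_of_eventuallyEq_zero hBc (hOB hz) hzero hy0)

end linalg

/-! ### frames on the manifold -/

section mfd

variable {n : ℕ} {X : Type} [TopologicalSpace X] [ChartedSpace (Model n) X]
  [IsManifold (mI n) ω X]

/-- the linear map given by a frame at a point -/
noncomputable def frMap {k : ℕ} (V : Fin k → (x : X) → TangentSpace (mI n) x) (x : X) :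
    (Fin k → ℂ) →ₗ[ℂ] TangentSpace (mI n) x :=
  Fintype.linearCombination ℂ (fun i => V i x)

theorem frMap_apply {k : ℕ} (V : Fin k → (x : X) → TangentSpace (mI n) x) (x : X)
    (a : Fin k → ℂ) : frMap V x a = ∑ i, a i • V i x := rfl

theorem frMap_injective {F : Dist n X} {O : Set X} {k : ℕ}
    {V : Fin k → (x : X) → TangentSpace (mI n) x} (h : FrameOn F O k V) {x : X} (hx : x ∈ O) :
    Function.Injective (frMap V x) := by
  rw [injective_iff_map_eq_zero]
  intro a ha
  rw [frMap_apply] at ha
  exact funext (Fintype.linearIndependent_iff.1 (h.indep x hx) a ha)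

theorem map_ker_eq {F G : Dist n X} {O : Set X} {k l : ℕ}
    {V : Fin k → (x : X) → TangentSpace (mI n) x} (h : FrameOn F O k V)
    {Φ : X → ((Fin k → ℂ) →L[ℂ] (Fin l → ℂ))}
    (hΦ : ∀ y ∈ O, ∀ a : Fin k → ℂ, (∑ i, a i • V i y) ∈ G y ↔ Φ y a = 0) {x : X} (hx : x ∈ O)
    (hGF : G x ≤ F x) : G x = Submodule.map (frMap V x) (LinearMap.ker (Φ x).toLinearMap) := by
  ext u
  constructor
  · intro hu
    have hu' : u ∈ F x := hGF hu
    rw [← h.span x hx, Submodule.mem_span_range_iff_exists_fun] at hu'
    obtain ⟨a, rfl⟩ := hu'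
    exact ⟨a, (hΦ x hx a).1 hu, rfl⟩
  · rintro ⟨a, ha, rfl⟩
    exact (hΦ x hx a).2 ha

theorem finrank_eq {F G : Dist n X} {O : Set X} {k l : ℕ}
    {V : Fin k → (x : X) → TangentSpace (mI n) x} (h : FrameOn F O k V)
    {Φ : X → ((Fin k → ℂ) →L[ℂ] (Fin l → ℂ))}
    (hΦ : ∀ y ∈ O, ∀ a : Fin k → ℂ, (∑ i, a i • V i y) ∈ G y ↔ Φ y a = 0) {x : X} (hx : x ∈ O)
    (hGF : G x ≤ F x) :
    finrank ℂ (G x) = finrank ℂ (LinearMap.ker (Φ x).toLinearMap) := by
  rw [map_ker_eq h hΦ hx hGF]
  exact (LinearEquiv.finrank_eq (Submodule.equivMapOfInjective (frMap V x)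
    (frMap_injective h hx) _)).symm

end mfd

end Crest.Agent.R266.St4.KerFrame
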