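import Mathlib
import Crest.Agent.R266.Sard
import Crest.Agent.R266.A.St4Defs

/-!
R266 / A / KerRank (helper272): node `St_kerRank` of step 4 of S0404: semicontinuity, identity
theorem and constant rank theorem for kernels of holomorphic matrices.
-/

set_option autoImplicit false

open scoped Manifold ContDiff Topology
open Set Filter Module
open Crest.AlgGeometry.HolSplit

namespace Crest.Agent.R266.St4

namespace KR

open Crest.Agent.R266.SardAux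

section pure

variable {k l : ℕ}

theorem finrank_ker_add (A : (Fin k → ℂ) →L[ℂ] (Fin l → ℂ)) :
    finrank ℂ (LinearMap.range (A : (Fin k → ℂ) →ₗ[ℂ] (Fin l → ℂ))) +
      finrank ℂ (LinearMap.ker (A : (Fin k → ℂ) →ₗ[ℂ] (Fin l → ℂ))) = k := by
  have := LinearMap.finrank_range_add_finrank_ker (A : (Fin k → ℂ) →ₗ[ℂ] (Fin l → ℂ))
  simpa using this

theorem eventually_finrank_ker_le {Y : Type*} [TopologicalSpace Y]
    {Φ : Y → ((Fin k → ℂ) →L[ℂ] (Fin l → ℂ))} {x : Y} (hΦ : ContinuousAt Φ x) :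
    ∀ᶠ y in 𝓝 x, finrank ℂ (LinearMap.ker (Φ y : (Fin k → ℂ) →ₗ[ℂ] (Fin l → ℂ))) ≤
      finrank ℂ (LinearMap.ker (Φ x : (Fin k → ℂ) →ₗ[ℂ] (Fin l → ℂ))) := by
  obtain ⟨s, p, hsp⟩ := exists_minor_ne_zero (A := Φ x) le_rfl
  have h1 : ∀ᶠ y in 𝓝 x, minor s p (Φ y) ≠ 0 :=
    ((continuous_minor s p).continuousAt.comp hΦ).eventually_ne hsp
  filter_upwards [h1] with y hy
  have h2 := le_finrank_of_minor_ne_zero hy
  have h3 := finrank_ker_add (Φ y)
  have h4 := finrank_ker_add (Φ x)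
  omega

/-- a general form of `SardAux.analyticAt_minor` -/
theorem analyticAt_minor' {E G : Type*} [NormedAddCommGroup E] [NormedSpace ℂ E]
    [NormedAddCommGroup G] [NormedSpace ℂ G] {Y : Type*} [NormedAddCommGroup Y] [NormedSpace ℂ Y]
    {r : ℕ} (s : Fin r → E) (p : Fin r → (G →L[ℂ] ℂ)) {A : Y → (E →L[ℂ] G)} {x : Y}
    (hA : AnalyticAt ℂ A x) : AnalyticAt ℂ (fun x => minor s p (A x)) x := by
  unfold minor
  simp only [Matrix.det_apply]
  apply Finset.analyticAt_fun_sum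
  intro σ _
  apply AnalyticAt.const_smul
  apply Finset.analyticAt_fun_prod
  intro i _
  simp only [Matrix.of_apply]
  exact ((p (σ i)).analyticAt _).comp
    (((ContinuousLinearMap.apply ℂ G (s i)).analyticAt _).comp hA)

end pure

section link

variable {n : ℕ} {X : Type} [TopologicalSpace X] [ChartedSpace (Model n) X]
  [IsManifold (mI n) ω X]
variable {F G : Dist n X} {U O : Set X} {k l : ℕ} {V : Fin k → (x : X) → TangentSpace (mI n) x}
  {Φ : X → ((Fin k → ℂ) →L[ℂ] (Fin l → ℂ))}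

/-- the frame as a linear map -/
noncomputable def frameMap (V : Fin k → (x : X) → TangentSpace (mI n) x) (y : X) :
    (Fin k → ℂ) →ₗ[ℂ] TangentSpace (mI n) y :=
  Fintype.linearCombination ℂ (fun i => V i y)

omit [IsManifold (mI n) ω X] in
theorem frameMap_apply (V : Fin k → (x : X) → TangentSpace (mI n) x) (y : X) (a : Fin k → ℂ) :
    frameMap V y a = ∑ i, a i • V i y := rfl

theorem frameMap_injective (hV : FrameOn F O k V) {y : X} (hy : y ∈ O) :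
    Function.Injective (frameMap V y) := by
  have := hV.indep y hy
  rw [linearIndependent_iff_injective_fintypeLinearCombination] at this
  exact this

theorem frameMap_range (hV : FrameOn F O k V) {y : X} (hy : y ∈ O) :
    LinearMap.range (frameMap V y) = F y := by
  rw [← hV.span y hy]
  exact Fintype.range_linearCombination ℂ _

theorem eq_map (hV : FrameOn F O k V) (hGF : ∀ y ∈ O, G y ≤ F y)
    (hΦ : ∀ y ∈ O, ∀ a : Fin k → ℂ, (∑ i, a i • V i y) ∈ G y ↔ Φ y a = 0) {y : X} (hy : y ∈ O) :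
    G y = (LinearMap.ker (Φ y : (Fin k → ℂ) →ₗ[ℂ] (Fin l → ℂ))).map (frameMap V y) := by
  ext u
  constructor
  · intro hu
    have h1 : u ∈ LinearMap.range (frameMap V y) := by
      rw [frameMap_range hV hy]; exact hGF y hy hu
    obtain ⟨a, rfl⟩ := h1
    exact ⟨a, (hΦ y hy a).mp hu, rfl⟩
  · rintro ⟨a, ha, rfl⟩
    exact (hΦ y hy a).mpr ha

theorem finrank_eq (hV : FrameOn F O k V) (hGF : ∀ y ∈ O, G y ≤ F y)
    (hΦ : ∀ y ∈ O, ∀ a : Fin k → ℂ, (∑ i, a i • V i y) ∈ G y ↔ Φ y a = 0) {y : X} (hy : y ∈ O) :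
    finrank ℂ (G y) = finrank ℂ (LinearMap.ker (Φ y : (Fin k → ℂ) →ₗ[ℂ] (Fin l → ℂ))) := by
  rw [eq_map hV hGF hΦ hy]
  exact (LinearEquiv.finrank_eq (Submodule.equivMapOfInjective _ (frameMap_injective hV hy) _)).symm

theorem exists_data (h : IsKer F G U) (hGF : ∀ x ∈ U, G x ≤ F x) {x : X} (hx : x ∈ U) :
    ∃ (O : Set X) (k l : ℕ) (V : Fin k → (x : X) → TangentSpace (mI n) x)
    (Φ : X → ((Fin k → ℂ) →L[ℂ] (Fin l → ℂ))),
    x ∈ O ∧ O ⊆ U ∧ IsOpen O ∧ (∀ i, IsHolVectorFieldOn O (V i)) ∧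
    ContMDiffOn (mI n) 𝓘(ℂ, (Fin k → ℂ) →L[ℂ] (Fin l → ℂ)) ω Φ O ∧
    (∀ y ∈ O, Function.Injective (frameMap V y)) ∧
    (∀ y ∈ O, G y = (LinearMap.ker (Φ y : (Fin k → ℂ) →ₗ[ℂ] (Fin l → ℂ))).map (frameMap V y)) ∧
    (∀ y ∈ O, finrank ℂ (G y) = finrank ℂ (LinearMap.ker (Φ y : (Fin k → ℂ) →ₗ[ℂ] (Fin l → ℂ)))) := by
  obtain ⟨O, k, l, V, Φ, hxO, hOU, hV, hΦ, hiff⟩ := h.2 x hx
  exact ⟨O, k, l, V, Φ, hxO, hOU, hV.isOpen, hV.hol, hΦ, fun y hy => frameMap_injective hV hy,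
    fun y hy => eq_map hV (fun z hz => hGF z (hOU hz)) hiff hy,
    fun y hy => finrank_eq hV (fun z hz => hGF z (hOU hz)) hiff hy⟩

theorem part1 (h : IsKer F G U) (hGF : ∀ x ∈ U, G x ≤ F x) {x : X} (hx : x ∈ U) :
    ∀ᶠ y in 𝓝 x, finrank ℂ (G y) ≤ finrank ℂ (G x) := by
  obtain ⟨O, k, l, V, Φ, hxO, hOU, hO, -, hΦ, -, -, hfr⟩ := exists_data h hGF hx
  have hc : ContinuousAt Φ x := hΦ.continuousOn.continuousAt (hO.mem_nhds hxO)
  filter_upwards [hO.mem_nhds hxO, eventually_finrank_ker_le hc] with y hy hle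
  rw [hfr y hy, hfr x hxO]
  exact hle

theorem part2 (h : IsKer F G U) (hGF : ∀ x ∈ U, G x ≤ F x) {x : X} (hx : x ∈ U) :
    ∃ B : Set X, IsOpen B ∧ x ∈ B ∧ B ⊆ U ∧ ∀ (r : ℕ) (O : Set X), IsOpen O →
    O.Nonempty → O ⊆ B → (∀ y ∈ O, r ≤ finrank ℂ (G y)) →
    ∀ y ∈ B, r ≤ finrank ℂ (G y) := by
  obtain ⟨O, k, l, V, Φ, hxO, hOU, hO, -, hΦ, -, -, hfr⟩ := exists_data h hGF hx
  set c := chartAt (Model n) x with hc
  have hO₁ : IsOpen (c.target ∩ c.symm ⁻¹' O) := c.isOpen_inter_preimage_symm hO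
  have hcx : c x ∈ c.target ∩ c.symm ⁻¹' O :=
    ⟨c.map_source (mem_chart_source _ x), by
      simpa [c.left_inv (mem_chart_source _ x)] using hxO⟩
  obtain ⟨ε, hε, hball⟩ := Metric.isOpen_iff.mp hO₁ _ hcx
  set B : Set X := c.source ∩ c ⁻¹' Metric.ball (c x) ε with hB
  have hBo : IsOpen B := c.isOpen_inter_preimage Metric.isOpen_ball
  have hBO : B ⊆ O := by
    intro y hy
    have h1 := (hball hy.2).2
    rw [mem_preimage, c.left_inv hy.1] at h1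
    exact h1
  have hsymm : ContMDiffOn 𝓘(ℂ, Model n) (mI n) ω c.symm c.target :=
    contMDiffOn_chart_symm (I := mI n) (n := ω) (x := x)
  have hΨ : AnalyticOnNhd ℂ (fun z => Φ (c.symm z)) (Metric.ball (c x) ε) := by
    intro z hz
    have h1 : ContMDiffOn 𝓘(ℂ, Model n) 𝓘(ℂ, (Fin k → ℂ) →L[ℂ] (Fin l → ℂ)) ω
        (fun z => Φ (c.symm z)) (c.target ∩ c.symm ⁻¹' O) :=
      hΦ.comp (hsymm.mono inter_subset_left) (fun z hz => hz.2)
    rw [contMDiffOn_iff_contDiffOn] at h1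
    exact (h1.contDiffAt (hO₁.mem_nhds (hball hz))).analyticAt
  refine ⟨B, hBo, ⟨mem_chart_source _ x, Metric.mem_ball_self hε⟩, hBO.trans hOU, ?_⟩
  intro r O' hO' hne hO'B hr y₁ hy₁
  by_contra hlt
  push Not at hlt
  obtain ⟨y₀, hy₀⟩ := hne
  have hk₀ := finrank_ker_add (Φ y₀)
  have hk₁ := finrank_ker_add (Φ y₁)
  have hr₀ := hr y₀ hy₀
  rw [hfr y₀ (hBO (hO'B hy₀))] at hr₀
  rw [hfr y₁ (hBO hy₁)] at hlt
  obtain ⟨s, p, hsp⟩ := exists_minor_ne_zero (r := k - r + 1) (A := Φ y₁) (by omega)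
  have hz : ∀ y ∈ O', minor s p (Φ y) = 0 := by
    intro y hy
    by_contra hne
    have h1 := le_finrank_of_minor_ne_zero hne
    have h2 := finrank_ker_add (Φ y)
    have h3 := hr y hy
    rw [hfr y (hBO (hO'B hy))] at h3
    omega
  have hana : AnalyticOnNhd ℂ (fun z => minor s p (Φ (c.symm z))) (Metric.ball (c x) ε) :=
    fun z hz => analyticAt_minor' s p (hΨ z hz)
  have hy₀s : y₀ ∈ c.source := (hO'B hy₀).1
  have hev : (fun z => minor s p (Φ (c.symm z))) =ᶠ[𝓝 (c y₀)] 0 := by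
    have h1 : ∀ᶠ z in 𝓝 (c y₀), c.symm z ∈ O' := by
      have := c.symm.continuousAt (x := c y₀) (c.map_source hy₀s)
      apply this.eventually_mem
      rw [c.left_inv hy₀s]
      exact hO'.mem_nhds hy₀
    filter_upwards [h1] with z hz'
    exact hz _ hz'
  have hall := hana.eqOn_zero_of_preconnected_of_eventuallyEq_zero
    (convex_ball _ _).isPreconnected (hO'B hy₀).2 hev hy₁.2
  simp only [c.left_inv hy₁.1] at hall
  exact hsp hall

/-- holomorphic combinations of holomorphic fields -/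
theorem hol_comb {O' : Set X} (hV : ∀ i, IsHolVectorFieldOn O' (V i)) {a : X → (Fin k → ℂ)}
    (ha : ContMDiffOn (mI n) 𝓘(ℂ, Fin k → ℂ) ω a O') :
    IsHolVectorFieldOn O' (fun y => frameMap V y (a y)) := by
  have h1 : ∀ i, ContMDiffOn (mI n) 𝓘(ℂ, ℂ) ω (fun y => a y i) O' := by
    intro i
    have h2 : ContMDiff 𝓘(ℂ, Fin k → ℂ) 𝓘(ℂ, ℂ) ω (fun v : Fin k → ℂ => v i) :=
      (ContinuousLinearMap.proj (R := ℂ) (φ := fun _ : Fin k => ℂ) i).contMDiff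
    exact h2.comp_contMDiffOn ha
  have h3 : ∀ i, IsHolVectorFieldOn O' (fun y => a y i • V i y) := fun i =>
    ContMDiffOn.smul_section (h1 i) (hV i)
  exact ContMDiffOn.sum_section (s := Finset.univ) (t := fun i y => a y i • V i y)
    (fun i _ => h3 i)

theorem part3 (h : IsKer F G U) (hGF : ∀ x ∈ U, G x ≤ F x) {r : ℕ} {Ω : Set X}
    (hΩ : IsOpen Ω) (hΩU : Ω ⊆ U) (hr : ∀ y ∈ Ω, finrank ℂ (G y) = r) : IsSub G Ω := by
  classical
  refine ⟨hΩ, ?_⟩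
  intro x hx
  obtain ⟨O, k, l, V, Φ, hxO, hOU, hO, hV, hΦ, hinj, heq, hfr⟩ := exists_data h hGF (hΩU hx)
  have hk := finrank_ker_add (Φ x)
  rw [← hfr x hxO, hr x hx] at hk
  set ρ := finrank ℂ (LinearMap.range (Φ x : (Fin k → ℂ) →ₗ[ℂ] (Fin l → ℂ))) with hρ
  obtain ⟨s, p, hsp⟩ := exists_minor_ne_zero (r := ρ) (A := Φ x) le_rfl
  let P : (Fin l → ℂ) →L[ℂ] (Fin ρ → ℂ) := ContinuousLinearMap.pi p
  let T : (Fin k → ℂ) →L[ℂ] (Fin ρ → ℂ) := P.comp (Φ x)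
  have hTrange : LinearMap.range (T : (Fin k → ℂ) →ₗ[ℂ] (Fin ρ → ℂ)) = ⊤ := by
    have h1 : LinearIndependent ℂ (Matrix.of fun i j => p i (Φ x (s j))).col :=
      Matrix.linearIndependent_cols_of_det_ne_zero hsp
    have hspan : Submodule.span ℂ (range (Matrix.of fun i j => p i (Φ x (s j))).col) = ⊤ :=
      h1.span_eq_top_of_card_eq_finrank' (by simp)
    rw [eq_top_iff, ← hspan, Submodule.span_le]
    rintro _ ⟨j, rfl⟩
    exact ⟨s j, rfl⟩
  let K : Submodule ℂ (Fin k → ℂ) := LinearMap.ker (T : (Fin k → ℂ) →ₗ[ℂ] (Fin ρ → ℂ))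
  obtain ⟨g, hg⟩ := LinearMap.exists_leftInverse_of_injective K.subtype
    (LinearMap.ker_eq_bot.mpr Subtype.val_injective)
  let π : (Fin k → ℂ) →L[ℂ] K := LinearMap.toContinuousLinearMap g
  have hπK : ∀ x : K, π x = x := fun x => LinearMap.congr_fun hg x
  have hπsurj : Function.Surjective π := fun x => ⟨x, hπK x⟩
  have hcompl : IsCompl (LinearMap.ker (T : (Fin k → ℂ) →ₗ[ℂ] (Fin ρ → ℂ)))
      (LinearMap.ker (π : (Fin k → ℂ) →ₗ[ℂ] K)) := LinearMap.isCompl_of_proj hπK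
  let e' : (Fin k → ℂ) ≃L[ℂ] (Fin ρ → ℂ) × K :=
    ContinuousLinearMap.equivProdOfSurjectiveOfIsCompl T π hTrange
      (LinearMap.range_eq_top.mpr hπsurj) hcompl
  let Λ : X → ((Fin k → ℂ) →L[ℂ] (Fin ρ → ℂ) × K) := fun y => (P.comp (Φ y)).prod π
  have he' : (e' : (Fin k → ℂ) →L[ℂ] (Fin ρ → ℂ) × K) = Λ x := by
    ext x <;> rfl
  have hKr : finrank ℂ K = r := by
    have h1 := LinearMap.finrank_range_add_finrank_ker (T : (Fin k → ℂ) →ₗ[ℂ] (Fin ρ → ℂ))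
    rw [hTrange, finrank_top, finrank_fin_fun, finrank_fin_fun] at h1
    have : finrank ℂ K = finrank ℂ (LinearMap.ker (T : (Fin k → ℂ) →ₗ[ℂ] (Fin ρ → ℂ))) := rfl
    omega
  let b : Basis (Fin r) ℂ K := finBasisOfFinrankEq ℂ K hKr
  -- smoothness of `Λ`
  let L : ((Fin k → ℂ) →L[ℂ] (Fin l → ℂ)) → ((Fin k → ℂ) →L[ℂ] (Fin ρ → ℂ) × K) :=
    fun A => (P.comp A).prod π
  have hL : ContDiff ℂ ω L := by
    rw [contDiff_clm_apply_iff]
    intro v
    exact (P.contDiff.comp (contDiff_id.clm_apply contDiff_const)).prodMk contDiff_const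
  have hΛc : ContinuousAt Λ x :=
    hL.continuous.continuousAt.comp (hΦ.continuousOn.continuousAt (hO.mem_nhds hxO))
  have hΦc : ContinuousAt Φ x := hΦ.continuousOn.continuousAt (hO.mem_nhds hxO)
  have hev1 : ∀ᶠ y in 𝓝 x, minor s p (Φ y) ≠ 0 :=
    ((continuous_minor s p).continuousAt.comp hΦc).eventually_ne hsp
  have hev2 : ∀ᶠ y in 𝓝 x, Λ y ∈ range ((↑) : ((Fin k → ℂ) ≃L[ℂ] (Fin ρ → ℂ) × K) →
      ((Fin k → ℂ) →L[ℂ] (Fin ρ → ℂ) × K)) := by
    apply hΛc.eventually_mem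
    rw [← he']
    exact ContinuousLinearEquiv.nhds e'
  set O' : Set X := (Ω ∩ O) ∩ interior {y | minor s p (Φ y) ≠ 0 ∧ Λ y ∈ range ((↑) :
      ((Fin k → ℂ) ≃L[ℂ] (Fin ρ → ℂ) × K) → ((Fin k → ℂ) →L[ℂ] (Fin ρ → ℂ) × K))} with hO'
  have hO'o : IsOpen O' := (hΩ.inter hO).inter isOpen_interior
  have hxO' : x ∈ O' := ⟨⟨hx, hxO⟩, mem_interior_iff_mem_nhds.mpr (hev1.and hev2)⟩
  have hO'm : ∀ y ∈ O', minor s p (Φ y) ≠ 0 := fun y hy => (interior_subset hy.2).1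
  have hO'e : ∀ y ∈ O', ∃ e : (Fin k → ℂ) ≃L[ℂ] (Fin ρ → ℂ) × K,
      (e : (Fin k → ℂ) →L[ℂ] (Fin ρ → ℂ) × K) = Λ y := fun y hy => (interior_subset hy.2).2
  let a : Fin r → X → (Fin k → ℂ) := fun j y => (Λ y).inverse ((0 : Fin ρ → ℂ), b j)
  have ha : ∀ y ∈ O', ∀ j, Λ y (a j y) = ((0 : Fin ρ → ℂ), b j) := by
    intro y hy j
    obtain ⟨e, he⟩ := hO'e y hy
    show Λ y ((Λ y).inverse _) = _
    rw [← he, ContinuousLinearMap.inverse_equiv]
    exact e.apply_symm_apply _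
  have haker : ∀ y ∈ O', ∀ j, Φ y (a j y) = 0 := by
    intro y hy j
    have h1 := congrArg Prod.fst (ha y hy j)
    have h2 : ∀ i, p i (Φ y (a j y)) = 0 := fun i => congrFun h1 i
    refine apply_eq_zero_of_minor (hO'm y hy) ?_ h2
    have h3 := finrank_ker_add (Φ y)
    rw [← hfr y hy.1.2, hr y hy.1.1] at h3
    omega
  have haπ : ∀ y ∈ O', ∀ j, π (a j y) = b j := fun y hy j => congrArg Prod.snd (ha y hy j)
  have haC : ∀ j, ContMDiffOn (mI n) 𝓘(ℂ, Fin k → ℂ) ω (a j) O' := by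
    intro j y hy
    obtain ⟨e, he⟩ := hO'e y hy
    have h1 : ContMDiffAt (mI n) 𝓘(ℂ, (Fin k → ℂ) →L[ℂ] (Fin l → ℂ)) ω Φ y :=
      hΦ.contMDiffAt (hO.mem_nhds hy.1.2)
    have h2 : ContMDiffAt (mI n) 𝓘(ℂ, (Fin k → ℂ) →L[ℂ] (Fin ρ → ℂ) × K) ω Λ y :=
      (hL.contMDiff (Φ y)).comp y h1
    have h3 : ContDiffAt ℂ ω (ContinuousLinearMap.inverse :
        ((Fin k → ℂ) →L[ℂ] (Fin ρ → ℂ) × K) → _) (Λ y) := by
      rw [← he]; exact contDiffAt_map_inverse e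
    have h4 : ContMDiffAt (mI n) 𝓘(ℂ, ((Fin ρ → ℂ) × K) →L[ℂ] (Fin k → ℂ)) ω
        (fun y => (Λ y).inverse) y := h3.contMDiffAt.comp y h2
    have h5 : ContMDiff 𝓘(ℂ, ((Fin ρ → ℂ) × K) →L[ℂ] (Fin k → ℂ)) 𝓘(ℂ, Fin k → ℂ) ω
        (fun B : ((Fin ρ → ℂ) × K) →L[ℂ] (Fin k → ℂ) => B ((0 : Fin ρ → ℂ), b j)) :=
      ContDiff.contMDiff (contDiff_id.clm_apply contDiff_const)
    exact ((h5 _).comp y h4).contMDiffWithinAt
  have hind : ∀ y ∈ O', LinearIndependent ℂ (fun j => frameMap V y (a j y)) := by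
    intro y hy
    have h1 : LinearIndependent ℂ (fun j => a j y) := by
      refine LinearIndependent.of_comp (π : (Fin k → ℂ) →ₗ[ℂ] K) ?_
      have h2 : ((π : (Fin k → ℂ) →ₗ[ℂ] K) ∘ fun j => a j y) = b := by
        funext j; exact haπ y hy j
      rw [h2]
      exact b.linearIndependent
    exact h1.map' _ (LinearMap.ker_eq_bot.mpr (hinj y hy.1.2))
  refine ⟨O', r, fun j y => frameMap V y (a j y), hxO', fun y hy => hy.1.1, ⟨hO'o, ?_, hind, ?_⟩⟩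
  · intro j
    exact hol_comb (fun i => (hV i).mono fun y hy => hy.1.2) (haC j)
  · intro y hy
    have hfd : FiniteDimensional ℂ (TangentSpace (mI n) y) :=
      inferInstanceAs (FiniteDimensional ℂ (Model n))
    apply Submodule.eq_of_le_of_finrank_eq
    · rw [Submodule.span_le, heq y hy.1.2]
      rintro _ ⟨j, rfl⟩
      exact ⟨a j y, haker y hy j, rfl⟩
    · rw [finrank_span_eq_card (hind y hy), hr y hy.1.1, Fintype.card_fin]

end link

end KR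

/-- **(K2)** semicontinuity, identity theorem and constant rank theorem for kernels. -/
theorem kerRank_holds (n : ℕ) (X : Type) [TopologicalSpace X] [T2Space X]
    [ChartedSpace (Model n) X] [IsManifold (mI n) ω X] : St_kerRank n X := by
  intro F G U hGF h
  exact ⟨fun x hx => KR.part1 h hGF hx, fun x hx => KR.part2 h hGF hx,
    fun r O hO hOU hr => KR.part3 h hGF hO hOU hr⟩

end Crest.Agent.R266.St4
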