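import Mathlib
import Crest.Prelude.Def_TangentSplitting
import Crest.Agent.R266.Chart2
import Crest.Agent.R266.StepThreeDefs
import Crest.Agent.R266.A.St4Defs
import Crest.Agent.R266.A.Iface404

/-!
R266 / A / Main404 (helper744): assembly of S0404 from the nodes of Iface404 and `St_minGood`.
-/

set_option autoImplicit false

open scoped Manifold ContDiff Topology
open Set Metric Filter VectorField
open Crest.AlgGeometry.HolSplit
open Crest.Agent.R266.St4

namespace Crest.Agent.R266.F404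

section swap

variable {n : ℕ} {X : Type} [TopologicalSpace X] [ChartedSpace (Model n) X]
  [IsManifold (mI n) ω X]

theorem hol_add {U : Set X} {V W : (x : X) → TangentSpace (mI n) x}
    (hV : IsHolVectorFieldOn U V) (hW : IsHolVectorFieldOn U W) :
    IsHolVectorFieldOn U (fun x => V x + W x) :=
  ContMDiffOn.add_section hV hW

theorem hol_sub {U : Set X} {V W : (x : X) → TangentSpace (mI n) x}
    (hV : IsHolVectorFieldOn U V) (hW : IsHolVectorFieldOn U W) :
    IsHolVectorFieldOn U (fun x => V x - W x) :=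
  ContMDiffOn.sub_section hV hW

/-- the splitting with the two summands exchanged -/
noncomputable def swapS (S : Splitting n X) : Splitting n X where
  proj x := ContinuousLinearMap.id ℂ _ - S.proj x
  idem x v := by
    simp only [sub_apply, ContinuousLinearMap.id_apply, map_sub, S.idem,
      sub_self, sub_zero]
  holomorphic U hU V hV := by
    have := hol_sub hV (S.holomorphic U hU V hV)
    exact this
  first_ne_zero x h := by
    apply S.second_ne_zero x
    exact (sub_eq_zero.1 h).symm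
  second_ne_zero x h := by
    apply S.first_ne_zero x
    have : S.proj x = ContinuousLinearMap.id ℂ _ - (ContinuousLinearMap.id ℂ _ - S.proj x) := by
      abel
    rw [this, h, sub_self]

theorem swapS_proj (S : Splitting n X) (x : X) (v : TangentSpace (mI n) x) :
    (swapS S).proj x v = v - S.proj x v := rfl

theorem mem_E₁ (S : Splitting n X) {x : X} {v : TangentSpace (mI n) x} :
    v ∈ E₁ S x ↔ S.proj x v = v := by
  constructor
  · rintro ⟨u, rfl⟩
    exact S.idem x u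
  · intro h
    exact ⟨v, h⟩

theorem mem_E₂ (S : Splitting n X) {x : X} {v : TangentSpace (mI n) x} :
    v ∈ E₂ S x ↔ S.proj x v = 0 := Iff.rfl

theorem E₁_swap (S : Splitting n X) (x : X) : E₁ (swapS S) x = E₂ S x := by
  ext v
  rw [mem_E₁, mem_E₂, swapS_proj]
  constructor
  · intro h
    have := sub_eq_self.1 h
    exact this
  · intro h
    rw [h, sub_zero]

theorem E₂_swap (S : Splitting n X) (x : X) : E₂ (swapS S) x = E₁ S x := by
  ext v
  rw [mem_E₂, mem_E₁, swapS_proj, sub_eq_zero]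
  exact eq_comm

end swap

section sup

variable {n : ℕ} {X : Type} [TopologicalSpace X] [ChartedSpace (Model n) X]
  [IsManifold (mI n) ω X]

theorem hol_mono {U O : Set X} {V : (x : X) → TangentSpace (mI n) x}
    (hV : IsHolVectorFieldOn U V) (h : O ⊆ U) : IsHolVectorFieldOn O V :=
  ContMDiffOn.mono hV h

/-- the sum of two independent subbundles is a subbundle -/
theorem isSub_sup {F G : Dist n X} {U : Set X} (hF : IsSub F U) (hG : IsSub G U)
    (h : ∀ x ∈ U, Disjoint (F x) (G x)) : IsSub (fun x => F x ⊔ G x) U := by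
  refine ⟨hF.1, fun x hx => ?_⟩
  obtain ⟨O, k, V, hxO, hOU, hV⟩ := hF.2 x hx
  obtain ⟨O', l, V', hxO', hOU', hV'⟩ := hG.2 x hx
  refine ⟨O ∩ O', k + l, fun i => Fin.addCases (motive := fun _ => (x : X) → TangentSpace (mI n) x)
    V V' i, ⟨hxO, hxO'⟩, inter_subset_left.trans hOU, ?_⟩
  have hspan : ∀ y ∈ O ∩ O', Submodule.span ℂ (Set.range fun i : Fin (k + l) =>
      (Fin.addCases (motive := fun _ => (x : X) → TangentSpace (mI n) x) V V' i) y) =
      F y ⊔ G y := by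
    intro y hy
    rw [← hV.span y hy.1, ← hV'.span y hy.2, ← Submodule.span_union]
    congr 1
    ext v
    constructor
    · rintro ⟨i, rfl⟩
      refine Fin.addCases (fun j => ?_) (fun j => ?_) i
      · left
        exact ⟨j, by simp⟩
      · right
        exact ⟨j, by simp⟩
    · rintro (⟨j, rfl⟩ | ⟨j, rfl⟩)
      · exact ⟨Fin.castAdd l j, by simp⟩
      · exact ⟨Fin.natAdd k j, by simp⟩
  refine ⟨hV.isOpen.inter hV'.isOpen, ?_, ?_, hspan⟩
  · intro i
    refine Fin.addCases (fun j => ?_) (fun j => ?_) i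
    · have := hol_mono (hV.hol j) (inter_subset_left : O ∩ O' ⊆ O)
      simpa using this
    · have := hol_mono (hV'.hol j) (inter_subset_right : O ∩ O' ⊆ O')
      simpa using this
  · intro y hy
    have h1 := hV.indep y hy.1
    have h2 := hV'.indep y hy.2
    have hd : Disjoint (Submodule.span ℂ (Set.range fun i => V i y))
        (Submodule.span ℂ (Set.range fun i => V' i y)) := by
      rw [hV.span y hy.1, hV'.span y hy.2]
      exact h y (hOU hy.1)
    have h3 := h1.sum_type h2 hd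
    have h4 := h3.comp (finSumFinEquiv.symm) finSumFinEquiv.symm.injective
    have h5 : (fun i : Fin (k + l) =>
        (Fin.addCases (motive := fun _ => (x : X) → TangentSpace (mI n) x) V V' i) y) =
        (Sum.elim (fun i => V i y) fun i => V' i y) ∘ ⇑finSumFinEquiv.symm := by
      funext i
      refine Fin.addCases (fun j => ?_) (fun j => ?_) i
      · simp
      · simp
    rw [h5]
    exact h4

theorem disj_of_le (S : Splitting n X) {x : X} {F G : Submodule ℂ (TangentSpace (mI n) x)}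
    (hF : F ≤ E₁ S x) (hG : G ≤ E₂ S x) : Disjoint F G := by
  rw [Submodule.disjoint_def]
  intro v h1 h2
  have e1 := (mem_E₁ S).1 (hF h1)
  have e2 := (mem_E₂ S).1 (hG h2)
  rw [← e1, e2]

theorem isSub_inter {F : Dist n X} {U V : Set X} (hF : IsSub F U) (hV : IsOpen V) :
    IsSub F (U ∩ V) := by
  refine ⟨hF.1.inter hV, fun x hx => ?_⟩
  obtain ⟨O, k, W, hxO, hOU, hW⟩ := hF.2 x hx.1
  exact ⟨O ∩ V, k, W, ⟨hxO, hx.2⟩, inter_subset_inter_left _ hOU,
    ⟨hW.isOpen.inter hV, fun i => hol_mono (hW.hol i) inter_subset_left,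
      fun y hy => hW.indep y hy.1, fun y hy => hW.span y hy.1⟩⟩

/-- the sum `F ⊔ G` of the two exported distributions is involutive -/
theorem brSub_sup (S : Splitting n X) {F G : Dist n X} {U : Set X}
    (hF : ∀ x ∈ U, F x ≤ E₁ S x) (hG : ∀ x ∈ U, G x ≤ E₂ S x)
    (h1 : BrSub F (fun x => F x ⊔ E₂ S x) U) (h2 : BrSub F (E₁ S) U)
    (h3 : BrSub G (fun x => G x ⊔ E₁ S x) U) (h4 : BrSub G (E₂ S) U) :
    BrSub (fun x => F x ⊔ G x) (fun x => F x ⊔ G x) U := by
  intro O hO hOU V W hV hW hVD hWD x hx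
  -- decomposition
  have dec : ∀ V : (x : X) → TangentSpace (mI n) x, IsHolVectorFieldOn O V →
      (∀ x ∈ O, V x ∈ F x ⊔ G x) →
      ∃ A B : (x : X) → TangentSpace (mI n) x, IsHolVectorFieldOn O A ∧ IsHolVectorFieldOn O B ∧
        (∀ x ∈ O, A x ∈ F x) ∧ (∀ x ∈ O, B x ∈ G x) ∧ V = A + B := by
    intro V hV hVD
    refine ⟨fun x => S.proj x (V x), fun x => V x - S.proj x (V x), S.holomorphic O hO V hV,
      hol_sub hV (S.holomorphic O hO V hV), ?_, ?_, ?_⟩
    · intro y hy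
      obtain ⟨a, ha, b, hb, hab⟩ := Submodule.mem_sup.1 (hVD y hy)
      have e1 := (mem_E₁ S).1 (hF y (hOU hy) ha)
      have e2 := (mem_E₂ S).1 (hG y (hOU hy) hb)
      show S.proj y (V y) ∈ F y
      rw [← hab, map_add, e1, e2, add_zero]
      exact ha
    · intro y hy
      obtain ⟨a, ha, b, hb, hab⟩ := Submodule.mem_sup.1 (hVD y hy)
      have e1 := (mem_E₁ S).1 (hF y (hOU hy) ha)
      have e2 := (mem_E₂ S).1 (hG y (hOU hy) hb)
      show V y - S.proj y (V y) ∈ G y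
      rw [← hab, map_add, e1, e2, add_zero, add_sub_cancel_left]
      exact hb
    · funext y
      simp
  obtain ⟨A, B, hA, hB, hAF, hBG, rfl⟩ := dec V hV hVD
  obtain ⟨A', B', hA', hB', hAF', hBG', rfl⟩ := dec W hW hWD
  have mA := holField_mdiff hO hA hx
  have mB := holField_mdiff hO hB hx
  have mA' := holField_mdiff hO hA' hx
  have mB' := holField_mdiff hO hB' hx
  have mS := holField_mdiff hO hW hx
  have hU := hOU hx
  -- [A, A'] ∈ F
  have key1 : ∀ A A' : (x : X) → TangentSpace (mI n) x, IsHolVectorFieldOn O A →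
      IsHolVectorFieldOn O A' → (∀ x ∈ O, A x ∈ F x) → (∀ x ∈ O, A' x ∈ F x) →
      mlieBracket (mI n) A A' x ∈ F x := by
    intro A A' hA hA' hAF hAF'
    have i1 := h1 O hO hOU A A' hA hA' hAF (fun y hy => Submodule.mem_sup_left (hAF' y hy)) x hx
    have i2 := h2 O hO hOU A A' hA hA' hAF (fun y hy => hF y (hOU hy) (hAF' y hy)) x hx
    obtain ⟨a, ha, b, hb, hab⟩ := Submodule.mem_sup.1 i1
    have e1 := (mem_E₁ S).1 (hF x hU ha)
    have e2 := (mem_E₂ S).1 hb
    have e3 := (mem_E₁ S).1 i2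
    rw [← hab, map_add, e1, e2, add_zero] at e3
    rw [← hab, ← e3]
    exact ha
  have key2 : ∀ B B' : (x : X) → TangentSpace (mI n) x, IsHolVectorFieldOn O B →
      IsHolVectorFieldOn O B' → (∀ x ∈ O, B x ∈ G x) → (∀ x ∈ O, B' x ∈ G x) →
      mlieBracket (mI n) B B' x ∈ G x := by
    intro A A' hA hA' hAF hAF'
    have i1 := h3 O hO hOU A A' hA hA' hAF (fun y hy => Submodule.mem_sup_left (hAF' y hy)) x hx
    have i2 := h4 O hO hOU A A' hA hA' hAF (fun y hy => hG y (hOU hy) (hAF' y hy)) x hx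
    obtain ⟨a, ha, b, hb, hab⟩ := Submodule.mem_sup.1 i1
    have e1 := (mem_E₂ S).1 (hG x hU ha)
    have e2 := (mem_E₁ S).1 hb
    have e3 := (mem_E₂ S).1 i2
    rw [← hab, map_add, e1, e2, zero_add] at e3
    rw [← hab, e3, add_zero]
    exact ha
  have key3 : ∀ A B : (x : X) → TangentSpace (mI n) x, IsHolVectorFieldOn O A →
      IsHolVectorFieldOn O B → (∀ x ∈ O, A x ∈ F x) → (∀ x ∈ O, B x ∈ G x) →
      mlieBracket (mI n) A B x ∈ F x ⊔ G x := by
    intro A B hA hB hAF hBG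
    have i1 := h1 O hO hOU A B hA hB hAF
      (fun y hy => Submodule.mem_sup_right (hG y (hOU hy) (hBG y hy))) x hx
    have i2 := h3 O hO hOU B A hB hA hBG
      (fun y hy => Submodule.mem_sup_right (hF y (hOU hy) (hAF y hy))) x hx
    rw [mlieBracket_swap_apply] at i2
    have i2' := neg_mem i2
    rw [neg_neg] at i2'
    obtain ⟨a, ha, b, hb, hab⟩ := Submodule.mem_sup.1 i1
    obtain ⟨c, hc, d, hd, hcd⟩ := Submodule.mem_sup.1 i2'
    have ea := (mem_E₁ S).1 (hF x hU ha)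
    have eb := (mem_E₂ S).1 hb
    have ec := (mem_E₂ S).1 (hG x hU hc)
    have ed := (mem_E₁ S).1 hd
    have e5 : S.proj x (mlieBracket (mI n) A B x) = a := by
      rw [← hab, map_add, ea, eb, add_zero]
    have e6 : S.proj x (mlieBracket (mI n) A B x) = d := by
      rw [← hcd, map_add, ec, ed, zero_add]
    rw [← hcd]
    refine Submodule.add_mem _ (Submodule.mem_sup_right hc) (Submodule.mem_sup_left ?_)
    rw [← e6, e5]
    exact ha
  have E1 : mlieBracket (mI n) (A + B) (A' + B') x =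
      mlieBracket (mI n) A (A' + B') x + mlieBracket (mI n) B (A' + B') x :=
    mlieBracket_add_left mA mB
  have E2 : mlieBracket (mI n) A (A' + B') x =
      mlieBracket (mI n) A A' x + mlieBracket (mI n) A B' x :=
    mlieBracket_add_right mA' mB'
  have E3 : mlieBracket (mI n) B (A' + B') x =
      mlieBracket (mI n) B A' x + mlieBracket (mI n) B B' x :=
    mlieBracket_add_right mA' mB'
  show mlieBracket (mI n) (A + B) (A' + B') x ∈ F x ⊔ G x
  rw [E1, E2, E3]
  refine Submodule.add_mem _ (Submodule.add_mem _ ?_ ?_) (Submodule.add_mem _ ?_ ?_)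
  · exact Submodule.mem_sup_left (key1 A A' hA hA' hAF hAF')
  · exact key3 A B' hA hB' hAF hBG'
  · have := neg_mem (key3 A' B hA' hB hAF' hBG)
    rw [← mlieBracket_swap_apply] at this
    exact this
  · exact Submodule.mem_sup_right (key2 B B' hB hB' hBG hBG')

end sup

section main

variable {n : ℕ} {X : Type} [TopologicalSpace X] [ChartedSpace (Model n) X]
  [IsManifold (mI n) ω X]

omit [IsManifold (mI n) ω X] in
/-- a two-point submersive family is one-point submersive -/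
theorem onePt_of_twoPt {E : Type} [NormedAddCommGroup E] [NormedSpace ℂ E] {M : Set E}
    (hM : IsOpen M) {f : E → Bool → ℂ → X} (hf : IsFam n M f) {p : E × ℂ × ℂ} (hp : p.1 ∈ M)
    (h : Function.Surjective
      (mfderiv 𝓘(ℂ, E × ℂ × ℂ) ((mI n).prod (mI n)) (twoPt f false false) p)) :
    Function.Surjective (mfderiv 𝓘(ℂ, E × ℂ) (mI n) (fun q : E × ℂ => f q.1 false q.2)
      (p.1, p.2.1)) := by
  set φ : E × ℂ → X := fun q => f q.1 false q.2 with hφ
  have hd : ∀ z : ℂ, MDifferentiableAt 𝓘(ℂ, E × ℂ) (mI n) φ (p.1, z) := by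
    intro z
    have h1 := (hf.hol false).contMDiffAt ((hM.prod isOpen_univ).mem_nhds
      (show ((p.1, z) : E × ℂ) ∈ M ×ˢ (univ : Set ℂ) from ⟨hp, mem_univ _⟩))
    exact h1.mdifferentiableAt (by simp)
  have hπ1 : HasFDerivAt (fun q : E × ℂ × ℂ => ((q.1, q.2.1) : E × ℂ))
      ((ContinuousLinearMap.fst ℂ E (ℂ × ℂ)).prod
        ((ContinuousLinearMap.fst ℂ ℂ ℂ).comp (ContinuousLinearMap.snd ℂ E (ℂ × ℂ)))) p :=
    (hasFDerivAt_fst).prodMk (hasFDerivAt_fst.comp p hasFDerivAt_snd)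
  have hπ2 : HasFDerivAt (fun q : E × ℂ × ℂ => ((q.1, q.2.2) : E × ℂ))
      ((ContinuousLinearMap.fst ℂ E (ℂ × ℂ)).prod
        ((ContinuousLinearMap.snd ℂ ℂ ℂ).comp (ContinuousLinearMap.snd ℂ E (ℂ × ℂ)))) p :=
    (hasFDerivAt_fst).prodMk (hasFDerivAt_snd.comp p hasFDerivAt_snd)
  have m1 : MDifferentiableAt 𝓘(ℂ, E × ℂ × ℂ) 𝓘(ℂ, E × ℂ)
      (fun q : E × ℂ × ℂ => ((q.1, q.2.1) : E × ℂ)) p := hπ1.differentiableAt.mdifferentiableAt
  have m2 : MDifferentiableAt 𝓘(ℂ, E × ℂ × ℂ) 𝓘(ℂ, E × ℂ)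
      (fun q : E × ℂ × ℂ => ((q.1, q.2.2) : E × ℂ)) p := hπ2.differentiableAt.mdifferentiableAt
  have c1 : MDifferentiableAt 𝓘(ℂ, E × ℂ × ℂ) (mI n) (fun q => φ (q.1, q.2.1)) p :=
    MDifferentiableAt.comp p (hd p.2.1) m1
  have c2 : MDifferentiableAt 𝓘(ℂ, E × ℂ × ℂ) (mI n) (fun q => φ (q.1, q.2.2)) p :=
    MDifferentiableAt.comp p (hd p.2.2) m2
  have e1 : mfderiv 𝓘(ℂ, E × ℂ × ℂ) ((mI n).prod (mI n)) (twoPt f false false) p =
      (mfderiv 𝓘(ℂ, E × ℂ × ℂ) (mI n) (fun q => φ (q.1, q.2.1)) p).prod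
        (mfderiv 𝓘(ℂ, E × ℂ × ℂ) (mI n) (fun q => φ (q.1, q.2.2)) p) :=
    mfderiv_prodMk c1 c2
  have e2 : mfderiv 𝓘(ℂ, E × ℂ × ℂ) (mI n) (fun q => φ (q.1, q.2.1)) p =
      (mfderiv 𝓘(ℂ, E × ℂ) (mI n) φ (p.1, p.2.1)).comp
        (mfderiv 𝓘(ℂ, E × ℂ × ℂ) 𝓘(ℂ, E × ℂ) (fun q : E × ℂ × ℂ => ((q.1, q.2.1) : E × ℂ)) p) :=
    mfderiv_comp p (hd p.2.1) m1
  intro v
  obtain ⟨u, hu⟩ := h ((v, 0) : Model n × Model n)
  rw [e1] at hu
  have hu1 : mfderiv 𝓘(ℂ, E × ℂ × ℂ) (mI n) (fun q => φ (q.1, q.2.1)) p u = v :=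
    congrArg Prod.fst hu
  rw [e2] at hu1
  exact ⟨_, hu1⟩

end main

/-- S0404 from its nodes -/
theorem main404 {n : ℕ} {X : Type} [TopologicalSpace X] [T2Space X] [SecondCountableTopology X]
    [CompactSpace X] [ConnectedSpace X] [ChartedSpace (Model n) X] [IsManifold (mI n) ω X]
    (hproj : IsProjective n X) (hrc : IsRationallyConnected n X)
    (h1 : St_one n X) (h2 : St_two n X) (h3 : St_three n X) (hm : St_minGood n X)
    (he : St_end n X) (hi : St_ident n X) (S : Splitting n X) :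
    S.FirstIntegrable ∧ S.SecondIntegrable := by
  obtain ⟨m, f, hf, htwo⟩ := h1 hproj hrc
  obtain ⟨r, hr, δ, hδ, F, hrM, hF⟩ := h2 S (Fin m → ℂ) (ball 0 1) f 0 isOpen_ball
    (mem_ball_self one_pos) hf
  have hf' : IsFam n (ball (0 : Fin m → ℂ) r) f :=
    ⟨fun b => (hf.hol b).mono (prod_mono hrM subset_rfl), fun s hs => hf.glue s (hrM hs)⟩
  -- one-point density
  have hone : ∀ O : Set ((Fin m → ℂ) × ℂ), IsOpen O → O.Nonempty →
      O ⊆ ball (0 : Fin m → ℂ) r ×ˢ univ → ∃ p ∈ O, Function.Surjective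
        (mfderiv 𝓘(ℂ, (Fin m → ℂ) × ℂ) (mI n) (fun p : (Fin m → ℂ) × ℂ => f p.1 false p.2) p) := by
    intro O hO hne hOs
    obtain ⟨q, hq⟩ := hne
    obtain ⟨p, hpV, hp⟩ := htwo false false
      ((fun p : (Fin m → ℂ) × ℂ × ℂ => (p.1, p.2.1)) ⁻¹' O) (hO.preimage (by fun_prop))
      ⟨(q.1, q.2, 0), hq⟩ (fun p hp => ⟨hrM (hOs hp).1, mem_univ _, mem_univ _⟩)
    exact ⟨(p.1, p.2.1), hpV, onePt_of_twoPt isOpen_ball hf' (hOs hpV).1 hp⟩
  -- the E₁-curves
  obtain ⟨⟨W, g, hWne, hWV, hgF, hgT, hgp, hgv⟩, -⟩ := h3 S hproj (Fin m → ℂ) f 0 r δ F hr hδ hf' hF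
    (ball 0 r ×ˢ ball 0 1) (isOpen_ball.prod isOpen_ball)
    ⟨(0, 0), mem_ball_self hr, mem_ball_self one_pos⟩ subset_rfl
    (fun O hO hne hOs => hone O hO hne (hOs.trans (prod_mono subset_rfl (subset_univ _))))
  obtain ⟨W₀, U, G, hW₀, hW₀ne, hW₀W, hGU, hGE, hGg, hb1, hb2⟩ := hm S hproj ((Fin m → ℂ) × ℂ) W g
    hWne hgF hgT
  -- the E₂-curves
  obtain ⟨-, ⟨W', g', hWne', hWV', hgF', hgT', hgp', hgv'⟩⟩ := h3 S hproj (Fin m → ℂ) f 0 r δ F
    hr hδ hf' hF W₀ hW₀ hW₀ne (hW₀W.trans hWV)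
    (fun O hO hne hOs => hone O hO hne ((hOs.trans (hW₀W.trans hWV)).trans
      (prod_mono subset_rfl (subset_univ _))))
  obtain ⟨W₀', U', G', hW₀', hW₀ne', hW₀W', hGU', hGE', hGg', hb1', hb2'⟩ := hm (swapS S) hproj
    ((Fin m → ℂ) × ℂ) W' g' hWne' hgF' (fun w hw b z => by
      rw [E₁_swap]
      exact hgT' w hw b z)
  simp only [E₁_swap, E₂_swap] at hGE' hb1' hb2'
  -- the distribution `D`
  have hUU : IsOpen (U ∩ U') := hGU.1.inter hGU'.1
  have hle1 : ∀ x ∈ U ∩ U', G x ≤ E₁ S x := fun x hx => hGE x hx.1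
  have hle2 : ∀ x ∈ U ∩ U', G' x ≤ E₂ S x := fun x hx => hGE' x hx.2
  have hb1i : BrSub G (fun x => G x ⊔ E₂ S x) (U ∩ U') := fun O hO hOU =>
    hb1 O hO (hOU.trans inter_subset_left)
  have hb2i : BrSub G (E₁ S) (U ∩ U') := fun O hO hOU => hb2 O hO (hOU.trans inter_subset_left)
  have hb1i' : BrSub G' (fun x => G' x ⊔ E₁ S x) (U ∩ U') := fun O hO hOU V W a1 a2 a3 a4 =>
    hb1' O hO (hOU.trans inter_subset_right) V W a1 a2 a3 a4
  have hb2i' : BrSub G' (E₂ S) (U ∩ U') := fun O hO hOU V W a1 a2 a3 a4 x hx => by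
    have := hb2' O hO (hOU.trans inter_subset_right) V W a1 a2 a3
      (fun y hy => by rw [E₁_swap]; exact a4 y hy) x hx
    rwa [E₁_swap] at this
  have hD : IsSub (fun x => G x ⊔ G' x) (U ∩ U') := by
    refine isSub_sup (isSub_inter hGU hGU'.1) ?_ (fun x hx => disj_of_le S (hle1 x hx) (hle2 x hx))
    rw [inter_comm]
    exact isSub_inter hGU' hGU.1
  have hDD := brSub_sup S hle1 hle2 hb1i hb2i hb1i' hb2i'
  obtain ⟨Z, hZ, hZne, hZU, hZtop⟩ := he (fun x => G x ⊔ G' x) (U ∩ U') hD hDD (Fin m → ℂ)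
    (ball 0 1) f isOpen_ball hf (htwo false false) W₀' hW₀' hW₀ne'
    (((hW₀W'.trans hWV').trans (hW₀W.trans hWV)).trans (prod_mono hrM (subset_univ _)))
    (by
      intro p hp
      have hp' : p ∈ W₀ := hWV' (hW₀W' hp)
      have u1 := (hGg p hp' false p.2).1
      have u2 := (hGg' p hp false p.2).1
      rw [hgp p (hW₀W hp')] at u1
      rw [hgp' p (hW₀W' hp)] at u2
      refine ⟨⟨u1, u2⟩, ?_⟩
      have v1 := (hGg p hp' false p.2).2
      have v2 := (hGg' p hp false p.2).2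
      rw [hgp p (hW₀W hp')] at v1
      rw [hgp' p (hW₀W' hp)] at v2
      rw [hgv p (hW₀W hp')] at v1
      rw [hgv' p (hW₀W' hp)] at v2
      have hsum : (vel n (f p.1 false) p.2 : Model n) =
          pr S (f p.1 false p.2) (vel n (f p.1 false) p.2) +
          (vel n (f p.1 false) p.2 - pr S (f p.1 false p.2) (vel n (f p.1 false) p.2)) := by abel
      rw [hsum]
      exact (G (f p.1 false p.2) ⊔ G' (f p.1 false p.2)).add_mem
        (Submodule.mem_sup_left v1) (Submodule.mem_sup_right v2))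
  -- conclusion
  have hE1 : ∀ x ∈ Z, ∀ v, v ∈ E₁ S x → v ∈ G x := by
    intro x hx v hv
    have ht : v ∈ G x ⊔ G' x := by
      have htop : G x ⊔ G' x = ⊤ := hZtop x hx
      rw [htop]
      trivial
    obtain ⟨a, ha, b, hb, hab⟩ := Submodule.mem_sup.1 ht
    have ea := (mem_E₁ S).1 (hle1 x (hZU hx) ha)
    have eb := (mem_E₂ S).1 (hle2 x (hZU hx) hb)
    have ev := (mem_E₁ S).1 hv
    rw [← hab, map_add, ea, eb, add_zero] at ev
    rw [← hab, ← ev]
    exact ha
  have hE2 : ∀ x ∈ Z, ∀ v, v ∈ E₂ S x → v ∈ G' x := by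
    intro x hx v hv
    have ht : v ∈ G x ⊔ G' x := by
      have htop : G x ⊔ G' x = ⊤ := hZtop x hx
      rw [htop]
      trivial
    obtain ⟨a, ha, b, hb, hab⟩ := Submodule.mem_sup.1 ht
    have ea := (mem_E₁ S).1 (hle1 x (hZU hx) ha)
    have eb := (mem_E₂ S).1 (hle2 x (hZU hx) hb)
    have ev := (mem_E₂ S).1 hv
    rw [← hab, map_add, ea, eb, add_zero] at ev
    rw [← hab, ev, zero_add]
    exact hb
  constructor
  · refine (hi S Z hZ hZne).1 ?_
    intro x hx O hO hxO V W hV hW hVE hWE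
    refine (mem_E₁ S).1 ?_
    exact hb2i (O ∩ Z) (hO.inter hZ) (fun y hy => hZU hy.2) V W (hol_mono hV inter_subset_left)
      (hol_mono hW inter_subset_left) (fun y hy => hE1 y hy.2 _ ((mem_E₁ S).2 (hVE y hy.1)))
      (fun y hy => (mem_E₁ S).2 (hWE y hy.1)) x ⟨hxO, hx⟩
  · refine (hi S Z hZ hZne).2 ?_
    intro x hx O hO hxO V W hV hW hVE hWE
    refine (mem_E₂ S).1 ?_
    exact hb2i' (O ∩ Z) (hO.inter hZ) (fun y hy => hZU hy.2) V W (hol_mono hV inter_subset_left)
      (hol_mono hW inter_subset_left) (fun y hy => hE2 y hy.2 _ ((mem_E₂ S).2 (hVE y hy.1)))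
      (fun y hy => (mem_E₂ S).2 (hWE y hy.1)) x ⟨hxO, hx⟩

end Crest.Agent.R266.F404
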