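import Crest.Agent.R266.A.St4Coeff2

/-! R266 / A / MinGood1 (helper576): per-curve part of `St_minGood`. -/

set_option autoImplicit false

open scoped Manifold ContDiff Topology
open Set Filter
open Crest.AlgGeometry.HolSplit

namespace Crest.Agent.R266.St4

/-- the nodes used by `minGood` -/
structure Nodes (n : ℕ) (X : Type) [TopologicalSpace X] [T2Space X] [ChartedSpace (Model n) X]
    [IsManifold (mI n) ω X] : Prop where
  coeff : St_coeff n X
  dens : St_dens n X
  secAdd : St_secAdd n X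
  secProj : St_secProj n X
  secVel : St_secVel n X
  secFam : St_secFam n X
  bracket : St_bracket n X
  isKer : St_isKer n X
  kerRank : St_kerRank n X
  kerClosed : St_kerClosed n X
  openImage : St_openImage n X
  submOpen : St_submOpen n X
  subE : St_subE n X
  goodE₁ : St_goodE₁ n X

variable {n : ℕ} {X : Type} [TopologicalSpace X] [T2Space X] [ChartedSpace (Model n) X]
  [IsManifold (mI n) ω X]

theorem spanAt_iff {K : Dist n X} {g : Bool → ℂ → X} {b : Bool} {z : ℂ} : SpanAt g K b z ↔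
    ∀ u ∈ toM K (g b z), ∃ s : Bool → ℂ → Model n, IsSec n g s ∧ SecIn g s K ∧ s b z = u :=
  Iff.rfl

theorem secIn_iff {K : Dist n X} {g : Bool → ℂ → X} {s : Bool → ℂ → Model n} : SecIn g s K ↔
    ∀ b z, s b z ∈ toM K (g b z) := Iff.rfl

theorem isSec_zero {g : Bool → ℂ → X} (N : Nodes n X) (hg : IsCurve n g) {s : Bool → ℂ → Model n}
    (hs : IsSec n g s) : IsSec n g 0 := by
  have := (N.secAdd g hg).2 0 s hs
  simpa using this

theorem isSec_sum {g : Bool → ℂ → X} (N : Nodes n X) (hg : IsCurve n g) {ι : Type*}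
    (f : Finset ι) {s₀ : Bool → ℂ → Model n} (h0 : IsSec n g s₀)
    {s : ι → Bool → ℂ → Model n} (hs : ∀ i ∈ f, IsSec n g (s i)) (c : ι → ℂ) :
    IsSec n g (∑ i ∈ f, c i • s i) := by
  classical
  induction f using Finset.induction_on with
  | empty => simpa using isSec_zero N hg h0
  | insert a f ha ih =>
    rw [Finset.sum_insert ha]
    refine (N.secAdd g hg).1 _ _ ((N.secAdd g hg).2 _ _ (hs a (Finset.mem_insert_self a f))) ?_
    exact ih fun i hi => hs i (Finset.mem_insert_of_mem hi)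

theorem sum_apply_sec {ι : Type*} (f : Finset ι) (s : ι → Bool → ℂ → Model n) (c : ι → ℂ)
    (b : Bool) (z : ℂ) : (∑ i ∈ f, c i • s i) b z = ∑ i ∈ f, c i • s i b z := by
  classical
  induction f using Finset.induction_on with
  | empty => simp
  | insert a f ha ih => rw [Finset.sum_insert ha, Finset.sum_insert ha, ← ih]; rfl

/-- a section is, modulo constant combinations of the good sections, a section with values in
`H` -/
theorem sec_coeff (N : Nodes n X) {U : Set X} {H : Dist n X} {g : Bool → ℂ → X} {q : ℕ}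
    {τ : Fin q → Bool → ℂ → Model n} (hH : IsSub H U) (hg : IsCurve n g)
    (hU : ∀ b z, g b z ∈ U) (hτ : ∀ j, IsSec n g (τ j))
    (hc : ∀ b z, LinearIndependent ℂ (fun j => τ j b z) ∧
      IsCompl (toM H (g b z)) (Submodule.span ℂ (Set.range fun j => τ j b z)))
    {s : Bool → ℂ → Model n} (hs : IsSec n g s) :
    ∃ c : Fin q → ℂ, ∀ b z, s b z - ∑ j, c j • τ j b z ∈ toM H (g b z) := by
  refine N.coeff U H g q τ s hH hg hU hτ hc ?_ ?_
  · intro b z
    refine ⟨s b, hs.hol b z, Eventually.of_forall fun t => ?_⟩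
    have : s b t - s b t ∈ toM H (g b t) := by simp
    exact this
  · intro b z hz
    have : s (!b) z - s b z⁻¹ ∈ toM H (g b z⁻¹) := by
      rw [hs.glue b z hz]; simp
    exact this

/-- if in addition `s` lies in `H` at one point, it lies in `H` everywhere -/
theorem sec_in (N : Nodes n X) {U : Set X} {H : Dist n X} {g : Bool → ℂ → X}
    (hH : IsSub H U) (hg : IsCurve n g)
    (hU : ∀ b z, g b z ∈ U) (hG : Good g H)
    {s : Bool → ℂ → Model n} (hs : IsSec n g s) {b₀ : Bool} {z₀ : ℂ}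
    (h0 : s b₀ z₀ ∈ toM H (g b₀ z₀)) : SecIn g s H := by
  obtain ⟨q, τ, hτ, hc⟩ := hG
  have hc' : ∀ b z, LinearIndependent ℂ (fun j => τ j b z) ∧
      IsCompl (toM H (g b z)) (Submodule.span ℂ (Set.range fun j => τ j b z)) := hc
  obtain ⟨c, hcc⟩ := sec_coeff N hH hg hU hτ hc' hs
  have h1 : s b₀ z₀ - ∑ j, (0 : Fin q → ℂ) j • τ j b₀ z₀ ∈ toM H (g b₀ z₀) := by simpa using h0
  have h2 : c = 0 := coeff_unique (hc' b₀ z₀).1 (hc' b₀ z₀).2 (hcc b₀ z₀) h1
  intro b z
  have h3 := hcc b z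
  rw [h2] at h3
  have h4 : s b z ∈ toM H (g b z) := by simpa using h3
  exact h4

/-- spanning passes to good subbundles -/
theorem spanAt_good (N : Nodes n X) {U : Set X} {H : Dist n X} {g : Bool → ℂ → X}
    (hH : IsSub H U) (hg : IsCurve n g) (hU : ∀ b z, g b z ∈ U) (hG : Good g H)
    {b : Bool} {z : ℂ} (h : SpanAt g (fun _ => ⊤ : Dist n X) b z) : SpanAt g H b z := by
  refine spanAt_iff.2 fun u hu => ?_
  obtain ⟨s, hs, -, hsu⟩ := spanAt_iff.1 h u trivial
  refine ⟨s, hs, ?_, hsu⟩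
  refine sec_in N hH hg hU hG hs (b₀ := b) (z₀ := z) ?_
  rw [hsu]
  exact hu

theorem mem_E₁ {S : Splitting n X} {x : X} {v : Model n} :
    v ∈ toM (E₁ S) x ↔ pr S x v = v := by
  constructor
  · rintro ⟨u, rfl⟩
    exact S.idem x u
  · intro h
    exact ⟨v, h⟩

theorem mem_E₂ {S : Splitting n X} {x : X} {v : Model n} :
    v ∈ toM (E₂ S) x ↔ pr S x v = 0 := Iff.rfl

/-- the distribution `F ⊔ E₂` -/
noncomputable def HH (S : Splitting n X) (F : Dist n X) : Dist n X := fun x => F x ⊔ E₂ S x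

theorem toM_HH (S : Splitting n X) (F : Dist n X) (x : X) :
    toM (HH S F) x = toM F x ⊔ toM (E₂ S) x := rfl

theorem mem_HH {S : Splitting n X} {F : Dist n X} {x : X} (hF : toM F x ≤ toM (E₁ S) x)
    {v : Model n} : v ∈ toM (HH S F) x ↔ pr S x v ∈ toM F x := by
  rw [toM_HH]
  constructor
  · intro h
    obtain ⟨f, hf, e, he, rfl⟩ := Submodule.mem_sup.1 h
    rw [map_add, mem_E₁.1 (hF hf), mem_E₂.1 he, add_zero]
    exact hf
  · intro h
    refine Submodule.mem_sup.2 ⟨pr S x v, h, v - pr S x v, ?_, add_sub_cancel _ _⟩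
    rw [mem_E₂, map_sub, pr_idem, sub_self]

/-- spanning of `F` from spanning of `F ⊔ E₂` -/
theorem spanAt_F (N : Nodes n X) {S : Splitting n X} {F : Dist n X} {g : Bool → ℂ → X}
    (hg : IsCurve n g) (hF : ∀ b z, toM F (g b z) ≤ toM (E₁ S) (g b z))
    {b : Bool} {z : ℂ} (h : SpanAt g (HH S F) b z) : SpanAt g F b z := by
  refine spanAt_iff.2 fun u hu => ?_
  have h1 : u ∈ toM (HH S F) (g b z) := by
    rw [mem_HH (hF b z), mem_E₁.1 (hF b z hu)]
    exact hu
  obtain ⟨s, hs, hsH, hsu⟩ := spanAt_iff.1 h u h1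
  refine ⟨fun b z => pr S (g b z) (s b z), N.secProj S g hg s hs, ?_, ?_⟩
  · intro b' z'
    exact (mem_HH (hF b' z')).1 (hsH b' z')
  · show pr S (g b z) (s b z) = u
    rw [hsu]
    exact mem_E₁.1 (hF b z hu)

/-- spanning at one point implies spanning on a dense set (constant rank) -/
theorem spanAt_dense (N : Nodes n X) {K : Dist n X} {g : Bool → ℂ → X} (hg : IsCurve n g)
    {k : ℕ} (hk : ∀ b z, Module.finrank ℂ (toM K (g b z)) = k)
    {b₀ : Bool} {z₀ : ℂ} (h : SpanAt g K b₀ z₀) (b : Bool) : Dense {z | SpanAt g K b z} := by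
  have h := spanAt_iff.1 h
  obtain ⟨s0, hs0, -, -⟩ := h 0 (Submodule.zero_mem (toM K (g b₀ z₀)))
  let bs := Module.finBasisOfFinrankEq ℂ (toM K (g b₀ z₀)) (hk b₀ z₀)
  choose s hs hsK hsu using fun i : Fin k => h (bs i : Model n) (bs i).2
  have hind : LinearIndependent ℂ (fun i => s i b₀ z₀) := by
    have h1 : (fun i => s i b₀ z₀) = fun i => ((bs i : toM K (g b₀ z₀)) : Model n) :=
      funext fun i => hsu i
    rw [h1]
    exact bs.linearIndependent.map' (toM K (g b₀ z₀)).subtype (Submodule.ker_subtype _)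
  refine (N.dens g k s hg hs ⟨b₀, z₀, hind⟩ b).mono ?_
  intro z hz
  have hz' : LinearIndependent ℂ (fun i => s i b z) := hz
  have hsp : Submodule.span ℂ (Set.range fun i => s i b z) = toM K (g b z) := by
    apply Submodule.eq_of_le_of_finrank_eq
    · rw [Submodule.span_le]
      rintro _ ⟨i, rfl⟩
      exact hsK i b z
    · rw [finrank_span_eq_card hz', hk b z]
      simp
  refine spanAt_iff.2 fun u hu => ?_
  have hu' : u ∈ Submodule.span ℂ (Set.range fun i => s i b z) := by rw [hsp]; exact hu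
  obtain ⟨c, hc⟩ := (Submodule.mem_span_range_iff_exists_fun ℂ).1 hu'
  refine ⟨∑ i, c i • s i, isSec_sum N hg _ hs0 (fun i _ => hs i) c, ?_, ?_⟩
  · refine secIn_iff.2 fun b' z' => ?_
    rw [sum_apply_sec]
    exact Submodule.sum_mem _ fun i _ => Submodule.smul_mem _ _ (hsK i b' z')
  · rw [sum_apply_sec]; exact hc

end Crest.Agent.R266.St4
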