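import Crest.Agent.R266.A.MinGood1

/-! R266 / A / MinGood2 (helper576): per-curve descent. -/

set_option autoImplicit false

open scoped Manifold ContDiff Topology
open Set Filter
open Crest.AlgGeometry.HolSplit

namespace Crest.Agent.R266.St4

variable {n : ℕ} {X : Type} [TopologicalSpace X] [T2Space X] [ChartedSpace (Model n) X]
  [IsManifold (mI n) ω X]

/-- membership in `kerD` -/
theorem kerD_le (F K : Dist n X) (x : X) : toM (kerD F K) x ≤ toM F x := by
  have : Submodule.span ℂ (kerSet F K x) ≤ F x := Submodule.span_le.2 fun u hu => hu.1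
  exact this

/-- if a section of `F` lies in the kernel at one point then it lies in the kernel everywhere -/
theorem ker_of_one (N : Nodes n X) {U : Set X} {F K : Dist n X} (hF : IsSub F U) (hK : IsSub K U)
    (hFK : ∀ x ∈ U, toM F x ≤ toM K x) {g : Bool → ℂ → X} (hg : IsCurve n g)
    (hU : ∀ b z, g b z ∈ U) (hG : Good g K) (hKd : ∀ b, Dense {z | SpanAt g K b z})
    {s : Bool → ℂ → Model n} (hs : IsSec n g s) (hsF : SecIn g s F) {b₁ : Bool} {z₁ : ℂ}
    (h1 : s b₁ z₁ ∈ toM (kerD F K) (g b₁ z₁)) : SecIn g s (kerD F K) := by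
  obtain ⟨B, hB1, hB2, hB3⟩ := N.bracket F K U hF hK hFK
  have hker := (N.isKer F K U hF hK hFK).1
  have hmem : ∀ x ∈ U, ∀ u : Model n, u ∈ toM (kerD F K) x ↔
      (u ∈ toM F x ∧ ∀ v ∈ toM K x, B x u v ∈ toM K x) := by
    intro x hx u
    have h2 : (kerD F K x : Set (TangentSpace (mI n) x)) = _ := (hker x hx).trans (hB1 x hx)
    have h3 := Set.ext_iff.1 h2 u
    exact h3
  obtain ⟨q, τ, hτ, hc⟩ := hG
  have hc' : ∀ b z, LinearIndependent ℂ (fun j => τ j b z) ∧
      IsCompl (toM K (g b z)) (Submodule.span ℂ (Set.range fun j => τ j b z)) := hc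
  have hsF' := secIn_iff.1 hsF
  -- vanishing of the bracket with every section of K
  have hvan : ∀ t : Bool → ℂ → Model n, IsSec n g t → SecIn g t K → ∀ b z,
      B (g b z) (s b z) (t b z) ∈ toM K (g b z) := by
    intro t ht htK
    have htK' := secIn_iff.1 htK
    obtain ⟨c, hcc⟩ := N.coeff U K g q τ (fun b z => B (g b z) (s b z) (t b z)) hK hg hU hτ hc
      (by
        intro b z
        exact hB3 (g b) (s b) (t b) z (hU b z) (hs.hol b z) (ht.hol b z)
          (Eventually.of_forall fun y => hsF b y) (Eventually.of_forall fun y => htK b y))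
      (by
        intro b z hz
        have : B (g (!b) z) (s (!b) z) (t (!b) z) - B (g b z⁻¹) (s b z⁻¹) (t b z⁻¹) ∈
            toM K (g b z⁻¹) := by
          rw [hg.glue b z hz, hs.glue b z hz, ht.glue b z hz]
          simp
        exact this)
    have hcc' : ∀ b z, B (g b z) (s b z) (t b z) - ∑ j, c j • τ j b z ∈ toM K (g b z) := hcc
    have h2 : B (g b₁ z₁) (s b₁ z₁) (t b₁ z₁) ∈ toM K (g b₁ z₁) :=
      ((hmem _ (hU b₁ z₁) _).1 h1).2 _ (htK' b₁ z₁)
    have h3 : B (g b₁ z₁) (s b₁ z₁) (t b₁ z₁) - ∑ j, (0 : Fin q → ℂ) j • τ j b₁ z₁ ∈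
        toM K (g b₁ z₁) := by simpa using h2
    have h4 : c = 0 := coeff_unique (hc' b₁ z₁).1 (hc' b₁ z₁).2 (hcc' b₁ z₁) h3
    intro b z
    have h5 := hcc' b z
    rw [h4] at h5
    simpa using h5
  -- at spanning points
  have hspan : ∀ b z, SpanAt g K b z → s b z ∈ toM (kerD F K) (g b z) := by
    intro b z h
    rw [hmem _ (hU b z)]
    refine ⟨hsF' b z, fun v hv => ?_⟩
    obtain ⟨t, ht, htK, htv⟩ := spanAt_iff.1 h v hv
    rw [← htv]
    exact hvan t ht htK b z
  refine secIn_iff.2 fun b z => ?_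
  have hd : ∃ᶠ y in 𝓝[≠] z, s b y ∈ toM (kerD F K) (g b y) := by
    have h2 : z ∈ closure ({z | SpanAt g K b z} \ {z}) := (hKd b).sdiff_singleton z z
    rw [mem_closure_iff_frequently] at h2
    rw [frequently_nhdsWithin_iff]
    refine h2.mono ?_
    rintro y ⟨hy1, hy2⟩
    exact ⟨hspan b y hy1, hy2⟩
  have h3 := N.kerClosed F (kerD F K) U (N.isKer F K U hF hK hFK).2 (g b) (s b) z (hU b z)
    (hs.hol b z) (Eventually.of_forall fun y => hsF b y) hd
  exact h3.self_of_nhds

/-- linear algebra: a complement of a subspace inside another one -/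
theorem exists_compl_family {M : Type*} [AddCommGroup M] [Module ℂ M] [FiniteDimensional ℂ M]
    {G F : Submodule ℂ M} (hGF : G ≤ F) : ∃ (m : ℕ) (u : Fin m → M), (∀ i, u i ∈ F) ∧
      LinearIndependent ℂ u ∧ Disjoint G (Submodule.span ℂ (Set.range u)) ∧
      G ⊔ Submodule.span ℂ (Set.range u) = F ∧
      Module.finrank ℂ G + m = Module.finrank ℂ F := by
  obtain ⟨C₀, hC₀⟩ := Submodule.exists_isCompl G
  have hd : Disjoint G (C₀ ⊓ F) := hC₀.disjoint.mono_right inf_le_left
  have hs : G ⊔ C₀ ⊓ F = F := by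
    rw [← sup_inf_assoc_of_le C₀ hGF, hC₀.sup_eq_top, top_inf_eq]
  let bs := Module.finBasis ℂ (C₀ ⊓ F : Submodule ℂ M)
  have hsp : Submodule.span ℂ (Set.range fun i => ((bs i : (C₀ ⊓ F : Submodule ℂ M)) : M)) =
      C₀ ⊓ F := by
    have h1 := bs.span_eq
    have h2 := congrArg (Submodule.map (C₀ ⊓ F : Submodule ℂ M).subtype) h1
    rw [Submodule.map_span, Submodule.map_top, Submodule.range_subtype, ← Set.range_comp] at h2
    exact h2
  refine ⟨Module.finrank ℂ (C₀ ⊓ F : Submodule ℂ M), fun i => bs i, fun i => (bs i).2.2,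
    bs.linearIndependent.map' (C₀ ⊓ F : Submodule ℂ M).subtype (Submodule.ker_subtype _), ?_, ?_,
    ?_⟩
  · rw [hsp]; exact hd
  · rw [hsp]; exact hs
  · have h1 := Submodule.finrank_sup_add_finrank_inf_eq G (C₀ ⊓ F)
    rw [hs, hd.eq_bot, finrank_bot, add_zero] at h1
    exact h1.symm

/-- per-curve descent: `F = G ⊕ span s_i` at every point of the curve -/
theorem descent_curve (N : Nodes n X) {U : Set X} {F K : Dist n X} (hF : IsSub F U)
    (hK : IsSub K U) (hFK : ∀ x ∈ U, toM F x ≤ toM K x) {k : ℕ}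
    (hk : ∀ x ∈ U, Module.finrank ℂ (toM F x) = k) {g : Bool → ℂ → X} (hg : IsCurve n g)
    (hU : ∀ b z, g b z ∈ U) (hG : Good g K) (hKd : ∀ b, Dense {z | SpanAt g K b z})
    (hFd : ∀ b, Dense {z | SpanAt g F b z}) :
    ∃ (m : ℕ) (s : Fin m → Bool → ℂ → Model n), (∀ i, IsSec n g (s i)) ∧
      (∀ b z, LinearIndependent ℂ (fun i => s i b z) ∧
        Disjoint (toM (kerD F K) (g b z)) (Submodule.span ℂ (Set.range fun i => s i b z)) ∧
        toM (kerD F K) (g b z) ⊔ Submodule.span ℂ (Set.range fun i => s i b z) =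
          toM F (g b z) ∧
        Module.finrank ℂ (toM (kerD F K) (g b z)) + m = k) := by
  obtain ⟨z₀, hz₀⟩ := (hFd false).nonempty
  have hz₀' := spanAt_iff.1 hz₀
  obtain ⟨s0, hs0, -, -⟩ := hz₀' 0 (Submodule.zero_mem _)
  obtain ⟨m, u, huF, hui, hud, hus, hum⟩ := exists_compl_family (kerD_le F K (g false z₀))
  choose s hs hsF hsu using fun i => hz₀' (u i) (huF i)
  have hsF' := fun i => secIn_iff.1 (hsF i)
  have hcomb : ∀ c : Fin m → ℂ, IsSec n g (∑ i, c i • s i) :=
    fun c => isSec_sum N hg _ hs0 (fun i _ => hs i) c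
  have hcombF : ∀ c : Fin m → ℂ, SecIn g (∑ i, c i • s i) F := by
    intro c
    refine secIn_iff.2 fun b z => ?_
    rw [sum_apply_sec]
    exact Submodule.sum_mem _ fun i _ => Submodule.smul_mem _ _ (hsF' i b z)
  -- independence modulo the kernel everywhere
  have hA : ∀ b z (c : Fin m → ℂ), ∑ i, c i • s i b z ∈ toM (kerD F K) (g b z) → c = 0 := by
    intro b z c h
    have h1 : (∑ i, c i • s i) b z ∈ toM (kerD F K) (g b z) := by rw [sum_apply_sec]; exact h
    have h2 := secIn_iff.1 (ker_of_one N hF hK hFK hg hU hG hKd (hcomb c) (hcombF c) h1)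
      false z₀
    rw [sum_apply_sec] at h2
    simp only [hsu] at h2
    have h3 : ∑ i, c i • u i ∈ Submodule.span ℂ (Set.range u) :=
      Submodule.sum_mem _ fun j _ => Submodule.smul_mem _ _ (Submodule.subset_span ⟨j, rfl⟩)
    have h4 := Submodule.disjoint_def.1 hud _ h2 h3
    funext j
    exact Fintype.linearIndependent_iff.1 hui c h4 j
  have hind : ∀ b z, LinearIndependent ℂ (fun i => s i b z) := by
    intro b z
    rw [Fintype.linearIndependent_iff]
    intro c hc
    have := hA b z c (by rw [hc]; exact Submodule.zero_mem _)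
    intro i
    rw [this]; rfl
  have hdis : ∀ b z, Disjoint (toM (kerD F K) (g b z))
      (Submodule.span ℂ (Set.range fun i => s i b z)) := by
    intro b z
    rw [Submodule.disjoint_def]
    intro v hv hv'
    obtain ⟨c, hc⟩ := (Submodule.mem_span_range_iff_exists_fun ℂ).1 hv'
    have := hA b z c (by rw [hc]; exact hv)
    rw [← hc, this]
    simp
  have hle : ∀ b z, toM (kerD F K) (g b z) ⊔ Submodule.span ℂ (Set.range fun i => s i b z) ≤
      toM F (g b z) := by
    intro b z
    refine sup_le (kerD_le F K _) (Submodule.span_le.2 ?_)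
    rintro _ ⟨i, rfl⟩
    exact hsF' i b z
  have hdim : ∀ b z, Module.finrank ℂ (toM (kerD F K) (g b z) ⊔
      Submodule.span ℂ (Set.range fun i => s i b z) : Submodule ℂ (Model n)) =
      Module.finrank ℂ (toM (kerD F K) (g b z)) + m := by
    intro b z
    have h1 := Submodule.finrank_sup_add_finrank_inf_eq (toM (kerD F K) (g b z))
      (Submodule.span ℂ (Set.range fun i => s i b z))
    rw [(hdis b z).eq_bot, finrank_bot, add_zero, finrank_span_eq_card (hind b z),
      Fintype.card_fin] at h1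
    exact h1
  -- at spanning points the sum is everything
  have hB : ∀ b z, SpanAt g F b z → Module.finrank ℂ (toM (kerD F K) (g b z)) + m = k := by
    intro b z h
    have h1 : toM F (g b z) ≤ toM (kerD F K) (g b z) ⊔
        Submodule.span ℂ (Set.range fun i => s i b z) := by
      intro v hv
      obtain ⟨t, ht, htF, htv⟩ := spanAt_iff.1 h v hv
      have h2 : t false z₀ ∈ toM (kerD F K) (g false z₀) ⊔ Submodule.span ℂ (Set.range u) := by
        rw [hus]; exact secIn_iff.1 htF false z₀
      obtain ⟨a, ha, b', hb', hab⟩ := Submodule.mem_sup.1 h2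
      obtain ⟨c, hc⟩ := (Submodule.mem_span_range_iff_exists_fun ℂ).1 hb'
      have hsec : IsSec n g (t + (-1 : ℂ) • ∑ i, c i • s i) :=
        (N.secAdd g hg).1 _ _ ht ((N.secAdd g hg).2 _ _ (hcomb c))
      have hval : ∀ b z, (t + (-1 : ℂ) • ∑ i, c i • s i) b z = t b z - ∑ i, c i • s i b z := by
        intro b z
        have : (t + (-1 : ℂ) • ∑ i, c i • s i) b z =
          t b z + (-1 : ℂ) • ((∑ i, c i • s i) b z) := rfl
        rw [this, sum_apply_sec]
        module
      have hsecF : SecIn g (t + (-1 : ℂ) • ∑ i, c i • s i) F := by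
        refine secIn_iff.2 fun b z => ?_
        rw [hval]
        exact Submodule.sub_mem _ (secIn_iff.1 htF b z)
          (Submodule.sum_mem _ fun i _ => Submodule.smul_mem _ _ (hsF' i b z))
      have h3 : (t + (-1 : ℂ) • ∑ i, c i • s i) false z₀ ∈ toM (kerD F K) (g false z₀) := by
        rw [hval]
        simp only [hsu]
        rw [hc, ← hab]
        simpa using ha
      have h4 := secIn_iff.1 (ker_of_one N hF hK hFK hg hU hG hKd hsec hsecF h3) b z
      rw [hval, htv] at h4
      have h5 : v = (v - ∑ i, c i • s i b z) + ∑ i, c i • s i b z := by abel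
      rw [h5]
      refine Submodule.add_mem _ (Submodule.mem_sup_left h4) (Submodule.mem_sup_right ?_)
      exact Submodule.sum_mem _ fun j _ => Submodule.smul_mem _ _ (Submodule.subset_span ⟨j, rfl⟩)
    have h2 := le_antisymm (hle b z) h1
    rw [← hdim b z, h2, hk _ (hU b z)]
  -- in general by semicontinuity
  have hC : ∀ b z, Module.finrank ℂ (toM (kerD F K) (g b z)) + m = k := by
    intro b z
    have h1 := (N.kerRank F (kerD F K) U (fun x _ => kerD_le F K x)
      (N.isKer F K U hF hK hFK).2).1 (g b z) (hU b z)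
    have h2 : ∀ᶠ t in 𝓝 z, Module.finrank ℂ (toM (kerD F K) (g b t)) ≤
        Module.finrank ℂ (toM (kerD F K) (g b z)) :=
      ((hg.hol b z).continuousAt.eventually h1)
    have h3 : ∃ t, SpanAt g F b t ∧ Module.finrank ℂ (toM (kerD F K) (g b t)) ≤
        Module.finrank ℂ (toM (kerD F K) (g b z)) := by
      have h4 : z ∈ closure {z | SpanAt g F b z} := hFd b z
      rw [mem_closure_iff_frequently] at h4
      exact (h4.and_eventually h2).exists
    obtain ⟨t, ht1, ht2⟩ := h3
    have h5 := hB b t ht1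
    have h6 : Module.finrank ℂ (toM (kerD F K) (g b z)) + m ≤ k := by
      rw [← hdim b z, ← hk _ (hU b z)]
      exact Submodule.finrank_mono (hle b z)
    omega
  refine ⟨m, s, hs, fun b z => ⟨hind b z, hdis b z, ?_, hC b z⟩⟩
  apply Submodule.eq_of_le_of_finrank_eq (hle b z)
  rw [hdim b z, hC b z, hk _ (hU b z)]

end Crest.Agent.R266.St4
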