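import Crest.Agent.R266.A.MinGood2

/-! R266 / A / MinGood3 (helper576): descent over the family. -/

set_option autoImplicit false

open scoped Manifold ContDiff Topology
open Set Filter
open Crest.AlgGeometry.HolSplit

namespace Crest.Agent.R266.St4

section la

variable {M : Type*} [AddCommGroup M] [Module ℂ M]

theorem compl_step {G E F : Submodule ℂ M} {m q : ℕ} {u : Fin m → M} {t : Fin q → M}
    (hu : LinearIndependent ℂ u) (hGu : Disjoint G (Submodule.span ℂ (Set.range u)))
    (hF : G ⊔ Submodule.span ℂ (Set.range u) = F) (ht : LinearIndependent ℂ t)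
    (hc : IsCompl (F ⊔ E) (Submodule.span ℂ (Set.range t))) (hFE : Disjoint F E) :
    LinearIndependent ℂ (fun j : Fin (m + q) => Sum.elim u t (finSumFinEquiv.symm j)) ∧
    IsCompl (G ⊔ E) (Submodule.span ℂ
      (Set.range (fun j : Fin (m + q) => Sum.elim u t (finSumFinEquiv.symm j)))) := by
  have huF : Submodule.span ℂ (Set.range u) ≤ F := by rw [← hF]; exact le_sup_right
  have h1 : LinearIndependent ℂ (Sum.elim u t) :=
    LinearIndependent.sum_type hu ht (hc.disjoint.mono_left (huF.trans le_sup_left))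
  have hr : Set.range (fun j : Fin (m + q) => Sum.elim u t (finSumFinEquiv.symm j)) =
      Set.range u ∪ Set.range t := by
    have h2 : (fun j : Fin (m + q) => Sum.elim u t (finSumFinEquiv.symm j)) =
        Sum.elim u t ∘ finSumFinEquiv.symm := rfl
    rw [h2, Set.range_comp, finSumFinEquiv.symm.range_eq_univ, Set.image_univ, Set.Sum.elim_range]
  refine ⟨h1.comp _ finSumFinEquiv.symm.injective, ?_⟩
  rw [hr, Submodule.span_union]
  constructor
  · rw [Submodule.disjoint_def]
    intro v hv hv'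
    obtain ⟨g, hg, e, he, rfl⟩ := Submodule.mem_sup.1 hv
    obtain ⟨a, ha, b, hb, hab⟩ := Submodule.mem_sup.1 hv'
    have h3 : b = g + e - a := by rw [← hab]; abel
    have hgF : g ∈ F := by rw [← hF]; exact Submodule.mem_sup_left hg
    have h4 : b ∈ F ⊔ E := by
      rw [h3]
      refine Submodule.sub_mem _ (Submodule.add_mem _ (Submodule.mem_sup_left hgF)
        (Submodule.mem_sup_right he)) (Submodule.mem_sup_left (huF ha))
    have h5 : b = 0 := Submodule.disjoint_def.1 hc.disjoint _ h4 hb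
    have h6 : a = g + e := by rw [h5, add_zero] at hab; exact hab
    have h7 : a - g = e := by rw [h6]; abel
    have h8 : e ∈ F := by rw [← h7]; exact Submodule.sub_mem _ (huF ha) hgF
    have h9 : e = 0 := Submodule.disjoint_def.1 hFE _ h8 he
    have h10 : g = a := by rw [h6, h9, add_zero]
    have h11 : g = 0 := Submodule.disjoint_def.1 hGu _ hg (by rw [h10]; exact ha)
    rw [h11, h9, add_zero]
  · rw [codisjoint_iff]
    have h2 : G ⊔ E ⊔ (Submodule.span ℂ (Set.range u) ⊔ Submodule.span ℂ (Set.range t)) =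
        (G ⊔ Submodule.span ℂ (Set.range u)) ⊔ E ⊔ Submodule.span ℂ (Set.range t) := by
      rw [← sup_assoc, sup_right_comm G E]
    rw [h2, hF, hc.sup_eq_top]

end la

variable {n : ℕ} {X : Type} [TopologicalSpace X] [T2Space X] [ChartedSpace (Model n) X]
  [IsManifold (mI n) ω X]

theorem disjoint_E (S : Splitting n X) {F : Submodule ℂ (Model n)} {x : X}
    (hF : F ≤ toM (E₁ S) x) : Disjoint F (toM (E₂ S) x) := by
  rw [Submodule.disjoint_def]
  intro v hv hv'
  rw [← mem_E₁.1 (hF hv)]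
  exact mem_E₂.1 hv'

/-- the rank of a subbundle is constant along a curve -/
theorem rank_const {U : Set X} {K : Dist n X} (hK : IsSub K U) {g : Bool → ℂ → X}
    (hg : IsCurve n g) (hU : ∀ b z, g b z ∈ U) :
    ∃ k, ∀ b z, Module.finrank ℂ (toM K (g b z)) = k := by
  have hloc : ∀ b, IsLocallyConstant (fun z => Module.finrank ℂ (toM K (g b z))) := by
    intro b
    rw [IsLocallyConstant.iff_eventually_eq]
    intro z
    obtain ⟨O, k, V, hxO, hOU, hV⟩ := hK.2 (g b z) (hU b z)
    have hO : ∀ᶠ t in 𝓝 z, g b t ∈ O :=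
      (hg.hol b z).continuousAt.preimage_mem_nhds (hV.isOpen.mem_nhds hxO)
    have hr : ∀ y ∈ O, Module.finrank ℂ (toM K y) = k := by
      intro y hy
      rw [← span_iff.1 (hV.span y hy)]
      have h1 : LinearIndependent ℂ (fun i => vv (V i) y) := hV.indep y hy
      rw [finrank_span_eq_card h1, Fintype.card_fin]
    filter_upwards [hO] with t ht
    rw [hr _ ht, hr _ hxO]
  refine ⟨Module.finrank ℂ (toM K (g false 0)), ?_⟩
  intro b z
  cases b with
  | false => exact (hloc false).apply_eq_of_isPreconnected isPreconnected_univ trivial trivial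
  | true =>
    have h1 : Module.finrank ℂ (toM K (g true z)) = Module.finrank ℂ (toM K (g true 1)) :=
      (hloc true).apply_eq_of_isPreconnected isPreconnected_univ trivial trivial
    have h2 : g true 1 = g false 1 := by
      have := hg.glue false 1 one_ne_zero
      simpa using this
    rw [h1, h2]
    exact (hloc false).apply_eq_of_isPreconnected isPreconnected_univ trivial trivial

variable {E : Type} [NormedAddCommGroup E] [NormedSpace ℂ E] [FiniteDimensional ℂ E]

theorem Fam.mono {W W' : Set E} {g : E → Bool → ℂ → X} (h : Fam n W g) (hW' : IsOpen W')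
    (hs : W' ⊆ W) : Fam n W' g where
  isOpen := hW'
  hol := fun b => (h.hol b).mono (Set.prod_mono hs subset_rfl)
  glue := fun w hw => h.glue w (hs hw)
  subm := fun b O hO hne hsub => h.subm b O hO hne (hsub.trans (Set.prod_mono hs subset_rfl))

/-- the data of the induction -/
structure DD (S : Splitting n X) (U : Set X) (F : Dist n X) (k : ℕ) (W : Set E)
    (g : E → Bool → ℂ → X) : Prop where
  hW : W.Nonempty
  fam : Fam n W g
  subF : IsSub F U
  leF : ∀ x ∈ U, toM F x ≤ toM (E₁ S) x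
  rk : ∀ x ∈ U, Module.finrank ℂ (toM F x) = k
  inU : ∀ w ∈ W, ∀ b z, g w b z ∈ U
  goodH : ∀ w ∈ W, Good (g w) (HH S F)
  goodE : ∀ w ∈ W, Good (g w) (E₁ S)
  span : ∀ w ∈ W, ∃ b z, SpanAt (g w) (fun _ => ⊤ : Dist n X) b z

theorem exists_min_on {α : Type*} {W : Set α} (hW : W.Nonempty) (f : α → ℕ) :
    ∃ w ∈ W, ∀ w' ∈ W, f w ≤ f w' := by
  have h1 : (f '' W).Nonempty := hW.image f
  obtain ⟨w, hw, hfw⟩ := Nat.sInf_mem h1
  refine ⟨w, hw, fun w' hw' => ?_⟩
  rw [hfw]
  exact Nat.sInf_le ⟨w', hw', rfl⟩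

theorem descent (N : Nodes n X) {S : Splitting n X} {U : Set X} {F : Dist n X} {k : ℕ}
    {W : Set E} {g : E → Bool → ℂ → X} (D : DD S U F k W g) {K : Dist n X} (hK : IsSub K U)
    (hFK : ∀ x ∈ U, toM F x ≤ toM K x) (hG : ∀ w ∈ W, Good (g w) K) :
    ∃ (W' : Set E) (U' : Set X) (r : ℕ), IsOpen W' ∧ W'.Nonempty ∧ W' ⊆ W ∧ U' ⊆ U ∧
      IsSub (kerD F K) U' ∧ (∀ x ∈ U', Module.finrank ℂ (toM (kerD F K) x) = r) ∧ r ≤ k ∧
      (∀ w ∈ W', ∀ b z, g w b z ∈ U') ∧
      ∀ w ∈ W', ∃ (m : ℕ) (s : Fin m → Bool → ℂ → Model n), (∀ i, IsSec n (g w) (s i)) ∧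
      (∀ b z, LinearIndependent ℂ (fun i => s i b z) ∧
        Disjoint (toM (kerD F K) (g w b z)) (Submodule.span ℂ (Set.range fun i => s i b z)) ∧
        toM (kerD F K) (g w b z) ⊔ Submodule.span ℂ (Set.range fun i => s i b z) =
          toM F (g w b z)) := by
  have hcurve : ∀ w ∈ W, IsCurve n (g w) := fun w hw => (N.secFam E W g D.fam w hw).1
  have hker := N.isKer F K U D.subF hK hFK
  have hHsub : IsSub (HH S F) U := (N.subE S).2.2 F U D.subF D.leF
  have hcv : ∀ w ∈ W, ∃ (m : ℕ) (s : Fin m → Bool → ℂ → Model n), (∀ i, IsSec n (g w) (s i)) ∧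
      (∀ b z, LinearIndependent ℂ (fun i => s i b z) ∧
        Disjoint (toM (kerD F K) (g w b z)) (Submodule.span ℂ (Set.range fun i => s i b z)) ∧
        toM (kerD F K) (g w b z) ⊔ Submodule.span ℂ (Set.range fun i => s i b z) =
          toM F (g w b z) ∧
        Module.finrank ℂ (toM (kerD F K) (g w b z)) + m = k) := by
    intro w hw
    obtain ⟨b, z, hbz⟩ := D.span w hw
    have hg := hcurve w hw
    have hKs : SpanAt (g w) K b z := spanAt_good N hK hg (D.inU w hw) (hG w hw) hbz
    have hHs : SpanAt (g w) (HH S F) b z :=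
      spanAt_good N hHsub hg (D.inU w hw) (D.goodH w hw) hbz
    have hFs : SpanAt (g w) F b z := spanAt_F N hg (fun b z => D.leF _ (D.inU w hw b z)) hHs
    obtain ⟨kK, hkK⟩ := rank_const hK hg (D.inU w hw)
    exact descent_curve N D.subF hK hFK D.rk hg (D.inU w hw) (hG w hw)
      (fun b => spanAt_dense N hg hkK hKs b)
      (fun b => spanAt_dense N hg (fun b z => D.rk _ (D.inU w hw b z)) hFs b)
  -- the rank of the kernel along a curve
  have hrk : ∀ w ∈ W, ∀ b z, Module.finrank ℂ (toM (kerD F K) (g w b z)) =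
      Module.finrank ℂ (toM (kerD F K) (g w false 0)) := by
    intro w hw b z
    obtain ⟨m, s, -, h⟩ := hcv w hw
    have h1 := (h b z).2.2.2
    have h2 := (h false 0).2.2.2
    omega
  obtain ⟨w₁, hw₁, hmin⟩ := exists_min_on D.hW
    (fun w => Module.finrank ℂ (toM (kerD F K) (g w false 0)))
  set r := Module.finrank ℂ (toM (kerD F K) (g w₁ false 0)) with hr
  obtain ⟨hsemi, hident, hconst⟩ := N.kerRank F (kerD F K) U (fun x _ => kerD_le F K x) hker.2
  have hcont : ∀ b, ContinuousOn (fun q : E × ℂ => g q.1 b q.2) (W ×ˢ univ) :=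
    fun b => (D.fam.hol b).continuousOn
  set W' : Set E := {w | w ∈ W ∧ Module.finrank ℂ (toM (kerD F K) (g w false 0)) = r} with hW'
  have hW'W : W' ⊆ W := fun w hw => hw.1
  have hW'o : IsOpen W' := by
    rw [isOpen_iff_mem_nhds]
    intro w hw
    have h1 := hsemi (g w false 0) (D.inU w hw.1 false 0)
    have h2 : ContinuousAt (fun w' => g w' false 0) w := by
      have h3 : ContinuousAt (fun q : E × ℂ => g q.1 false q.2) (w, 0) :=
        (hcont false).continuousAt ((D.fam.isOpen.prod isOpen_univ).mem_nhds ⟨hw.1, trivial⟩)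
      have h4 : ContinuousAt (fun w' : E => (w', (0 : ℂ))) w := by fun_prop
      exact ContinuousAt.comp (f := fun w' : E => (w', (0 : ℂ))) h3 h4
    have h5 := h2.eventually h1
    filter_upwards [h5, D.fam.isOpen.mem_nhds hw.1] with w' h6 h7
    refine ⟨h7, ?_⟩
    have h8 := hmin w' h7
    have h9 := hw.2
    have h6' : Module.finrank ℂ (toM (kerD F K) (g w' false 0)) ≤
      Module.finrank ℂ (toM (kerD F K) (g w false 0)) := h6
    have h8' : r ≤ Module.finrank ℂ (toM (kerD F K) (g w' false 0)) := h8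
    omega
  have hfam' : Fam n W' g := D.fam.mono hW'o hW'W
  set U' : Set X := interior {x | x ∈ U ∧ Module.finrank ℂ (toM (kerD F K) x) = r} with hU'
  have hU'sub : ∀ x ∈ U', x ∈ U ∧ Module.finrank ℂ (toM (kerD F K) x) = r :=
    fun x hx => (interior_subset (s := {x | x ∈ U ∧ Module.finrank ℂ (toM (kerD F K) x) = r}) hx :)
  have hin : ∀ w ∈ W', ∀ b z, g w b z ∈ U' := by
    intro w hw b z
    have hx := D.inU w hw.1 b z
    have hrx : Module.finrank ℂ (toM (kerD F K) (g w b z)) = r := by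
      rw [hrk w hw.1 b z]; exact hw.2
    obtain ⟨B, hBo, hxB, hBU, hB⟩ := hident (g w b z) hx
    have hΩo : IsOpen ((W' ×ˢ univ) ∩ (fun q : E × ℂ => g q.1 b q.2) ⁻¹' B) :=
      ((hcont b).mono (Set.prod_mono hW'W subset_rfl)).isOpen_inter_preimage
        (hW'o.prod isOpen_univ) hBo
    obtain ⟨O', hO'o, hO'n, hO's⟩ := N.openImage E W' g hfam' b _ hΩo
      ⟨(w, z), ⟨hw, trivial⟩, hxB⟩ inter_subset_left
    have hge : ∀ y ∈ B, r ≤ Module.finrank ℂ (toM (kerD F K) y) := by
      refine hB r O' hO'o hO'n ?_ ?_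
      · intro y hy
        obtain ⟨p, hp, rfl⟩ := hO's hy
        exact hp.2
      · intro y hy
        obtain ⟨p, hp, rfl⟩ := hO's hy
        have h1 := hrk p.1 hp.1.1.1 b p.2
        have h2 := hp.1.1.2
        have h3 : Module.finrank ℂ (toM (kerD F K) (g p.1 b p.2)) = r := by rw [h1]; exact h2
        exact h3.ge
    rw [hU', mem_interior_iff_mem_nhds]
    have h1 := hsemi (g w b z) hx
    filter_upwards [h1, hBo.mem_nhds hxB] with y hy1 hy2
    refine ⟨hBU hy2, le_antisymm ?_ (hge y hy2)⟩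
    have h4 : Module.finrank ℂ (toM (kerD F K) y) ≤
      Module.finrank ℂ (toM (kerD F K) (g w b z)) := hy1
    omega
  refine ⟨W', U', r, hW'o, ⟨w₁, hw₁, rfl⟩, hW'W, fun x hx => (hU'sub x hx).1, ?_,
    fun x hx => (hU'sub x hx).2, ?_, hin, ?_⟩
  · exact hconst r U' isOpen_interior (fun x hx => (hU'sub x hx).1) (fun x hx => (hU'sub x hx).2)
  · have h1 : Module.finrank ℂ (toM (kerD F K) (g w₁ false 0)) ≤
        Module.finrank ℂ (toM F (g w₁ false 0)) := Submodule.finrank_mono (kerD_le F K _)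
    rw [D.rk _ (D.inU w₁ hw₁ false 0)] at h1
    exact h1
  · intro w hw
    obtain ⟨m, s, hs, h⟩ := hcv w (hW'W hw)
    exact ⟨m, s, hs, fun b z => ⟨(h b z).1, (h b z).2.1, (h b z).2.2.1⟩⟩

end Crest.Agent.R266.St4
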