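import Crest.Agent.R266.A.MinGood3

/-! R266 / A / MinGood4 (helper576): the induction, `minGood_of_nodes`. -/

set_option autoImplicit false

open scoped Manifold ContDiff Topology
open Set Filter
open Crest.AlgGeometry.HolSplit

namespace Crest.Agent.R266.St4

variable {n : ℕ} {X : Type} [TopologicalSpace X] [T2Space X] [ChartedSpace (Model n) X]
  [IsManifold (mI n) ω X]

theorem IsSub.mono {H : Dist n X} {U U' : Set X} (h : IsSub H U) (hU' : IsOpen U')
    (hs : U' ⊆ U) : IsSub H U' := by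
  refine ⟨hU', fun x hx => ?_⟩
  obtain ⟨O, k, V, hxO, hOU, hV⟩ := h.2 x (hs hx)
  refine ⟨O ∩ U', k, V, ⟨hxO, hx⟩, inter_subset_right, ?_⟩
  exact
    { isOpen := hV.isOpen.inter hU'
      hol := fun i => ContMDiffOn.mono (hV.hol i) inter_subset_left
      indep := fun y hy => hV.indep y hy.1
      span := fun y hy => hV.span y hy.1 }

theorem BrSub.mono {F K : Dist n X} {U U' : Set X} (h : BrSub F K U) (hs : U' ⊆ U) :
    BrSub F K U' := fun O hO hOU => h O hO (hOU.trans hs)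

/-- the kernel is everything iff the bracket closes -/
theorem brSub_of_ker (N : Nodes n X) {U U' : Set X} {F K : Dist n X} (hF : IsSub F U)
    (hK : IsSub K U) (hFK : ∀ x ∈ U, toM F x ≤ toM K x) (hs : U' ⊆ U)
    (h : ∀ x ∈ U', toM (kerD F K) x = toM F x) : BrSub F K U' := by
  intro O hO hOU V W hV hW hVF hWK x hx
  have h1 := (N.isKer F K U hF hK hFK).1 x (hs (hOU hx))
  have h2 : vv V x ∈ toM (kerD F K) x := by
    rw [h x (hOU hx)]
    exact hVF x hx
  have h3 : (V x : TangentSpace (mI n) x) ∈ kerSet F K x := by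
    rw [← h1]
    exact h2
  exact h3.2 O V W hO hx hV hW hVF hWK rfl

variable {E : Type} [NormedAddCommGroup E] [NormedSpace ℂ E] [FiniteDimensional ℂ E]

theorem good_step {S : Splitting n X} {F G : Dist n X} {g : Bool → ℂ → X}
    (hF : ∀ b z, toM F (g b z) ≤ toM (E₁ S) (g b z)) (hH : Good g (HH S F))
    {m : ℕ} {s : Fin m → Bool → ℂ → Model n} (hs : ∀ i, IsSec n g (s i))
    (h : ∀ b z, LinearIndependent ℂ (fun i => s i b z) ∧
        Disjoint (toM G (g b z)) (Submodule.span ℂ (Set.range fun i => s i b z)) ∧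
        toM G (g b z) ⊔ Submodule.span ℂ (Set.range fun i => s i b z) =
          toM F (g b z)) : Good g (HH S G) := by
  obtain ⟨q, τ, hτ, hc⟩ := hH
  have hc' : ∀ b z, LinearIndependent ℂ (fun j => τ j b z) ∧
      IsCompl (toM F (g b z) ⊔ toM (E₂ S) (g b z))
        (Submodule.span ℂ (Set.range fun j => τ j b z)) := hc
  refine ⟨m + q, fun j => Sum.elim s τ (finSumFinEquiv.symm j), ?_, ?_⟩
  · intro j
    rcases h' : finSumFinEquiv.symm j with i | i
    · simp only [h', Sum.elim_inl]; exact hs i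
    · simp only [h', Sum.elim_inr]; exact hτ i
  · intro b z
    have h1 := compl_step (h b z).1 (h b z).2.1 (h b z).2.2 (hc' b z).1 (hc' b z).2
      (disjoint_E S (hF b z))
    have h2 : (fun j : Fin (m + q) => (Sum.elim s τ (finSumFinEquiv.symm j)) b z) =
        (fun j : Fin (m + q) => Sum.elim (fun i => s i b z) (fun i => τ i b z)
          (finSumFinEquiv.symm j)) := by
      funext j
      rcases finSumFinEquiv.symm j with i | i <;> rfl
    rw [← h2] at h1
    exact h1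

/-- the data after a descent with smaller rank -/
theorem DD.next {S : Splitting n X} {U : Set X} {F : Dist n X} {k : ℕ}
    {W : Set E} {g : E → Bool → ℂ → X} (D : DD S U F k W g) {G : Dist n X}
    (hGF : ∀ x, toM G x ≤ toM F x)
    {W' : Set E} {U' : Set X} {r : ℕ} (hW'o : IsOpen W') (hW'n : W'.Nonempty) (hW'W : W' ⊆ W)
    (hU'U : U' ⊆ U) (hsub : IsSub G U')
    (hrk : ∀ x ∈ U', Module.finrank ℂ (toM G x) = r)
    (hin : ∀ w ∈ W', ∀ b z, g w b z ∈ U')
    (hdec : ∀ w ∈ W', ∃ (m : ℕ) (s : Fin m → Bool → ℂ → Model n), (∀ i, IsSec n (g w) (s i)) ∧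
      (∀ b z, LinearIndependent ℂ (fun i => s i b z) ∧
        Disjoint (toM G (g w b z)) (Submodule.span ℂ (Set.range fun i => s i b z)) ∧
        toM G (g w b z) ⊔ Submodule.span ℂ (Set.range fun i => s i b z) =
          toM F (g w b z))) : DD S U' G r W' g where
  hW := hW'n
  fam := D.fam.mono hW'o hW'W
  subF := hsub
  leF := fun x hx => (hGF x).trans (D.leF x (hU'U hx))
  rk := hrk
  inU := hin
  goodH := by
    intro w hw
    obtain ⟨m, s, hs, h⟩ := hdec w hw
    exact good_step (fun b z => D.leF _ (D.inU w (hW'W hw) b z)) (D.goodH w (hW'W hw)) hs h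
  goodE := fun w hw => D.goodE w (hW'W hw)
  span := fun w hw => D.span w (hW'W hw)

/-- restriction of the data -/
theorem DD.restrict {S : Splitting n X} {U : Set X} {F : Dist n X} {k : ℕ}
    {W : Set E} {g : E → Bool → ℂ → X} (D : DD S U F k W g)
    {W' : Set E} {U' : Set X} (hW'o : IsOpen W') (hW'n : W'.Nonempty) (hW'W : W' ⊆ W)
    (hU'o : IsOpen U') (hU'U : U' ⊆ U) (hin : ∀ w ∈ W', ∀ b z, g w b z ∈ U') :
    DD S U' F k W' g where
  hW := hW'n
  fam := D.fam.mono hW'o hW'W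
  subF := D.subF.mono hU'o hU'U
  leF := fun x hx => D.leF x (hU'U hx)
  rk := fun x hx => D.rk x (hU'U hx)
  inU := hin
  goodH := fun w hw => D.goodH w (hW'W hw)
  goodE := fun w hw => D.goodE w (hW'W hw)
  span := fun w hw => D.span w (hW'W hw)

theorem le_HH (S : Splitting n X) (F : Dist n X) (x : X) : toM F x ≤ toM (HH S F) x :=
  le_sup_left

theorem minGood_aux (N : Nodes n X) (S : Splitting n X) (k : ℕ) :
    ∀ (U : Set X) (F : Dist n X) (W : Set E) (g : E → Bool → ℂ → X), DD S U F k W g →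
    (∀ w ∈ W, ∀ b z, vel n (g w b) z ∈ toM (E₁ S) (g w b z)) →
    ∃ (W₀ : Set E) (U : Set X) (F : Dist n X), IsOpen W₀ ∧ W₀.Nonempty ∧ W₀ ⊆ W ∧ IsSub F U ∧
      (∀ x ∈ U, F x ≤ E₁ S x) ∧ (∀ w ∈ W₀, ∀ b z, g w b z ∈ U ∧
        (vel n (g w b) z : TangentSpace (mI n) (g w b z)) ∈ F (g w b z)) ∧
      BrSub F (fun x => F x ⊔ E₂ S x) U ∧ BrSub F (E₁ S) U := by
  induction k using Nat.strong_induction_on with
  | _ k ih =>
  intro U F W g D htan
  have hHsub : IsSub (HH S F) U := (N.subE S).2.2 F U D.subF D.leF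
  obtain ⟨W', U', r, hW'o, hW'n, hW'W, hU'U, hsub, hrk, hrk', hin, hdec⟩ :=
    descent N D hHsub (fun x _ => le_HH S F x) D.goodH
  rcases lt_or_eq_of_le hrk' with hlt | heq
  · have D' := D.next (kerD_le F (HH S F)) hW'o hW'n hW'W hU'U hsub hrk hin hdec
    obtain ⟨W₀, U₀, F₀, h1, h2, h3, h4⟩ := ih r hlt U' _ W' g D'
      (fun w hw => htan w (hW'W hw))
    exact ⟨W₀, U₀, F₀, h1, h2, h3.trans hW'W, h4⟩
  have hbr1 : BrSub F (HH S F) U' := by
    refine brSub_of_ker N D.subF hHsub (fun x _ => le_HH S F x) hU'U fun x hx => ?_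
    apply Submodule.eq_of_le_of_finrank_eq (kerD_le F (HH S F) x)
    rw [hrk x hx, heq, D.rk x (hU'U hx)]
  have D1 := D.restrict hW'o hW'n hW'W hsub.1 hU'U hin
  have hE1 : IsSub (E₁ S) U' := (N.subE S).1.mono hsub.1 (subset_univ _)
  obtain ⟨W'', U'', r2, hWo, hWn, hWW, hUU, hsub2, hrk2, hrk2', hin2, hdec2⟩ :=
    descent N D1 hE1 D1.leF D1.goodE
  rcases lt_or_eq_of_le hrk2' with hlt2 | heq2
  · have D' := D1.next (kerD_le F (E₁ S)) hWo hWn hWW hUU hsub2 hrk2 hin2 hdec2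
    obtain ⟨W₀, U₀, F₀, h1, h2, h3, h4⟩ := ih r2 hlt2 U'' _ W'' g D'
      (fun w hw => htan w (hW'W (hWW hw)))
    exact ⟨W₀, U₀, F₀, h1, h2, h3.trans (hWW.trans hW'W), h4⟩
  have hbr2 : BrSub F (E₁ S) U'' := by
    refine brSub_of_ker N D1.subF hE1 D1.leF hUU fun x hx => ?_
    apply Submodule.eq_of_le_of_finrank_eq (kerD_le F (E₁ S) x)
    rw [hrk2 x hx, heq2, D1.rk x (hUU hx)]
  have D2 := D1.restrict hWo hWn hWW hsub2.1 hUU hin2
  have hH2 : IsSub (HH S F) U'' := (N.subE S).2.2 F U'' D2.subF D2.leF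
  refine ⟨W'', U'', F, hWo, hWn, hWW.trans hW'W, D2.subF, D2.leF, ?_, hbr1.mono hUU, hbr2⟩
  intro w hw b z
  refine ⟨hin2 w hw b z, ?_⟩
  have hg : IsCurve n (g w) := (N.secFam E W'' g D2.fam w hw).1
  obtain ⟨s, hs, hsb, hsb'⟩ := N.secVel (g w) hg b 1 0 0
  have h0 : s (!b) 0 ∈ toM (HH S F) (g w (!b) 0) := by
    rw [hsb' 0]
    simp
  have h1 := secIn_iff.1 (sec_in N hH2 hg (hin2 w hw) (D2.goodH w hw) hs h0) b z
  rw [hsb z] at h1
  have h2 : vel n (g w b) z ∈ toM (HH S F) (g w b z) := by simpa using h1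
  rw [mem_HH (D2.leF _ (hin2 w hw b z)), mem_E₁.1 (htan w (hW'W (hWW hw)) b z)] at h2
  exact h2

theorem sup_E (S : Splitting n X) (x : X) : toM (E₁ S) x ⊔ toM (E₂ S) x = ⊤ := by
  rw [eq_top_iff]
  intro v _
  refine Submodule.mem_sup.2 ⟨pr S x v, ?_, v - pr S x v, ?_, add_sub_cancel _ _⟩
  · rw [mem_E₁, pr_idem]
  · rw [mem_E₂, map_sub, pr_idem, sub_self]

theorem minGood_of_nodes (N : Nodes n X) : St_minGood n X := by
  intro S hproj E _ _ _ W g hWn hfam htan
  obtain ⟨hE1, hE2, -⟩ := N.subE S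
  obtain ⟨⟨w₁, z₁⟩, hp, hsurj⟩ := hfam.subm false (W ×ˢ univ) (hfam.isOpen.prod isOpen_univ)
    (hWn.prod univ_nonempty) subset_rfl
  have hopen := N.submOpen E W g hfam false (w₁, z₁) hp hsurj
  set k := Module.finrank ℂ (toM (E₁ S) (g w₁ false 0)) with hk
  set U₁ : Set X := interior {x | Module.finrank ℂ (toM (E₁ S) x) = k} with hU₁
  have hU₁rk : ∀ x ∈ U₁, Module.finrank ℂ (toM (E₁ S) x) = k := fun x hx =>
    (interior_subset (s := {x | Module.finrank ℂ (toM (E₁ S) x) = k}) hx :)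
  have hmemU₁ : ∀ x, Module.finrank ℂ (toM (E₁ S) x) = k → x ∈ U₁ := by
    intro x hx
    rw [hU₁, mem_interior_iff_mem_nhds]
    obtain ⟨O, l, V, hxO, -, hV⟩ := hE1.2 x trivial
    have hr : ∀ y ∈ O, Module.finrank ℂ (toM (E₁ S) y) = l := by
      intro y hy
      rw [← span_iff.1 (hV.span y hy)]
      have h1 : LinearIndependent ℂ (fun i => vv (V i) y) := hV.indep y hy
      rw [finrank_span_eq_card h1, Fintype.card_fin]
    filter_upwards [hV.isOpen.mem_nhds hxO] with y hy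
    show Module.finrank ℂ (toM (E₁ S) y) = k
    rw [hr y hy, ← hr x hxO, hx]
  set W₁ : Set E := interior {w | w ∈ W ∧ g w false 0 ∈ U₁ ∧
    Function.Surjective (dfam n g false (w, z₁))} with hW₁
  have hW₁s : ∀ w ∈ W₁, w ∈ W ∧ g w false 0 ∈ U₁ ∧
      Function.Surjective (dfam n g false (w, z₁)) := fun w hw =>
    (interior_subset (s := {w | w ∈ W ∧ g w false 0 ∈ U₁ ∧
      Function.Surjective (dfam n g false (w, z₁))}) hw :)
  have hw₁ : w₁ ∈ W₁ := by
    rw [hW₁, mem_interior_iff_mem_nhds]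
    have h2 : ContinuousAt (fun w' => g w' false 0) w₁ := by
      have h3 : ContinuousAt (fun q : E × ℂ => g q.1 false q.2) (w₁, 0) :=
        (hfam.hol false).continuousOn.continuousAt
          ((hfam.isOpen.prod isOpen_univ).mem_nhds ⟨hp.1, trivial⟩)
      have h4 : ContinuousAt (fun w' : E => (w', (0 : ℂ))) w₁ := by fun_prop
      exact ContinuousAt.comp (f := fun w' : E => (w', (0 : ℂ))) h3 h4
    have h5 : ∀ᶠ w in 𝓝 w₁, g w false 0 ∈ U₁ :=
      h2.preimage_mem_nhds (isOpen_interior.mem_nhds (hmemU₁ _ rfl))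
    have h6 : ContinuousAt (fun w : E => (w, z₁)) w₁ := by fun_prop
    have h7 : ∀ᶠ w in 𝓝 w₁, Function.Surjective (dfam n g false (w, z₁)) := h6.eventually hopen
    filter_upwards [hfam.isOpen.mem_nhds hp.1, h5, h7] with w h8 h9 h10
    exact ⟨h8, h9, h10⟩
  have hW₁W : W₁ ⊆ W := fun w hw => (hW₁s w hw).1
  have hfam₁ : Fam n W₁ g := hfam.mono isOpen_interior hW₁W
  have hcurve : ∀ w ∈ W, IsCurve n (g w) := fun w hw => (N.secFam E W g hfam w hw).1
  have hspan : ∀ w ∈ W₁, SpanAt (g w) (fun _ => ⊤ : Dist n X) false z₁ := fun w hw =>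
    (N.secFam E W g hfam w (hW₁W hw)).2 false z₁ (hW₁s w hw).2.2
  have D : DD S U₁ (E₁ S) k W₁ g :=
    { hW := ⟨w₁, hw₁⟩
      fam := hfam₁
      subF := hE1.mono isOpen_interior (subset_univ _)
      leF := fun x _ => le_rfl
      rk := hU₁rk
      inU := by
        intro w hw b z
        obtain ⟨l, hl⟩ := rank_const hE1 (hcurve w (hW₁W hw)) (fun b z => trivial)
        refine hmemU₁ _ ?_
        rw [hl b z, ← hl false 0]
        exact hU₁rk _ (hW₁s w hw).2.1
      goodH := by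
        intro w hw
        refine ⟨0, fun j => j.elim0, fun j => j.elim0, fun b z => ⟨linearIndependent_empty_type, ?_⟩⟩
        have key : ∀ f : Fin 0 → Model n, IsCompl (toM (E₁ S) (g w b z) ⊔ toM (E₂ S) (g w b z))
            (Submodule.span ℂ (Set.range f)) := by
          intro f
          rw [sup_E, Set.range_eq_empty, Submodule.span_empty]
          exact isCompl_top_bot
        exact key _
      goodE := fun w hw => N.goodE₁ S hproj (g w) (hcurve w (hW₁W hw))
        (fun b z => htan w (hW₁W hw) b z) ⟨false, z₁, hspan w hw⟩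
      span := fun w hw => ⟨false, z₁, hspan w hw⟩ }
  obtain ⟨W₀, U₀, F₀, h1, h2, h3, h4⟩ := minGood_aux N S k U₁ _ W₁ g D
    (fun w hw => htan w (hW₁W hw))
  exact ⟨W₀, U₀, F₀, h1, h2, h3.trans hW₁W, h4⟩

end Crest.Agent.R266.St4
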