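import Crest.Agent.R266.SurjDense
import Crest.Agent.R266.A.St4Defs

/-!
R266 / A / OpenImage: nodes `St_submOpen` and `St_openImage` of Step 4 of S0404.
-/

set_option autoImplicit false

open scoped Manifold ContDiff Topology
open Set Filter
open Crest.AlgGeometry.HolSplit

namespace Crest.Agent.R266.St4

variable (n : ℕ) (X : Type) [TopologicalSpace X] [T2Space X] [ChartedSpace (Model n) X]
  [IsManifold (mI n) ω X]

omit [T2Space X] in
theorem submOpen_holds : St_submOpen n X := by
  intro E _ _ _ W g hF b p hp hs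
  have hop : IsOpen (W ×ˢ (univ : Set ℂ)) := hF.isOpen.prod isOpen_univ
  have h := SD.isOpen_surj (I := mI n) hop (hF.hol b)
  filter_upwards [h.mem_nhds ⟨hp, hs⟩] with q hq
  exact hq.2

variable {n X} in
omit [T2Space X] in
/-- a holomorphic map is open at submersive points -/
theorem image_mem_nhds_of_surj {E : Type*} [NormedAddCommGroup E] [NormedSpace ℂ E]
    [CompleteSpace E] {O : Set E} (hO : IsOpen O) {f : E → X}
    (hf : ContMDiffOn 𝓘(ℂ, E) (mI n) ω f O) {p : E} (hp : p ∈ O)
    (hs : Function.Surjective (mfderiv 𝓘(ℂ, E) (mI n) f p)) : f '' O ∈ 𝓝 (f p) := by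
  obtain ⟨hop, han, hiff⟩ := SD.local_form hO hf (f p)
  have hpV : p ∈ O ∩ f ⁻¹' (chartAt (Model n) (f p)).source := ⟨hp, mem_chart_source _ _⟩
  have hs' := (hiff p hpV).2 hs
  have hst := (han p hpV).hasStrictFDerivAt
  have hmap := hst.map_nhds_eq_of_surj (LinearMap.range_eq_top.2 hs')
  have himg : (fun x => extChartAt (mI n) (f p) (f x)) ''
      (O ∩ f ⁻¹' (chartAt (Model n) (f p)).source) ∈ 𝓝 (extChartAt (mI n) (f p) (f p)) := by
    rw [← hmap]; exact image_mem_map (hop.mem_nhds hpV)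
  have hc : ContinuousAt (extChartAt (mI n) (f p)) (f p) := continuousAt_extChartAt _
  have h1 := hc.preimage_mem_nhds himg
  filter_upwards [h1, (chartAt (Model n) (f p)).open_source.mem_nhds (mem_chart_source _ _)]
    with x hx hxs
  obtain ⟨q, hq, hqx⟩ := hx
  refine ⟨q, hq.1, ?_⟩
  exact (extChartAt (mI n) (f p)).injOn (by simpa using hq.2) (by simpa using hxs) hqx

omit [T2Space X] in
theorem openImage_holds : St_openImage n X := by
  intro E _ _ _ W g hF b O hO hne hOW
  obtain ⟨p, hpO, hs⟩ := hF.subm b O hO hne hOW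
  have hf : ContMDiffOn 𝓘(ℂ, E × ℂ) (mI n) ω (fun q : E × ℂ => g q.1 b q.2) O :=
    (hF.hol b).mono hOW
  have : CompleteSpace (E × ℂ) := FiniteDimensional.complete ℂ (E × ℂ)
  refine ⟨interior ((fun q : E × ℂ => g q.1 b q.2) '' O), isOpen_interior,
    ⟨g p.1 b p.2, ?_⟩, interior_subset⟩
  rw [mem_interior_iff_mem_nhds]
  exact image_mem_nhds_of_surj hO hf hpO hs

end Crest.Agent.R266.St4
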