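import Crest.Agent.R266.A.St4Defs

/-!
R266 / A / SecFam: derivatives of a holomorphic family of rational curves are global sections
(`St_secFam`).
-/

set_option autoImplicit false
set_option linter.unusedSectionVars false

open scoped Manifold ContDiff Topology
open Set Filter
open Crest.AlgGeometry.HolSplit

namespace Crest.Agent.R266.St4

section

variable {n : ℕ} {X : Type} [TopologicalSpace X] [ChartedSpace (Model n) X]
  [IsManifold (mI n) ω X]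
variable {E : Type} [NormedAddCommGroup E] [NormedSpace ℂ E] [FiniteDimensional ℂ E]

theorem Fam.contMDiffAt {W : Set E} {g : E → Bool → ℂ → X} (hg : Fam n W g) {w : E} (hw : w ∈ W)
    (b : Bool) (z : ℂ) :
    ContMDiffAt 𝓘(ℂ, E × ℂ) (mI n) ω (fun q : E × ℂ => g q.1 b q.2) (w, z) :=
  (hg.hol b).contMDiffAt ((hg.isOpen.prod isOpen_univ).mem_nhds ⟨hw, mem_univ z⟩)

theorem Fam.isCurve {W : Set E} {g : E → Bool → ℂ → X} (hg : Fam n W g) {w : E} (hw : w ∈ W) :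
    IsCurve n (g w) := by
  refine ⟨fun b => ?_, fun b z hz => hg.glue w hw b z hz⟩
  intro z
  have h1 : ContMDiffAt 𝓘(ℂ, ℂ) 𝓘(ℂ, E × ℂ) ω (fun t : ℂ => ((w, t) : E × ℂ)) z := by
    rw [contMDiffAt_iff_contDiffAt]
    exact contDiffAt_const.prodMk contDiffAt_id
  exact (hg.contMDiffAt hw b z).comp z h1

/-- the derivative of a family along `t ↦ (w, t)` applied to a holomorphic vector is a section -/
theorem Fam.holAt {W : Set E} {g : E → Bool → ℂ → X} (hg : Fam n W g) {w : E} (hw : w ∈ W)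
    (b : Bool) {e : ℂ → E × ℂ} {z : ℂ} (he : ContDiffAt ℂ ω e z) :
    HolAt n (g w b) (fun t => dfam n g b (w, t) (e t)) z := by
  have hopen : IsOpen (W ×ˢ (univ : Set ℂ)) := hg.isOpen.prod isOpen_univ
  -- the section of the tangent bundle of `E × ℂ`
  have h1 : ContMDiffAt 𝓘(ℂ, ℂ) 𝓘(ℂ, E × ℂ) ω (fun t : ℂ => ((w, t) : E × ℂ)) z := by
    rw [contMDiffAt_iff_contDiffAt]
    exact contDiffAt_const.prodMk contDiffAt_id
  have h2 : ContMDiffAt 𝓘(ℂ, E × ℂ) (𝓘(ℂ, E × ℂ).tangent) ω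
      (fun q : E × ℂ => (⟨q, e q.2⟩ : TangentBundle 𝓘(ℂ, E × ℂ) (E × ℂ))) (w, z) := by
    have h3 : ContDiffAt ℂ ω (fun q : E × ℂ => e q.2) (w, z) :=
      ContDiffAt.comp (w, z) (by simpa using he) contDiffAt_snd
    exact (contMDiffAt_vectorSpace_iff_contDiffAt
      (V := fun q : E × ℂ => (e q.2 : TangentSpace 𝓘(ℂ, E × ℂ) q))).2 h3
  have h4 : ContMDiffAt 𝓘(ℂ, ℂ) (𝓘(ℂ, E × ℂ).tangent) ω
      (fun t : ℂ => (⟨(w, t), e t⟩ : TangentBundle 𝓘(ℂ, E × ℂ) (E × ℂ))) z :=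
    ContMDiffAt.comp (x := z) (f := fun t : ℂ => ((w, t) : E × ℂ))
      (g := fun q : E × ℂ => (⟨q, e q.2⟩ : TangentBundle 𝓘(ℂ, E × ℂ) (E × ℂ))) h2 h1
  -- the tangent map of the family
  have h5 := (hg.hol b).contMDiffOn_tangentMapWithin (m := ω) (by simp)
    hopen.uniqueMDiffOn
  have h6 : ContMDiffAt (𝓘(ℂ, E × ℂ).tangent) (mI n).tangent ω
      (tangentMapWithin 𝓘(ℂ, E × ℂ) (mI n) (fun q : E × ℂ => g q.1 b q.2) (W ×ˢ univ))
      (⟨(w, z), e z⟩ : TangentBundle 𝓘(ℂ, E × ℂ) (E × ℂ)) := by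
    apply h5.contMDiffAt
    have : Continuous (Bundle.TotalSpace.proj :
        TangentBundle 𝓘(ℂ, E × ℂ) (E × ℂ) → E × ℂ) :=
      FiberBundle.continuous_proj (E × ℂ) (TangentSpace 𝓘(ℂ, E × ℂ))
    exact (hopen.preimage this).mem_nhds ⟨hw, mem_univ z⟩
  have h7 := ContMDiffAt.comp (x := z)
      (f := fun t : ℂ => (⟨(w, t), e t⟩ : TangentBundle 𝓘(ℂ, E × ℂ) (E × ℂ))) h6 h4
  refine h7.congr_of_eventuallyEq (Filter.Eventually.of_forall fun t => ?_)
  simp only [Function.comp, tangentMapWithin]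
  rw [mfderivWithin_of_isOpen hopen ⟨hw, mem_univ t⟩]
  rfl

/-- gluing of the derivatives -/
theorem Fam.dfam_glue {W : Set E} {g : E → Bool → ℂ → X} (hg : Fam n W g) {w : E} (hw : w ∈ W)
    (b : Bool) {z : ℂ} (hz : z ≠ 0) (c : E) (a : ℂ) :
    dfam n g (!b) (w, z) (c, a) = dfam n g b (w, z⁻¹) (c, -(z ^ 2)⁻¹ * a) := by
  have hopen : IsOpen (W ×ˢ ({0}ᶜ : Set ℂ)) := hg.isOpen.prod isOpen_compl_singleton
  set φ : E × ℂ → E × ℂ := fun q => (q.1, q.2⁻¹) with hφ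
  have h1 : (fun q : E × ℂ => g q.1 (!b) q.2) =ᶠ[𝓝 (w, z)]
      (fun q : E × ℂ => g q.1 b q.2) ∘ φ := by
    filter_upwards [hopen.mem_nhds ⟨hw, by simpa using hz⟩] with q hq
    exact hg.glue q.1 hq.1 b q.2 (by simpa using hq.2)
  have hφd : HasFDerivAt φ ((ContinuousLinearMap.fst ℂ E ℂ).prod
      ((-(z ^ 2)⁻¹) • (ContinuousLinearMap.snd ℂ E ℂ))) (w, z) := by
    have h2 : HasFDerivAt (fun q : E × ℂ => q.2⁻¹)
        ((-(z ^ 2)⁻¹) • (ContinuousLinearMap.snd ℂ E ℂ)) (w, z) := by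
      have h3 : HasDerivAt (fun t : ℂ => t⁻¹) (-(z ^ 2)⁻¹) ((w, z) : E × ℂ).2 := hasDerivAt_inv hz
      exact h3.comp_hasFDerivAt (w, z) hasFDerivAt_snd
    exact hasFDerivAt_fst.prodMk h2
  have h4 : MDifferentiableAt 𝓘(ℂ, E × ℂ) (mI n) (fun q : E × ℂ => g q.1 b q.2) (φ (w, z)) :=
    (hg.contMDiffAt hw b z⁻¹).mdifferentiableAt (by simp)
  have h5 : MDifferentiableAt 𝓘(ℂ, E × ℂ) 𝓘(ℂ, E × ℂ) φ (w, z) :=
    hφd.differentiableAt.mdifferentiableAt
  have h6 : mfderiv 𝓘(ℂ, E × ℂ) (mI n) ((fun q : E × ℂ => g q.1 b q.2) ∘ φ) (w, z) =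
      (mfderiv 𝓘(ℂ, E × ℂ) (mI n) (fun q : E × ℂ => g q.1 b q.2) (φ (w, z))).comp
        (mfderiv 𝓘(ℂ, E × ℂ) 𝓘(ℂ, E × ℂ) φ (w, z)) := mfderiv_comp (w, z) h4 h5
  have h7 : mfderiv 𝓘(ℂ, E × ℂ) (mI n) (fun q : E × ℂ => g q.1 (!b) q.2) (w, z) =
      mfderiv 𝓘(ℂ, E × ℂ) (mI n) ((fun q : E × ℂ => g q.1 b q.2) ∘ φ) (w, z) := h1.mfderiv_eq
  have h8 : mfderiv 𝓘(ℂ, E × ℂ) 𝓘(ℂ, E × ℂ) φ (w, z) = (ContinuousLinearMap.fst ℂ E ℂ).prod
      ((-(z ^ 2)⁻¹) • (ContinuousLinearMap.snd ℂ E ℂ)) := by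
    rw [mfderiv_eq_fderiv]
    exact hφd.fderiv
  unfold dfam
  rw [h7, h6, h8]
  rfl

end

theorem secFam_holds (n : ℕ) (X : Type) [TopologicalSpace X] [T2Space X]
    [ChartedSpace (Model n) X] [IsManifold (mI n) ω X] : St_secFam n X := by
  intro E _ _ _ W g hg w hw
  refine ⟨hg.isCurve hw, ?_⟩
  intro b z hsurj u _
  obtain ⟨⟨c, a⟩, hca⟩ := hsurj u
  refine ⟨fun b' t => dfam n g b' (w, t) (c, if b' = b then a else -(t ^ 2) * a), ?_, ?_, ?_⟩
  · constructor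
    · intro b' t
      apply hg.holAt hw b'
      by_cases hb : b' = b
      · simp only [hb, if_true]
        exact contDiffAt_const
      · simp only [hb, if_false]
        exact contDiffAt_const.prodMk (((contDiffAt_id.pow 2).neg).mul contDiffAt_const)
    · intro b' t ht
      rw [hg.dfam_glue hw b' ht]
      by_cases hb : b' = b
      · subst hb
        have h1 : ¬ ((!b') = b') := by cases b' <;> simp
        simp only [h1, if_false, if_true]
        congr 2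
        field_simp
      · have h1 : (!b') = b := by cases b' <;> cases b <;> simp_all
        simp only [h1, hb, if_false, if_true]
        congr 2
        field_simp
  · intro b' t
    exact (Submodule.mem_top : _ ∈ (⊤ : Submodule ℂ (TangentSpace (mI n) (g w b' t))))
  · simp only [if_true]
    exact hca

end Crest.Agent.R266.St4
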