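import Crest.Agent.R266.A.MinGood3

/-! R266 / A / SubE576 (helper576): `St_subE`. -/

set_option autoImplicit false

open scoped Manifold ContDiff Topology
open Set Filter
open Crest.AlgGeometry.HolSplit

namespace Crest.Agent.R266.St4.SubE

variable {n : ℕ} {X : Type} [TopologicalSpace X] [T2Space X] [ChartedSpace (Model n) X]
  [IsManifold (mI n) ω X]

theorem open_indep {ι : Type*} [Finite ι] {O : Set X} (hO : IsOpen O)
    {V : ι → (x : X) → TangentSpace (mI n) x} (hV : ∀ i, IsHolVectorFieldOn O (V i)) {x₀ : X}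
    (hx : x₀ ∈ O) (hi : LinearIndependent ℂ (fun i => vv (V i) x₀)) :
    ∃ O', IsOpen O' ∧ x₀ ∈ O' ∧ O' ⊆ O ∧ ∀ y ∈ O', LinearIndependent ℂ (fun i => vv (V i) y) := by
  have hO₁ : IsOpen (O ∩ (chartAt (Model n) x₀).source) := hO.inter (chartAt (Model n) x₀).open_source
  have hx₁ : x₀ ∈ O ∩ (chartAt (Model n) x₀).source := ⟨hx, mem_chart_source _ _⟩
  have hc : ∀ i, ContinuousAt (fun x => tcc x x₀ x (V i x)) x₀ := by
    intro i
    have h1 : IsHolVectorFieldOn (O ∩ (chartAt (Model n) x₀).source) (V i) :=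
      ContMDiffOn.mono (hV i) inter_subset_left
    rw [holField_iff hO₁ inter_subset_right] at h1
    exact h1.continuousOn.continuousAt (hO₁.mem_nhds hx₁)
  have hc' : ContinuousAt (fun x => fun i => tcc (n := n) x x₀ x (V i x)) x₀ :=
    continuousAt_pi.2 hc
  have h2 : {f : ι → Model n | LinearIndependent ℂ f} ∈
      𝓝 (fun i => tcc (n := n) x₀ x₀ x₀ (V i x₀)) := by
    refine isOpen_setOfPred_linearIndependent.mem_nhds ?_
    exact (tcc_linInd (mem_chart_source _ _) (fun i => vv (V i) x₀)).2 hi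
  have h3 := hc'.preimage_mem_nhds h2
  obtain ⟨O', hO's, hO'o, hO'x⟩ := mem_nhds_iff.1 (Filter.inter_mem h3 (hO₁.mem_nhds hx₁))
  refine ⟨O', hO'o, hO'x, fun y hy => (hO's hy).2.1, fun y hy => ?_⟩
  exact (tcc_linInd (hO's hy).2.2 (fun i => vv (V i) y)).1 (hO's hy).1

theorem frames (S : Splitting n X) (x₀ : X) : ∃ (O : Set X) (k l : ℕ)
    (V : Fin k → (x : X) → TangentSpace (mI n) x) (W : Fin l → (x : X) → TangentSpace (mI n) x),
    x₀ ∈ O ∧ FrameOn (E₁ S) O k V ∧ FrameOn (E₂ S) O l W := by
  let bu := Module.finBasis ℂ (toM (E₁ S) x₀)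
  let bw := Module.finBasis ℂ (toM (E₂ S) x₀)
  have hdis : Disjoint (toM (E₁ S) x₀) (toM (E₂ S) x₀) := disjoint_E S le_rfl
  have hsup : ∀ x, toM (E₁ S) x ⊔ toM (E₂ S) x = ⊤ := by
    intro x
    rw [eq_top_iff]
    intro v _
    refine Submodule.mem_sup.2 ⟨pr S x v, ?_, v - pr S x v, ?_, add_sub_cancel _ _⟩
    · rw [mem_E₁, pr_idem]
    · rw [mem_E₂, map_sub, pr_idem, sub_self]
  have hdim : Module.finrank ℂ (toM (E₁ S) x₀) + Module.finrank ℂ (toM (E₂ S) x₀) = n := by
    have h1 := Submodule.finrank_sup_add_finrank_inf_eq (toM (E₁ S) x₀) (toM (E₂ S) x₀)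
    rw [hsup, hdis.eq_bot, finrank_bot, add_zero, finrank_top] at h1
    rw [← h1]
    simp
  set k := Module.finrank ℂ (toM (E₁ S) x₀) with hk
  set l := Module.finrank ℂ (toM (E₂ S) x₀) with hl
  let V : Fin k → (x : X) → TangentSpace (mI n) x := fun i x =>
    S.proj x (cfield x₀ ((bu i : toM (E₁ S) x₀) : Model n) x)
  let W : Fin l → (x : X) → TangentSpace (mI n) x := fun j x =>
    cfield x₀ ((bw j : toM (E₂ S) x₀) : Model n) x -
      S.proj x (cfield x₀ ((bw j : toM (E₂ S) x₀) : Model n) x)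
  have hsrc : IsOpen (chartAt (Model n) x₀).source := (chartAt (Model n) x₀).open_source
  have hV : ∀ i, IsHolVectorFieldOn (chartAt (Model n) x₀).source (V i) := fun i =>
    S.holomorphic _ hsrc _ (cfield_hol x₀ _)
  have hW : ∀ j, IsHolVectorFieldOn (chartAt (Model n) x₀).source (W j) := fun j =>
    ContMDiffOn.sub_section (cfield_hol x₀ _) (S.holomorphic _ hsrc _ (cfield_hol x₀ _))
  have hVE : ∀ i x, vv (V i) x ∈ toM (E₁ S) x := by
    intro i x
    rw [mem_E₁]
    exact pr_idem S x _
  have hWE : ∀ j x, vv (W j) x ∈ toM (E₂ S) x := by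
    intro j x
    rw [mem_E₂]
    have : vv (W j) x = vv (cfield x₀ ((bw j : toM (E₂ S) x₀) : Model n)) x -
      pr S x (vv (cfield x₀ ((bw j : toM (E₂ S) x₀) : Model n)) x) := rfl
    rw [this, map_sub, pr_idem, sub_self]
  have hcf : ∀ v : Model n, (cfield x₀ v x₀ : Model n) = v := fun v =>
    tcc_self (mem_chart_source _ _) v
  have hV0 : ∀ i, vv (V i) x₀ = ((bu i : toM (E₁ S) x₀) : Model n) := by
    intro i
    have : vv (V i) x₀ = pr S x₀ (cfield x₀ ((bu i : toM (E₁ S) x₀) : Model n) x₀) := rfl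
    rw [this, hcf]
    exact mem_E₁.1 (bu i).2
  have hW0 : ∀ j, vv (W j) x₀ = ((bw j : toM (E₂ S) x₀) : Model n) := by
    intro j
    have : vv (W j) x₀ = vv (cfield x₀ ((bw j : toM (E₂ S) x₀) : Model n)) x₀ -
      pr S x₀ (vv (cfield x₀ ((bw j : toM (E₂ S) x₀) : Model n)) x₀) := rfl
    have hcf' : vv (cfield x₀ ((bw j : toM (E₂ S) x₀) : Model n)) x₀ =
      ((bw j : toM (E₂ S) x₀) : Model n) := hcf _
    rw [this, hcf', mem_E₂.1 (bw j).2, sub_zero]
  let VW : Fin k ⊕ Fin l → (x : X) → TangentSpace (mI n) x := Sum.elim V W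
  have hind0 : LinearIndependent ℂ (fun i => vv (VW i) x₀) := by
    have h1 : (fun i => vv (VW i) x₀) = Sum.elim (fun i => ((bu i : toM (E₁ S) x₀) : Model n))
        (fun j => ((bw j : toM (E₂ S) x₀) : Model n)) := by
      funext i
      rcases i with i | j
      · exact hV0 i
      · exact hW0 j
    rw [h1]
    refine LinearIndependent.sum_type
      (bu.linearIndependent.map' (toM (E₁ S) x₀).subtype (Submodule.ker_subtype _))
      (bw.linearIndependent.map' (toM (E₂ S) x₀).subtype (Submodule.ker_subtype _)) ?_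
    refine hdis.mono ?_ ?_
    · rw [Submodule.span_le]; rintro _ ⟨i, rfl⟩; exact (bu i).2
    · rw [Submodule.span_le]; rintro _ ⟨i, rfl⟩; exact (bw i).2
  obtain ⟨O, hOo, hxO, hOs, hOi⟩ := open_indep hsrc (V := VW) (by
    rintro (i | j)
    · exact hV i
    · exact hW j) (mem_chart_source _ x₀) hind0
  have hli1 : ∀ y ∈ O, LinearIndependent ℂ (fun i => vv (V i) y) := fun y hy =>
    (hOi y hy).comp Sum.inl Sum.inl_injective
  have hli2 : ∀ y ∈ O, LinearIndependent ℂ (fun i => vv (W i) y) := fun y hy =>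
    (hOi y hy).comp Sum.inr Sum.inr_injective
  have hle1 : ∀ y, Submodule.span ℂ (Set.range fun i => vv (V i) y) ≤ toM (E₁ S) y := by
    intro y; rw [Submodule.span_le]; rintro _ ⟨i, rfl⟩; exact hVE i y
  have hle2 : ∀ y, Submodule.span ℂ (Set.range fun i => vv (W i) y) ≤ toM (E₂ S) y := by
    intro y; rw [Submodule.span_le]; rintro _ ⟨i, rfl⟩; exact hWE i y
  have hdimy : ∀ y ∈ O, Module.finrank ℂ (toM (E₁ S) y) = k ∧
      Module.finrank ℂ (toM (E₂ S) y) = l := by
    intro y hy
    have h1 := Submodule.finrank_mono (hle1 y)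
    have h2 := Submodule.finrank_mono (hle2 y)
    rw [finrank_span_eq_card (hli1 y hy), Fintype.card_fin] at h1
    rw [finrank_span_eq_card (hli2 y hy), Fintype.card_fin] at h2
    have h3 := Submodule.finrank_sup_add_finrank_inf_eq (toM (E₁ S) y) (toM (E₂ S) y)
    rw [hsup, (disjoint_E S (F := toM (E₁ S) y) le_rfl).eq_bot, finrank_bot, add_zero,
      finrank_top] at h3
    have h4 : Module.finrank ℂ (Model n) = n := by simp
    omega
  refine ⟨O, k, l, V, W, hxO, ?_, ?_⟩
  · exact
      { isOpen := hOo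
        hol := fun i => ContMDiffOn.mono (hV i) hOs
        indep := hli1
        span := by
          intro y hy
          rw [span_iff]
          apply Submodule.eq_of_le_of_finrank_eq (hle1 y)
          rw [finrank_span_eq_card (hli1 y hy), Fintype.card_fin, (hdimy y hy).1] }
  · exact
      { isOpen := hOo
        hol := fun i => ContMDiffOn.mono (hW i) hOs
        indep := hli2
        span := by
          intro y hy
          rw [span_iff]
          apply Submodule.eq_of_le_of_finrank_eq (hle2 y)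
          rw [finrank_span_eq_card (hli2 y hy), Fintype.card_fin, (hdimy y hy).2] }

theorem subE_holds576 : St_subE n X := by
  intro S
  refine ⟨⟨isOpen_univ, fun x _ => ?_⟩, ⟨isOpen_univ, fun x _ => ?_⟩, ?_⟩
  · obtain ⟨O, k, l, V, W, hx, h1, h2⟩ := frames S x
    exact ⟨O, k, V, hx, subset_univ _, h1⟩
  · obtain ⟨O, k, l, V, W, hx, h1, h2⟩ := frames S x
    exact ⟨O, l, W, hx, subset_univ _, h2⟩
  · intro F U hF hFE
    refine ⟨hF.1, fun x hx => ?_⟩
    obtain ⟨O₁, k, V, hx₁, hO₁U, hV⟩ := hF.2 x hx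
    obtain ⟨O₂, k₂, l, V₂, W, hx₂, -, hW⟩ := frames S x
    have hFE' : ∀ x ∈ U, toM F x ≤ toM (E₁ S) x := hFE
    refine ⟨O₁ ∩ O₂, k + l, fun j => Sum.elim V W (finSumFinEquiv.symm j), ⟨hx₁, hx₂⟩,
      inter_subset_left.trans hO₁U, ?_⟩
    have hval : ∀ y, (fun j : Fin (k + l) => vv (Sum.elim V W (finSumFinEquiv.symm j)) y) =
        Sum.elim (fun i => vv (V i) y) (fun i => vv (W i) y) ∘ finSumFinEquiv.symm := by
      intro y
      funext j
      simp only [Function.comp]
      rcases finSumFinEquiv.symm j with i | i <;> rfl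
    exact
      { isOpen := hV.isOpen.inter hW.isOpen
        hol := by
          intro j
          rcases h : finSumFinEquiv.symm j with i | i
          · simp only [h, Sum.elim_inl]
            exact ContMDiffOn.mono (hV.hol i) inter_subset_left
          · simp only [h, Sum.elim_inr]
            exact ContMDiffOn.mono (hW.hol i) inter_subset_right
        indep := by
          intro y hy
          have h1 : LinearIndependent ℂ (Sum.elim (fun i => vv (V i) y) (fun i => vv (W i) y)) := by
            refine LinearIndependent.sum_type (hV.indep y hy.1) (hW.indep y hy.2) ?_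
            rw [span_iff.1 (hV.span y hy.1), span_iff.1 (hW.span y hy.2)]
            exact disjoint_E S (hFE' y (hO₁U hy.1))
          have h2 := h1.comp _ (finSumFinEquiv (m := k) (n := l)).symm.injective
          rw [← hval y] at h2
          exact h2
        span := by
          intro y hy
          show Submodule.span ℂ (Set.range (fun j : Fin (k + l) =>
            vv (Sum.elim V W (finSumFinEquiv.symm j)) y)) = toM F y ⊔ toM (E₂ S) y
          rw [hval y, Set.range_comp, (finSumFinEquiv (m := k) (n := l)).symm.range_eq_univ,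
            Set.image_univ, Set.Sum.elim_range, Submodule.span_union,
            span_iff.1 (hV.span y hy.1), span_iff.1 (hW.span y hy.2)] }

end Crest.Agent.R266.St4.SubE
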