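import Crest.Agent.R266.A.MinGood4
import Crest.Agent.R266.A.DensSec
import Crest.Agent.R266.A.SecCalc
import Crest.Agent.R266.A.SecFam
import Crest.Agent.R266.A.Bracket
import Crest.Agent.R266.A.KerRank
import Crest.Agent.R266.A.KerClosed
import Crest.Agent.R266.A.OpenImage
import Crest.Agent.R266.A.SubE576
import Crest.Agent.R266.A.GoodE1X

/-! R266 / A / MinGoodFinal (helper576): `St_minGood` from `St_subE` and `St_goodE₁`. -/

set_option autoImplicit false

open scoped Manifold ContDiff Topology
open Set Filter
open Crest.AlgGeometry.HolSplit

namespace Crest.Agent.R266.St4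

variable {n : ℕ} {X : Type} [TopologicalSpace X] [T2Space X] [ChartedSpace (Model n) X]
  [IsManifold (mI n) ω X]

theorem minGood_of_two (h1 : St_subE n X) (h2 : St_goodE₁ n X) : St_minGood n X :=
  minGood_of_nodes
    { coeff := coeff_holds
      dens := dens_holds n X
      secAdd := secAdd
      secProj := secProj
      secVel := secVel
      secFam := secFam_holds n X
      bracket := bracket_holds n X
      isKer := isKer_holds n X
      kerRank := kerRank_holds n X
      kerClosed := kerClosed_holds n X
      openImage := openImage_holds n X
      submOpen := submOpen_holds n X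
      subE := h1
      goodE₁ := h2 }

end Crest.Agent.R266.St4

namespace Crest.Agent.R266.St4

/-- Step 4 of S0404 -/
theorem minGood_holds (n : ℕ) (X : Type) [TopologicalSpace X] [T2Space X]
    [ChartedSpace (Model n) X] [IsManifold (mI n) ω X] : St_minGood n X :=
  minGood_of_two SubE.subE_holds576 (goodE₁_holds n X)

end Crest.Agent.R266.St4
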