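import Crest.Agent.R266.A.Main404
import Crest.Agent.R266.StepOne
import Crest.Agent.R266.StepTwo
import Crest.Agent.R266.StepThree
import Crest.Agent.R266.A.EndGameM
import Crest.Agent.R266.A.Ident

/-!
R266 / A / Pre404 (helper744): S0404 from `St_minGood` alone.
-/

set_option autoImplicit false

open scoped Manifold ContDiff Topology
open Set Metric Filter
open Crest.AlgGeometry.HolSplit
open Crest.Agent.R266.St4

namespace Crest.Agent.R266.F404

theorem pre404 {n : ℕ} {X : Type} [TopologicalSpace X] [T2Space X] [SecondCountableTopology X]
    [CompactSpace X] [ConnectedSpace X] [ChartedSpace (Model n) X] [IsManifold (mI n) ω X]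
    (hproj : IsProjective n X) (hrc : IsRationallyConnected n X)
    (hm : St_minGood n X) (S : Splitting n X) :
    S.FirstIntegrable ∧ S.SecondIntegrable :=
  main404 hproj hrc (one_holds n X) (two_holds n X) (three_holds n X) hm (end_holds n X)
    (ident_holds n X) S

end Crest.Agent.R266.F404
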