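import Mathlib
import Crest.Prelude.Def_TangentSplitting
import Crest.Agent.R266.Chart3
import Crest.Agent.R266.A.St4Defs
import Crest.Agent.R266.A.Main404

/-!
R266 / A / SubE2 (helper744): `E₁`, `E₂`, `F ⊔ E₂` are holomorphic subbundles.
-/

set_option autoImplicit false

open scoped Manifold ContDiff Topology
open Set Filter
open Crest.AlgGeometry.HolSplit
open Crest.Agent.R266.St4

namespace Crest.Agent.R266.F404

variable {n : ℕ} {X : Type} [TopologicalSpace X] [T2Space X] [ChartedSpace (Model n) X]
  [IsManifold (mI n) ω X]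

omit [T2Space X] [ChartedSpace (Model n) X] [IsManifold (mI n) ω X] [TopologicalSpace X] in
theorem span_gen {k : ℕ} {w : Fin k → Model n} {P : Model n →L[ℂ] Model n}
    (h : LinearIndependent ℂ w) (hw : ∀ i, w i ∈ LinearMap.range P.toLinearMap)
    (hk : Module.finrank ℂ (LinearMap.range P.toLinearMap) = k) :
    Submodule.span ℂ (Set.range w) = LinearMap.range P.toLinearMap := by
  apply Submodule.eq_of_le_of_finrank_eq
  · rw [Submodule.span_le]
    rintro _ ⟨i, rfl⟩
    exact hw i
  · rw [finrank_span_eq_card h, Fintype.card_fin, hk]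

theorem isSub_E₁ (S : Splitting n X) : IsSub (E₁ S) (univ : Set X) := by
  refine ⟨isOpen_univ, fun x₀ _ => ?_⟩
  -- basis of the range at x₀
  set R₀ : Submodule ℂ (Model n) := LinearMap.range (pr S x₀).toLinearMap with hR₀
  set k := Module.finrank ℂ R₀ with hk
  let bs := Module.finBasis ℂ R₀
  let v : Fin k → Model n := fun i => (bs i : Model n)
  have hvli : LinearIndependent ℂ v := bs.linearIndependent.map' R₀.subtype (Submodule.ker_subtype _)
  have hvR : ∀ i, pr S x₀ (v i) = v i := by
    intro i
    obtain ⟨w, hw⟩ := (bs i).2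
    have h1 : pr S x₀ w = v i := hw
    rw [← h1, pr_idem]
  set c := chartAt (Model n) x₀ with hc
  have hx₀ : x₀ ∈ c.source := mem_chart_source _ x₀
  -- the open condition
  have hcont : ContinuousOn (fun y => fun i => Pc S x₀ y (v i)) c.target := by
    rw [continuousOn_pi]
    intro i
    exact ((Pc_contDiffOn S x₀).continuousOn).clm_apply continuousOn_const
  have hopen : IsOpen (c.target ∩ (fun y => fun i => Pc S x₀ y (v i)) ⁻¹'
      {f : Fin k → Model n | LinearIndependent ℂ f}) :=
    hcont.isOpen_inter_preimage c.open_target isOpen_setOfPred_linearIndependent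
  have hopen2 := c.isOpen_inter_preimage hopen
  have hrk := (rk_locallyConstant S).isOpen_fiber (rk S x₀)
  refine ⟨(c.source ∩ c ⁻¹' (c.target ∩ (fun y => fun i => Pc S x₀ y (v i)) ⁻¹'
      {f : Fin k → Model n | LinearIndependent ℂ f})) ∩ {x | rk S x = rk S x₀}, k,
    fun i => pfield S x₀ (v i), ⟨⟨hx₀, c.map_source hx₀, ?_⟩, rfl⟩, subset_univ _,
    hopen2.inter hrk, ?_, ?_, ?_⟩
  · -- independence at the centre
    have h1 : (fun i => Pc S x₀ (c x₀) (v i)) = v := by
      funext i
      have h2 := Pc_at S hx₀ (v i)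
      have h3 : Pc S x₀ (c x₀) = pr S x₀ := Pc_self S x₀
      rw [h3]
      exact hvR i
    rw [mem_preimage, Set.mem_ofPred_eq]
    rw [h1]
    exact hvli
  · intro i
    exact hol_mono (pfield_hol S x₀ (v i)) (fun x hx => hx.1.1)
  · intro x hx
    have h1 : LinearIndependent ℂ (fun i => Pc S x₀ (c x) (v i)) := hx.1.2.2
    have h2 : (fun i => Pc S x₀ (c x) (v i)) =
        (tcc x x₀ x).toLinearMap ∘ (fun i => (pfield S x₀ (v i) x : Model n)) := by
      funext i
      have h3 := Vc_pfield S (c.map_source hx.1.1) (v i)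
      rw [← h3]
      unfold Vc
      rw [c.left_inv hx.1.1]
      rfl
    rw [h2] at h1
    exact h1.of_comp _
  · intro x hx
    have h1 : LinearIndependent ℂ (fun i => (pfield S x₀ (v i) x : Model n)) := by
      have h1 : LinearIndependent ℂ (fun i => Pc S x₀ (c x) (v i)) := hx.1.2.2
      have h2 : (fun i => Pc S x₀ (c x) (v i)) =
          (tcc x x₀ x).toLinearMap ∘ (fun i => (pfield S x₀ (v i) x : Model n)) := by
        funext i
        have h3 := Vc_pfield S (c.map_source hx.1.1) (v i)
        rw [← h3]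
        unfold Vc
        rw [c.left_inv hx.1.1]
        rfl
      rw [h2] at h1
      exact h1.of_comp _
    exact span_gen (w := fun i => (pfield S x₀ (v i) x : Model n)) (P := pr S x) h1
      (fun i => ⟨cfield x₀ (v i) x, rfl⟩) hx.2

theorem isSub_E₂ (S : Splitting n X) : IsSub (E₂ S) (univ : Set X) := by
  have h := isSub_E₁ (swapS S)
  have h2 : E₁ (swapS S) = E₂ S := funext fun x => E₁_swap S x
  rwa [h2] at h

theorem subE2_holds (n : ℕ) (X : Type) [TopologicalSpace X] [T2Space X]
    [ChartedSpace (Model n) X] [IsManifold (mI n) ω X] : St_subE n X := by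
  intro S
  refine ⟨isSub_E₁ S, isSub_E₂ S, fun F U hF hle => ?_⟩
  have h2 : IsSub (E₂ S) U := by
    have := isSub_inter (isSub_E₂ S) hF.1
    rwa [univ_inter] at this
  exact isSub_sup hF h2 fun x hx => disj_of_le S (hle x hx) le_rfl

end Crest.Agent.R266.F404
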