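import Crest.Agent.R266.A.Pre404
import Crest.Agent.R266.A.MinGood4
import Crest.Agent.R266.A.DensSec
import Crest.Agent.R266.A.SecCalc
import Crest.Agent.R266.A.SecFam
import Crest.Agent.R266.A.Bracket
import Crest.Agent.R266.A.KerRank
import Crest.Agent.R266.A.KerClosed
import Crest.Agent.R266.A.OpenImage

/-!
R266 / A / Wire404 (helper744): S0404 from `St_subE` and `St_goodE₁`.
-/

set_option autoImplicit false

open scoped Manifold ContDiff Topology
open Set Metric Filter
open Crest.AlgGeometry.HolSplit
open Crest.Agent.R266.St4

namespace Crest.Agent.R266.F404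

theorem nodes_of (n : ℕ) (X : Type) [TopologicalSpace X] [T2Space X]
    [ChartedSpace (Model n) X] [IsManifold (mI n) ω X]
    (hs : St_subE n X) (hg : St_goodE₁ n X) : Nodes n X where
  coeff := coeff_holds
  dens := dens_holds n X
  secAdd := secAdd
  secProj := secProj
  secVel := secVel
  secFam := secFam_holds n X
  bracket := bracket_holds n X
  isKer := isKer_holds n X
  kerRank := kerRank_holds n X
  kerClosed := kerClosed_holds n X
  openImage := openImage_holds n X
  submOpen := submOpen_holds n X
  subE := hs
  goodE₁ := hg

theorem wire404 {n : ℕ} {X : Type} [TopologicalSpace X] [T2Space X] [SecondCountableTopology X]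
    [CompactSpace X] [ConnectedSpace X] [ChartedSpace (Model n) X] [IsManifold (mI n) ω X]
    (hproj : IsProjective n X) (hrc : IsRationallyConnected n X)
    (hs : St_subE n X) (hg : St_goodE₁ n X) (S : Splitting n X) :
    S.FirstIntegrable ∧ S.SecondIntegrable :=
  pre404 hproj hrc (minGood_of_nodes (nodes_of n X hs hg)) S

end Crest.Agent.R266.F404
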